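import Mathlib

/-!
# R239 / CFT : core definitions (owner helper97)

Classical (ideal theoretic, completion free) class field theory.  All local conditions are
expressed by congruences in the global field.  See `Blueprint.lean` in this folder.
-/

set_option autoImplicit false

namespace Claimed.Agent.R239.CFT

open IsDedekindDomain NumberField

/-- finite primes of a number field -/
abbrev Pl (K : Type*) [Field K] [NumberField K] := HeightOneSpectrum (𝓞 K)

section base

variable {K : Type*} [Field K] [NumberField K]

/-- additive normalised valuation (junk value `0` at `0`) -/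
noncomputable def ord (v : Pl K) (a : K) : ℤ := -(WithZero.log (v.valuation K a))

/-- `One v N a` : `a ≡ 1 mod v ^ N` -/
def One (v : Pl K) (N : ℕ) (a : K) : Prop :=
  v.valuation K (a - 1) ≤ WithZero.exp (-(N : ℤ))

lemma One.mono {v : Pl K} {M N : ℕ} (h : M ≤ N) {a : K} (ha : One v N a) : One v M a :=
  le_trans ha (by
    rw [WithZero.exp_le_exp]
    omega)

lemma one_one (v : Pl K) (N : ℕ) : One v N (1 : K) := by
  simp [One]

lemma One.val_le_one {v : Pl K} {N : ℕ} {a : K} (ha : One v N a) : v.valuation K a ≤ 1 := by
  have h1 : v.valuation K (a - 1) ≤ 1 := le_trans ha (by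
    rw [← WithZero.exp_zero, WithZero.exp_le_exp]
    omega)
  have := (v.valuation K).map_add (a - 1) 1
  simp only [sub_add_cancel, map_one] at this
  exact le_trans this (max_le h1 le_rfl)

lemma One.val_eq_one {v : Pl K} {N : ℕ} (hN : 1 ≤ N) {a : K} (ha : One v N a) :
    v.valuation K a = 1 := by
  have h1 : v.valuation K (a - 1) < 1 := lt_of_le_of_lt ha (by
    rw [← WithZero.exp_zero, WithZero.exp_lt_exp]
    omega)
  have := Valuation.map_add_eq_of_lt_left (v.valuation K) (x := 1) (y := a - 1)
    (by simpa using h1)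
  simpa using this

lemma One.mul {v : Pl K} {N : ℕ} {a b : K} (ha : One v N a) (hb : One v N b) :
    One v N (a * b) := by
  have e : a * b - 1 = a * (b - 1) + (a - 1) := by ring
  unfold One
  rw [e]
  refine le_trans ((v.valuation K).map_add _ _) (max_le ?_ ha)
  rw [map_mul]
  calc v.valuation K a * v.valuation K (b - 1) ≤ 1 * v.valuation K (b - 1) :=
        mul_le_mul_left ha.val_le_one _
    _ = v.valuation K (b - 1) := one_mul _
    _ ≤ _ := hb

lemma One.inv {v : Pl K} {N : ℕ} (hN : 1 ≤ N) {a : K} (ha : One v N a) : One v N a⁻¹ := by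
  have h1 := ha.val_eq_one hN
  have ha0 : a ≠ 0 := by
    rintro rfl
    simp at h1
  have e : a⁻¹ - 1 = -(a⁻¹ * (a - 1)) := by
    field_simp
    ring
  unfold One
  rw [e, Valuation.map_neg, map_mul, map_inv₀, h1, inv_one, one_mul]
  exact ha

/-- local `n`-th powers at `v` -/
def PowLoc (n : ℕ) (v : Pl K) : Subgroup Kˣ where
  carrier := {a | ∀ N : ℕ, ∃ b : Kˣ, One v N ((a : K) / (b : K) ^ n)}
  mul_mem' := by
    intro a a' ha ha' N
    obtain ⟨b, hb⟩ := ha N
    obtain ⟨b', hb'⟩ := ha' N
    refine ⟨b * b', ?_⟩
    have := hb.mul hb'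
    convert this using 1
    push_cast
    rw [mul_pow]
    field_simp
  one_mem' := fun N => ⟨1, by simpa using one_one v N⟩
  inv_mem' := by
    intro a ha N
    obtain ⟨b, hb⟩ := ha (N + 1)
    refine ⟨b⁻¹, ?_⟩
    have := (hb.inv (by omega)).mono (Nat.le_succ N)
    convert this using 1
    push_cast
    rw [inv_pow]
    field_simp

/-- divisors = fractional ideals, written additively -/
abbrev Div (K : Type*) [Field K] [NumberField K] := Pl K →₀ ℤ

lemma finite_ord_ne_zero (a : K) : {v : Pl K | ord v a ≠ 0}.Finite := by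
  by_cases ha : a = 0
  · subst ha
    simp [ord]
  have h1 := HeightOneSpectrum.Support.finite (𝓞 K) a
  have h2 := HeightOneSpectrum.Support.finite (𝓞 K) a⁻¹
  refine (h1.union h2).subset ?_
  intro v hv
  simp only [Set.mem_ofPred_eq, ord, ne_eq, neg_eq_zero] at hv
  have hne : v.valuation K a ≠ 0 := (Valuation.ne_zero_iff _).2 ha
  have hne1 : v.valuation K a ≠ 1 := by
    intro h
    apply hv
    rw [h]
    simp
  rcases lt_or_gt_of_ne hne1 with h | h
  · right
    simp only [HeightOneSpectrum.Support, Set.mem_ofPred_eq, map_inv₀]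
    exact (one_lt_inv₀ (zero_lt_iff.2 hne)).2 h
  · left
    exact h

/-- the principal divisor of `a` -/
noncomputable def dv (a : K) : Div K :=
  Finsupp.ofSupportFinite (fun v => ord v a) (finite_ord_ne_zero a)

@[simp] lemma dv_apply (a : K) (v : Pl K) : dv a v = ord v a := rfl

/-- divisors prime to `S` -/
def IS (S : Set (Pl K)) : AddSubgroup (Div K) where
  carrier := {D | ∀ v ∈ S, D v = 0}
  add_mem' := by
    intro a b ha hb v hv
    simp [ha v hv, hb v hv]
  zero_mem' := by
    intro v _
    simp
  neg_mem' := by
    intro a ha v hv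
    simp [ha v hv]

/-- the part of the principal divisor of `a` outside `S` -/
noncomputable def dvS (S : Set (Pl K)) (a : K) : Div K := by
  classical exact (dv a).filter (fun v => v ∉ S)

/-- a modulus (no archimedean part: all base fields of the chain are totally complex) -/
abbrev Modulus (K : Type*) [Field K] [NumberField K] := Pl K →₀ ℕ

/-- the ray `K_{c,1}` -/
def Ray (c : Modulus K) : Subgroup Kˣ where
  carrier := {a | ∀ v ∈ c.support, One v (c v) (a : K)}
  mul_mem' := by
    intro a b ha hb v hv
    simpa using (ha v hv).mul (hb v hv)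
  one_mem' := fun v _ => by simpa using one_one v _
  inv_mem' := by
    intro a ha v hv
    have h1 : 1 ≤ c v := Nat.one_le_iff_ne_zero.2 (Finsupp.mem_support_iff.1 hv)
    simpa using (ha v hv).inv h1

/-- principal divisors of the ray -/
noncomputable def PRay (c : Modulus K) : AddSubgroup (Div K) :=
  AddSubgroup.closure {D | ∃ a ∈ Ray c, D = dv ((a : Kˣ) : K)}

end base

section rel

variable (K : Type*) [Field K] [NumberField K] (L : Type*) [Field L] [NumberField L] [Algebra K L]

/-- the local norm group at `v` (completion free) -/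
def Nloc (v : Pl K) : Subgroup Kˣ where
  carrier := {a | ∀ N : ℕ, ∃ b : Lˣ, One v N ((a : K) / Algebra.norm K (b : L))}
  mul_mem' := by
    intro a a' ha ha' N
    obtain ⟨b, hb⟩ := ha N
    obtain ⟨b', hb'⟩ := ha' N
    refine ⟨b * b', ?_⟩
    have := hb.mul hb'
    convert this using 1
    push_cast
    rw [map_mul]
    have h1 : Algebra.norm K (b : L) ≠ 0 := by simp [Algebra.norm_eq_zero_iff]
    have h2 : Algebra.norm K (b' : L) ≠ 0 := by simp [Algebra.norm_eq_zero_iff]
    field_simp
  one_mem' := fun N => ⟨1, by simpa using one_one v N⟩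
  inv_mem' := by
    intro a ha N
    obtain ⟨b, hb⟩ := ha (N + 1)
    refine ⟨b⁻¹, ?_⟩
    have := (hb.inv (by omega)).mono (Nat.le_succ N)
    convert this using 1
    have h1 : Algebra.norm K (b : L) ≠ 0 := by simp [Algebra.norm_eq_zero_iff]
    have h2 : Algebra.norm K ((b⁻¹ : Lˣ) : L) = (Algebra.norm K (b : L))⁻¹ := by
      apply eq_inv_of_mul_eq_one_left
      rw [← map_mul]
      simp
    rw [h2]
    push_cast
    field_simp

/-- local norms at all primes of `S` -/
def NlocS (S : Set (Pl K)) : Subgroup Kˣ := ⨅ v ∈ S, Nloc K L v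

/-- the prime of `K` below `w` -/
noncomputable abbrev below (w : Pl L) : Pl K := w.under (𝓞 K)

/-- primes of `L` above a set of primes of `K` -/
def above (S : Set (Pl K)) : Set (Pl L) := {w | below K L w ∈ S}

/-- residue degree -/
noncomputable def fdeg (w : Pl L) : ℕ := w.asIdeal.inertiaDeg (𝓞 K)

/-- norm of divisors -/
noncomputable def Nm : Div L →+ Div K :=
  Finsupp.liftAddHom (fun w : Pl L =>
    (Finsupp.singleAddHom (below K L w)).comp ((zmultiplesHom ℤ) (fdeg K L w : ℤ)))

/-- norms of divisors prime to `S` -/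
noncomputable def NmS (S : Set (Pl K)) : AddSubgroup (Div K) := (IS (above K L S)).map (Nm K L)

/-- the congruence subgroup `P_c N(c)` attached to `L/K` and the modulus `c` -/
noncomputable def Hc (c : Modulus K) : AddSubgroup (Div K) :=
  PRay c ⊔ NmS K L (c.support : Set (Pl K))

variable [IsGalois K L]

open Pointwise

/-- `v` is unramified in `L` (all inertia groups are trivial) -/
def Unram (v : Pl K) : Prop :=
  ∀ w : Pl L, below K L w = v → w.asIdeal.inertia Gal(L/K) = ⊥

/-- `v` splits completely in `L` (all decomposition groups are trivial) -/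
def Split (v : Pl K) : Prop :=
  ∀ w : Pl L, below K L w = v → MulAction.stabilizer Gal(L/K) w.asIdeal = ⊥

/-- order of the decomposition group at `v` -/
noncomputable def nloc (v : Pl K) : ℕ :=
  sSup {n | ∃ w : Pl L, below K L w = v ∧ n = Nat.card (MulAction.stabilizer Gal(L/K) w.asIdeal)}

/-- admissible modulus -/
def Admissible (c : Modulus K) : Prop :=
  (∀ v : Pl K, v ∉ c.support → Unram K L v) ∧
  ∀ v ∈ c.support, ∀ a : Kˣ, One v (c v) (a : K) → a ∈ Nloc K L v

/-- `σ` is the Frobenius at `v` -/
def IsFrob (σ : Gal(L/K)) (v : Pl K) : Prop :=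
  ∀ w : Pl L, below K L w = v → IsArithFrobAt (𝓞 K) σ w.asIdeal

open Classical in
/-- a Frobenius element at `v` (junk value `1` if there is none) -/
noncomputable def frob (v : Pl K) : Gal(L/K) :=
  if h : ∃ σ : Gal(L/K), IsFrob K L σ v then h.choose else 1

end rel

section artin

variable (K : Type*) [Field K] [NumberField K] (L : Type*) [Field L] [NumberField L] [Algebra K L]
  [IsAbelianGalois K L]

open scoped IsMulCommutative in
/-- the Artin map on divisors (meaningful on divisors prime to the ramified primes) -/
noncomputable def art : Div K →+ Additive Gal(L/K) :=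
  Finsupp.liftAddHom
    (fun v : Pl K => (zmultiplesHom (Additive Gal(L/K))) (Additive.ofMul (frob K L v)))

end artin

/-- the norm on units -/
noncomputable abbrev normU (K L : Type*) [Field K] [Field L] [Algebra K L] : Lˣ →* Kˣ :=
  Units.map (Algebra.norm K : L →* K)

/-- the standing hypothesis on base fields: `K` contains a primitive `ℓ`-th root of unity -/
def HasMu (ℓ : ℕ) (K : Type*) [Field K] : Prop := ∃ ζ : K, IsPrimitiveRoot ζ ℓ

end Claimed.Agent.R239.CFT
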