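import Claimed.Agent.R239.CFT.P9f

/-!
# R239 / CFT : OUTPUTS of the class field theory spine (consumers: XL, LC)

`ℓ` odd prime, `K ∋ μ_ℓ`.  All statements are completion free (see `Defs.lean`).  This file re-exports:

* `second_ineq`, `hidx_eq_finrank`, `hnt`, `lni`, `hnt_cyclic`, `lni_cyclic`   (`P7c.lean`)
* `Over`, `reciprocity_cyclic`, `reciprocity`, `cft1`                          (`P8c4.lean`)
* `cft2_P9`                                                                    (`P9f.lean`)
-/

set_option autoImplicit false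

namespace Claimed.Agent.R239.CFT

open IsDedekindDomain NumberField

universe u

/-- OUTPUT: CFT-2 (weak form: the exceptional set `S` is not controlled) -/
theorem cft2 {ℓ : ℕ} (hℓ : ℓ.Prime) (h2 : ℓ ≠ 2) (K : Type u) [Field K] [NumberField K] (hμ : HasMu ℓ K) (k N : ℕ)
    (ψ : Div K →+ ZMod (ℓ ^ k))
    (hψ : ∀ a : Kˣ, (∀ v : Pl K, Over ℓ v → One v N (a : K)) → ψ (dv (a : K)) = 0) :
    ∃ (L : Type u) (_ : Field L) (_ : NumberField L) (_ : Algebra K L) (_ : IsAbelianGalois K L)
      (x : Additive Gal(L/K) →+ ZMod (ℓ ^ k)) (S : Finset (Pl K)),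
      (∀ v ∉ S, Unram K L v) ∧
      ∀ v ∉ S, x (Additive.ofMul (frob K L v)) = ψ (Finsupp.single v 1) :=
  cft2_P9 hℓ h2 K hμ k N ψ hψ

end Claimed.Agent.R239.CFT
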