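import Claimed.Agent.R239.CFT.Defs

/-!
# R239 / CFT : package P0a (Blueprint 0.1, 0.2).  Owner helper77.  Sorry-free.

All names/statements of helper97's frozen skeleton are kept verbatim; extras (no `simp` attributes
are exported): `ord_zero`, `ord_prod`, `le_ord_iff`, `lt_ord_iff`, `ord_eq_iff`, `ord_eq_zero_iff`,
`ord_pos_iff`, `min_le_ord_add'` (only `a + b ≠ 0`), `le_ord_add`, `min_le_ord_sub`,
`val_le_exp_iff_mem_pow`, `one_zero_iff`, `One.prod`, `one_div_of_val_sub_le`,
`exists_integer_ord_eq_one`, `ord_surjective`, `dv_zero`, `dv_div`, `dv_zpow`, `mem_IS`, `IS_anti`,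
`dvS_apply`, `dvS_one`, `dvS_div`, `dvS_empty`, `dvSHom`, `dv_mem_IS_iff`, `mem_Ray`, `Ray_anti`,
`dv_mem_PRay`, `PRay_anti`.
-/

set_option autoImplicit false

namespace Claimed.Agent.R239.CFT

open IsDedekindDomain NumberField

variable {K : Type*} [Field K] [NumberField K]

/-! ## 0.1 `ord` and `One` -/

lemma val_ne_zero (v : Pl K) {a : K} (ha : a ≠ 0) : v.valuation K a ≠ 0 :=
  (Valuation.ne_zero_iff _).2 ha

lemma val_eq_exp_neg_ord (v : Pl K) {a : K} (ha : a ≠ 0) :
    v.valuation K a = WithZero.exp (-(ord v a)) := by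
  simp [ord, WithZero.exp_log (val_ne_zero v ha)]

lemma ord_zero (v : Pl K) : ord v (0 : K) = 0 := by simp [ord]

theorem ord_one (v : Pl K) : ord v (1 : K) = 0 := by simp [ord]

lemma ord_mul (v : Pl K) {a b : K} (ha : a ≠ 0) (hb : b ≠ 0) :
    ord v (a * b) = ord v a + ord v b := by
  simp only [ord, map_mul, WithZero.log_mul (val_ne_zero v ha) (val_ne_zero v hb)]
  ring

theorem ord_inv (v : Pl K) (a : K) : ord v a⁻¹ = -ord v a := by
  simp [ord, WithZero.log_inv]

theorem ord_neg (v : Pl K) (a : K) : ord v (-a) = ord v a := by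
  simp [ord, Valuation.map_neg]

lemma ord_div (v : Pl K) {a b : K} (ha : a ≠ 0) (hb : b ≠ 0) :
    ord v (a / b) = ord v a - ord v b := by
  rw [div_eq_mul_inv, ord_mul v ha (inv_ne_zero hb), ord_inv]
  ring

theorem ord_pow (v : Pl K) (a : K) (n : ℕ) : ord v (a ^ n) = n * ord v a := by
  simp [ord, WithZero.log_pow]

theorem ord_zpow (v : Pl K) (a : K) (n : ℤ) : ord v (a ^ n) = n * ord v a := by
  simp [ord, WithZero.log_zpow]

attribute [local simp] ord_zero ord_one ord_inv ord_neg ord_pow ord_zpow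

lemma ord_prod (v : Pl K) {ι : Type*} (s : Finset ι) (f : ι → K) (hf : ∀ i ∈ s, f i ≠ 0) :
    ord v (∏ i ∈ s, f i) = ∑ i ∈ s, ord v (f i) := by
  classical
  induction s using Finset.induction_on with
  | empty => simp
  | insert a s ha ih =>
    rw [Finset.prod_insert ha, Finset.sum_insert ha,
      ord_mul v (hf a (Finset.mem_insert_self a s))
        (Finset.prod_ne_zero_iff.2 fun i hi => hf i (Finset.mem_insert_of_mem hi)),
      ih fun i hi => hf i (Finset.mem_insert_of_mem hi)]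

/-- the basic translation between `ord` and the valuation -/
lemma le_ord_iff (v : Pl K) {a : K} (ha : a ≠ 0) (n : ℤ) :
    n ≤ ord v a ↔ v.valuation K a ≤ WithZero.exp (-n) := by
  rw [val_eq_exp_neg_ord v ha, WithZero.exp_le_exp]
  omega

lemma lt_ord_iff (v : Pl K) {a : K} (ha : a ≠ 0) (n : ℤ) :
    n < ord v a ↔ v.valuation K a < WithZero.exp (-n) := by
  rw [val_eq_exp_neg_ord v ha, WithZero.exp_lt_exp]
  omega

lemma ord_eq_iff (v : Pl K) {a : K} (ha : a ≠ 0) (n : ℤ) :
    ord v a = n ↔ v.valuation K a = WithZero.exp (-n) := by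
  rw [val_eq_exp_neg_ord v ha, WithZero.exp_inj]
  omega

lemma ord_nonneg_iff (v : Pl K) {a : K} (ha : a ≠ 0) :
    0 ≤ ord v a ↔ v.valuation K a ≤ 1 := by
  simpa using le_ord_iff v ha 0

lemma ord_eq_zero_iff (v : Pl K) {a : K} (ha : a ≠ 0) :
    ord v a = 0 ↔ v.valuation K a = 1 := by
  simpa using ord_eq_iff v ha 0

lemma ord_pos_iff (v : Pl K) {a : K} (ha : a ≠ 0) :
    0 < ord v a ↔ v.valuation K a < 1 := by
  simpa using lt_ord_iff v ha 0

/-- ultrametric inequality -/
lemma min_le_ord_add' (v : Pl K) {a b : K} (hab : a + b ≠ 0) :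
    min (ord v a) (ord v b) ≤ ord v (a + b) := by
  by_cases ha : a = 0
  · subst ha
    simp
  by_cases hb : b = 0
  · subst hb
    simp
  rw [le_ord_iff v hab]
  refine le_trans ((v.valuation K).map_add a b) (max_le ?_ ?_)
  · rw [← le_ord_iff v ha]
    exact min_le_left _ _
  · rw [← le_ord_iff v hb]
    exact min_le_right _ _

theorem min_le_ord_add (v : Pl K) {a b : K} (ha : a ≠ 0) (hb : b ≠ 0) (hab : a + b ≠ 0) :
    min (ord v a) (ord v b) ≤ ord v (a + b) := min_le_ord_add' v hab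

lemma le_ord_add (v : Pl K) {a b : K} {n : ℤ} (hab : a + b ≠ 0) (ha : n ≤ ord v a)
    (hb : n ≤ ord v b) : n ≤ ord v (a + b) :=
  le_trans (le_min ha hb) (min_le_ord_add' v hab)

lemma min_le_ord_sub (v : Pl K) {a b : K} (hab : a - b ≠ 0) :
    min (ord v a) (ord v b) ≤ ord v (a - b) := by
  have := min_le_ord_add' v (a := a) (b := -b) (by rwa [← sub_eq_add_neg])
  rwa [ord_neg, ← sub_eq_add_neg] at this

/-- the strict case of the ultrametric inequality -/
lemma ord_add_eq_of_lt (v : Pl K) {a b : K} (ha : a ≠ 0) (hb : b ≠ 0) (h : ord v a < ord v b) :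
    ord v (a + b) = ord v a := by
  have hlt : v.valuation K b < v.valuation K a := by
    rw [val_eq_exp_neg_ord v ha, val_eq_exp_neg_ord v hb, WithZero.exp_lt_exp]
    omega
  have h1 := Valuation.map_add_eq_of_lt_left (v.valuation K) hlt
  have hab : a + b ≠ 0 := by
    intro h0
    rw [h0, map_zero] at h1
    exact val_ne_zero v ha h1.symm
  rw [ord_eq_iff v hab, h1, val_eq_exp_neg_ord v ha]

theorem ord_nonneg_of_integer (v : Pl K) (x : 𝓞 K) : 0 ≤ ord v (x : K) := by
  by_cases hx : (x : K) = 0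
  · simp [hx]
  · rw [ord_nonneg_iff v hx]
    exact v.valuation_le_one x

/-- for integers, `ord ≥ n` means membership in `v ^ n` -/
lemma le_ord_iff_mem_pow (v : Pl K) {x : 𝓞 K} (hx : x ≠ 0) (n : ℕ) :
    (n : ℤ) ≤ ord v (x : K) ↔ x ∈ v.asIdeal ^ n := by
  have hx' : (x : K) ≠ 0 := by simpa using hx
  rw [le_ord_iff v hx', HeightOneSpectrum.valuation_of_algebraMap,
    HeightOneSpectrum.intValuation_le_pow_iff_mem]

theorem ord_pos_iff_mem (v : Pl K) {a : 𝓞 K} (ha : a ≠ 0) : 0 < ord v (a : K) ↔ a ∈ v.asIdeal := by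
  have := le_ord_iff_mem_pow v ha 1
  rw [pow_one] at this
  rw [← this]
  norm_num
  omega

/-- an element that is integral at all primes is an algebraic integer -/
theorem exists_integer_of_ord_nonneg (a : K) (h : ∀ v : Pl K, 0 ≤ ord v a) :
    ∃ x : 𝓞 K, (x : K) = a := by
  by_cases ha : a = 0
  · exact ⟨0, by simp [ha]⟩
  · exact HeightOneSpectrum.mem_integers_of_valuation_le_one K a
      fun v => (ord_nonneg_iff v ha).1 (h v)

lemma val_le_exp_iff_mem_pow (v : Pl K) (x : 𝓞 K) (n : ℕ) :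
    v.valuation K (x : K) ≤ WithZero.exp (-(n : ℤ)) ↔ x ∈ v.asIdeal ^ n := by
  rw [HeightOneSpectrum.valuation_of_algebraMap, HeightOneSpectrum.intValuation_le_pow_iff_mem]

lemma one_iff (v : Pl K) (N : ℕ) (a : K) : One v N a ↔ a = 1 ∨ (N : ℤ) ≤ ord v (a - 1) := by
  by_cases h : a = 1
  · subst h
    simp [one_one]
  · have h' : a - 1 ≠ 0 := sub_ne_zero.2 h
    simp only [h, false_or, le_ord_iff v h', One]

lemma One.ord_eq_zero {v : Pl K} {N : ℕ} (hN : 1 ≤ N) {a : K} (ha : One v N a) : ord v a = 0 := by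
  have h1 := ha.val_eq_one hN
  simp [ord, h1]

lemma One.ne_zero {v : Pl K} {N : ℕ} (hN : 1 ≤ N) {a : K} (ha : One v N a) : a ≠ 0 := by
  rintro rfl
  have h1 := ha.val_eq_one hN
  simp at h1

lemma one_zero_iff (v : Pl K) (a : K) : One v 0 a ↔ v.valuation K a ≤ 1 := by
  constructor
  · exact fun h => h.val_le_one
  · intro h
    unfold One
    simp only [Nat.cast_zero, neg_zero, WithZero.exp_zero]
    exact le_trans ((v.valuation K).map_sub a 1) (max_le h (by simp))

lemma One.div {v : Pl K} {N : ℕ} (hN : 1 ≤ N) {a b : K} (ha : One v N a) (hb : One v N b) :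
    One v N (a / b) := by
  rw [div_eq_mul_inv]
  exact ha.mul (hb.inv hN)

lemma One.pow {v : Pl K} {N : ℕ} {a : K} (ha : One v N a) (n : ℕ) : One v N (a ^ n) := by
  induction n with
  | zero => simpa using one_one v N
  | succ n ih => rw [pow_succ]; exact ih.mul ha

lemma One.prod {v : Pl K} {N : ℕ} {ι : Type*} (s : Finset ι) (f : ι → K)
    (hf : ∀ i ∈ s, One v N (f i)) : One v N (∏ i ∈ s, f i) := by
  classical
  induction s using Finset.induction_on with
  | empty => simpa using one_one v N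
  | insert a s ha ih =>
    rw [Finset.prod_insert ha]
    exact (hf a (Finset.mem_insert_self a s)).mul
      (ih fun i hi => hf i (Finset.mem_insert_of_mem hi))

/-- `a ≡ b mod v^N` multiplicatively, from an additive congruence -/
lemma one_div_of_val_sub_le (v : Pl K) {N : ℕ} {a b : K} (hb : b ≠ 0)
    (h : v.valuation K (a - b) ≤ WithZero.exp (-(N : ℤ)) * v.valuation K b) : One v N (a / b) := by
  have e : a / b - 1 = (a - b) / b := by field_simp
  unfold One
  rw [e, map_div₀]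
  exact (div_le_iff₀ (zero_lt_iff.2 (val_ne_zero v hb))).2 h

/-- uniformiser (an algebraic integer) -/
lemma exists_integer_ord_eq_one (v : Pl K) : ∃ π : 𝓞 K, ord v (π : K) = 1 := by
  obtain ⟨π, hπ⟩ := v.intValuation_exists_uniformizer
  refine ⟨π, ?_⟩
  simp [ord, HeightOneSpectrum.valuation_of_algebraMap, hπ]

/-- uniformiser -/
theorem exists_ord_eq_one (v : Pl K) : ∃ π : Kˣ, ord v (π : K) = 1 := by
  obtain ⟨π, hπ⟩ := exists_integer_ord_eq_one v
  have hπ0 : (π : K) ≠ 0 := by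
    intro h
    rw [h] at hπ
    simp at hπ
  exact ⟨Units.mk0 (π : K) hπ0, hπ⟩

lemma ord_surjective (v : Pl K) : Function.Surjective (fun a : Kˣ => ord v (a : K)) := by
  intro n
  obtain ⟨π, hπ⟩ := exists_ord_eq_one v
  refine ⟨π ^ n, ?_⟩
  simp [hπ]

/-! ## 0.2 divisors -/

lemma dv_mul {a b : K} (ha : a ≠ 0) (hb : b ≠ 0) : dv (a * b) = dv a + dv b := by
  ext v
  simp [ord_mul v ha hb]

theorem dv_one : dv (1 : K) = 0 := by
  ext v
  simp

lemma dv_zero : dv (0 : K) = 0 := by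
  ext v
  simp

theorem dv_inv (a : K) : dv a⁻¹ = -dv a := by
  ext v
  simp

lemma dv_div {a b : K} (ha : a ≠ 0) (hb : b ≠ 0) : dv (a / b) = dv a - dv b := by
  ext v
  simp [ord_div v ha hb]

theorem dv_pow (a : K) (n : ℕ) : dv (a ^ n) = n • dv a := by
  ext v
  simp

lemma dv_zpow (a : K) (n : ℤ) : dv (a ^ n) = n • dv a := by
  ext v
  simp

attribute [local simp] dv_one dv_zero dv_inv dv_pow dv_zpow

/-- the principal divisor map as a homomorphism -/
noncomputable def dvHom : Additive Kˣ →+ Div K where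
  toFun a := dv ((Additive.toMul a : Kˣ) : K)
  map_zero' := by simpa using dv_one
  map_add' a b := by simpa using dv_mul (Additive.toMul a).ne_zero (Additive.toMul b).ne_zero

lemma dvHom_apply (a : Kˣ) : dvHom (Additive.ofMul a) = dv (a : K) := rfl

lemma mem_IS {S : Set (Pl K)} {D : Div K} : D ∈ IS S ↔ ∀ v ∈ S, D v = 0 := Iff.rfl

lemma IS_anti {S T : Set (Pl K)} (h : S ⊆ T) : IS T ≤ IS S := fun _ hD v hv => hD v (h hv)

open Classical in
lemma dvS_apply (S : Set (Pl K)) (a : K) (v : Pl K) :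
    dvS S a v = if v ∈ S then 0 else ord v a := by
  unfold dvS
  rw [Finsupp.filter_apply]
  by_cases h : v ∈ S <;> simp [h]

theorem dvS_apply_of_mem (S : Set (Pl K)) (a : K) {v : Pl K} (hv : v ∈ S) : dvS S a v = 0 := by
  classical
  rw [dvS_apply, if_pos hv]

theorem dvS_apply_of_notMem (S : Set (Pl K)) (a : K) {v : Pl K} (hv : v ∉ S) :
    dvS S a v = ord v a := by
  classical
  rw [dvS_apply, if_neg hv]

lemma dvS_mem_IS (S : Set (Pl K)) (a : K) : dvS S a ∈ IS S := fun _ hv => dvS_apply_of_mem S a hv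

lemma dvS_mul (S : Set (Pl K)) {a b : K} (ha : a ≠ 0) (hb : b ≠ 0) :
    dvS S (a * b) = dvS S a + dvS S b := by
  classical
  ext v
  simp only [dvS_apply, Finsupp.add_apply]
  split_ifs
  · simp
  · exact ord_mul v ha hb

lemma dvS_one (S : Set (Pl K)) : dvS S (1 : K) = 0 := by
  classical
  ext v
  simp [dvS_apply]

theorem dvS_inv (S : Set (Pl K)) (a : K) : dvS S a⁻¹ = -dvS S a := by
  classical
  ext v
  simp only [dvS_apply, Finsupp.neg_apply]
  split_ifs <;> simp

attribute [local simp] dvS_one dvS_inv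

lemma dvS_div (S : Set (Pl K)) {a b : K} (ha : a ≠ 0) (hb : b ≠ 0) :
    dvS S (a / b) = dvS S a - dvS S b := by
  rw [div_eq_mul_inv, dvS_mul S ha (inv_ne_zero hb), dvS_inv, sub_eq_add_neg]

lemma dvS_empty (a : K) : dvS (∅ : Set (Pl K)) a = dv a := by
  classical
  ext v
  simp [dvS_apply]

/-- the `S`-part of the principal divisor map as a homomorphism -/
noncomputable def dvSHom (S : Set (Pl K)) : Additive Kˣ →+ Div K where
  toFun a := dvS S ((Additive.toMul a : Kˣ) : K)
  map_zero' := by simp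
  map_add' a b := by
    simp only [toMul_add, Units.val_mul]
    exact dvS_mul S (Units.ne_zero _) (Units.ne_zero _)

lemma dvSHom_apply (S : Set (Pl K)) (a : Kˣ) :
    dvSHom S (Additive.ofMul a) = dvS S (a : K) := rfl

lemma mem_unit_iff (S : Set (Pl K)) (a : Kˣ) : a ∈ S.unit K ↔ ∀ v ∉ S, ord v (a : K) = 0 := by
  constructor
  · intro h v hv
    rw [ord_eq_zero_iff v a.ne_zero]
    exact h v hv
  · intro h v hv
    rw [← ord_eq_zero_iff v a.ne_zero]
    exact h v hv

lemma dvS_eq_zero_iff (S : Set (Pl K)) (a : Kˣ) : dvS S (a : K) = 0 ↔ a ∈ S.unit K := by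
  rw [mem_unit_iff]
  constructor
  · intro h v hv
    rw [← dvS_apply_of_notMem _ _ hv, h]
    rfl
  · intro h
    ext v
    by_cases hv : v ∈ S
    · simp [dvS_apply_of_mem _ _ hv]
    · simp [dvS_apply_of_notMem _ _ hv, h v hv]

/-- `dv a = dvS S a` when `a` is a unit at all primes of `S` -/
theorem dvS_eq_dv_of_forall (S : Set (Pl K)) (a : K) (h : ∀ v ∈ S, ord v a = 0) :
    dvS S a = dv a := by
  ext v
  by_cases hv : v ∈ S
  · simp [dvS_apply_of_mem _ _ hv, h v hv]
  · simp [dvS_apply_of_notMem _ _ hv]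

lemma dv_mem_IS_iff {S : Set (Pl K)} {a : K} : dv a ∈ IS S ↔ ∀ v ∈ S, ord v a = 0 := Iff.rfl

lemma mem_Ray {c : Modulus K} {a : Kˣ} : a ∈ Ray c ↔ ∀ v ∈ c.support, One v (c v) (a : K) :=
  Iff.rfl

lemma Ray_anti {c c' : Modulus K} (h : c ≤ c') : Ray c' ≤ Ray c := by
  intro a ha v hv
  have h1 : c v ≤ c' v := h v
  have h2 : v ∈ c'.support := by
    rw [Finsupp.mem_support_iff] at hv ⊢
    omega
  exact (ha v h2).mono h1

/-- `PRay c` is exactly the set of principal divisors of elements of the ray -/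
theorem mem_PRay_iff (c : Modulus K) (D : Div K) :
    D ∈ PRay c ↔ ∃ a ∈ Ray c, D = dv ((a : Kˣ) : K) := by
  have e : PRay c = (Subgroup.toAddSubgroup (Ray c)).map dvHom := by
    unfold PRay
    refine le_antisymm ?_ ?_
    · rw [AddSubgroup.closure_le]
      rintro D ⟨a, ha, rfl⟩
      exact ⟨Additive.ofMul a, ha, rfl⟩
    · rintro D ⟨a, ha, rfl⟩
      exact AddSubgroup.subset_closure ⟨Additive.toMul a, ha, rfl⟩
  rw [e]
  constructor
  · rintro ⟨a, ha, rfl⟩
    exact ⟨Additive.toMul a, ha, rfl⟩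
  · rintro ⟨a, ha, rfl⟩
    exact ⟨Additive.ofMul a, ha, rfl⟩

lemma dv_mem_PRay {c : Modulus K} {a : Kˣ} (ha : a ∈ Ray c) : dv (a : K) ∈ PRay c :=
  (mem_PRay_iff _ _).2 ⟨a, ha, rfl⟩

lemma PRay_le_IS (c : Modulus K) : PRay c ≤ IS (c.support : Set (Pl K)) := by
  intro D hD v hv
  obtain ⟨a, ha, rfl⟩ := (mem_PRay_iff _ _).1 hD
  have hv' : v ∈ c.support := hv
  have h1 : 1 ≤ c v := Nat.one_le_iff_ne_zero.2 (Finsupp.mem_support_iff.1 hv')
  exact (ha v hv').ord_eq_zero h1

lemma PRay_anti {c c' : Modulus K} (h : c ≤ c') : PRay c' ≤ PRay c := by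
  intro D hD
  obtain ⟨a, ha, rfl⟩ := (mem_PRay_iff _ _).1 hD
  exact dv_mem_PRay (Ray_anti h ha)

end Claimed.Agent.R239.CFT
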