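import Claimed.Agent.R239.CFT.P0a

/-!
# R239 / CFT : package P0b (Blueprint 0.3, 0.4).  Owner helper77.  Sorry-free.

All names/statements of helper97's frozen skeleton are kept verbatim; extras: `weak_approx'`,
`weak_approx_units'` (precision depending on the prime), `clS_iff`, `count_spanSingleton`,
`exists_ClS_superset`.
-/

set_option autoImplicit false

namespace Claimed.Agent.R239.CFT

open IsDedekindDomain NumberField
open scoped nonZeroDivisors

variable {K : Type*} [Field K] [NumberField K]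

/-! ## 0.3 weak approximation -/

/-- **WA**, general form: prescribed precision `n v` at each `v ∈ S`. -/
theorem weak_approx' (S : Finset (Pl K)) (x : Pl K → K) (n : Pl K → ℤ) :
    ∃ a : K, ∀ v ∈ S, v.valuation K (a - x v) ≤ WithZero.exp (-(n v)) := by
  classical
  obtain ⟨d, hd⟩ := IsLocalization.exist_integer_multiples (𝓞 K)⁰ S x
  have hd0 : ((d : 𝓞 K) : K) ≠ 0 := by
    have := nonZeroDivisors.coe_ne_zero d
    simp
  choose! y hy using hd
  obtain ⟨z, hz⟩ := IsDedekindDomain.exists_forall_sub_mem_ideal (s := S)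
    (fun v : Pl K => v.asIdeal) (fun v => (n v + ord v ((d : 𝓞 K) : K)).toNat)
    (fun v _ => v.prime) (fun v _ w _ hvw h => hvw (HeightOneSpectrum.ext h))
    (fun v => y v)
  refine ⟨(z : K) / ((d : 𝓞 K) : K), fun v hv => ?_⟩
  have h1 := hz v hv
  rw [← val_le_exp_iff_mem_pow] at h1
  have h2 : ((y v : 𝓞 K) : K) = ((d : 𝓞 K) : K) * x v := by
    have := hy v hv
    rw [Algebra.smul_def] at this
    exact this
  have e : (z : K) / ((d : 𝓞 K) : K) - x v = ((z - y v : 𝓞 K) : K) / ((d : 𝓞 K) : K) := by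
    have e1 : ((z - y v : 𝓞 K) : K) = (z : K) - ((d : 𝓞 K) : K) * x v := by
      rw [← h2]
      simp
    rw [e1]
    field_simp
  rw [e, map_div₀, div_le_iff₀ (zero_lt_iff.2 (val_ne_zero v hd0)), val_eq_exp_neg_ord v hd0,
    ← WithZero.exp_add]
  refine le_trans h1 ?_
  rw [WithZero.exp_le_exp]
  have := Int.self_le_toNat (n v + ord v ((d : 𝓞 K) : K))
  omega

/-- weak approximation -/
theorem weak_approx (S : Finset (Pl K)) (x : Pl K → K) (N : ℕ) :
    ∃ a : K, ∀ v ∈ S, v.valuation K (a - x v) ≤ WithZero.exp (-(N : ℤ)) :=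
  weak_approx' S x fun _ => N

/-- **WAx**, general form: prescribed precision `N v` at each `v ∈ S`. -/
theorem weak_approx_units' (S : Finset (Pl K)) (x : Pl K → Kˣ) (N : Pl K → ℕ) :
    ∃ a : Kˣ, ∀ v ∈ S, One v (N v) ((a : K) / (x v : K)) := by
  rcases S.eq_empty_or_nonempty with rfl | ⟨v0, hv0⟩
  · exact ⟨1, by simp⟩
  obtain ⟨a, ha⟩ := weak_approx' S (fun v => (x v : K)) (fun v => (N v + 1 : ℕ) + ord v (x v : K))
  have key : ∀ v ∈ S, One v (N v + 1) (a / (x v : K)) := by
    intro v hv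
    refine one_div_of_val_sub_le v (x v).ne_zero ?_
    rw [val_eq_exp_neg_ord v (x v).ne_zero, ← WithZero.exp_add]
    refine le_trans (ha v hv) (le_of_eq ?_)
    congr 1
    ring
  have ha0 : a ≠ 0 := by
    intro h
    have := (key v0 hv0).ne_zero (by omega)
    simp [h] at this
  exact ⟨Units.mk0 a ha0, fun v hv => (key v hv).mono (Nat.le_succ _)⟩

/-- weak approximation, multiplicative form -/
theorem weak_approx_units (S : Finset (Pl K)) (x : Pl K → Kˣ) (N : ℕ) :
    ∃ a : Kˣ, ∀ v ∈ S, One v N ((a : K) / (x v : K)) :=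
  weak_approx_units' S x fun _ => N

/-- prescribed orders at finitely many primes -/
theorem exists_ord_eq (S : Finset (Pl K)) (n : Pl K → ℤ) :
    ∃ a : Kˣ, ∀ v ∈ S, ord v (a : K) = n v := by
  choose x hx using fun v : Pl K => ord_surjective v (n v)
  obtain ⟨a, ha⟩ := weak_approx_units S x 1
  refine ⟨a, fun v hv => ?_⟩
  have h1 := (ha v hv).ord_eq_zero le_rfl
  rw [ord_div v a.ne_zero (x v).ne_zero] at h1
  have h2 : ord v (x v : K) = n v := hx v
  omega

/-! ## 0.4 the class group -/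

/-- the `S`-class group is trivial -/
def ClS (S : Set (Pl K)) : Prop := ∀ D : Div K, ∃ a : Kˣ, ∀ v ∉ S, D v = ord v (a : K)

theorem ClS.mono {S T : Set (Pl K)} (h : S ⊆ T) (hS : ClS S) : ClS T :=
  fun D => (hS D).imp fun _ ha v hv => ha v fun hvS => hv (h hvS)

theorem ClS.exists_dvS {S : Set (Pl K)} (hS : ClS S) {D : Div K} (hD : D ∈ IS S) :
    ∃ a : Kˣ, dvS S (a : K) = D := by
  obtain ⟨a, ha⟩ := hS D
  refine ⟨a, ?_⟩
  ext v
  by_cases hv : v ∈ S
  · rw [dvS_apply_of_mem _ _ hv, hD v hv]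
  · rw [dvS_apply_of_notMem _ _ hv, ha v hv]

lemma clS_iff {S : Set (Pl K)} : ClS S ↔ ∀ D ∈ IS S, ∃ a : Kˣ, dvS S (a : K) = D := by
  classical
  refine ⟨fun h D hD => h.exists_dvS hD, fun h D => ?_⟩
  obtain ⟨a, ha⟩ := h (D.filter (fun v => v ∉ S)) (fun v hv => by simp [hv])
  refine ⟨a, fun v hv => ?_⟩
  have := DFunLike.congr_fun ha v
  rw [Finsupp.filter_apply_pos (fun v => v ∉ S) D hv, dvS_apply_of_notMem _ _ hv] at this
  exact this.symm

/-- the multiplicity of `v` in a principal fractional ideal -/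
lemma count_spanSingleton (v : Pl K) {x : K} (hx : x ≠ 0) :
    FractionalIdeal.count K v (FractionalIdeal.spanSingleton (𝓞 K)⁰ x) = ord v x := by
  obtain ⟨n, d, rfl⟩ := IsLocalization.exists_mk'_eq (𝓞 K)⁰ x
  have hd0 : (d : 𝓞 K) ≠ 0 := nonZeroDivisors.coe_ne_zero d
  have hd0' : ((d : 𝓞 K) : K) ≠ 0 := by simp
  have hn0 : n ≠ 0 := by
    rintro rfl
    simp at hx
  have hn0' : (n : K) ≠ 0 := by simpa using hn0
  have e : IsLocalization.mk' K n d = (n : K) / ((d : 𝓞 K) : K) := by
    rw [IsFractionRing.mk'_eq_div]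
  have hI : FractionalIdeal.spanSingleton (𝓞 K)⁰ (IsLocalization.mk' K n d)
      = FractionalIdeal.spanSingleton (𝓞 K)⁰ ((algebraMap (𝓞 K) K) (d : 𝓞 K))⁻¹
        * ((Ideal.span {n} : Ideal (𝓞 K)) : FractionalIdeal (𝓞 K)⁰ K) := by
    rw [FractionalIdeal.coeIdeal_span_singleton, FractionalIdeal.spanSingleton_mul_spanSingleton, e]
    congr 1
    field_simp
  rw [FractionalIdeal.count_well_defined K v
    (by simpa [FractionalIdeal.spanSingleton_eq_zero_iff] using hx) hI, e, ord_div v hn0' hd0']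
  have h1 : ∀ r : 𝓞 K, r ≠ 0 → ord v (r : K)
      = ((Associates.mk v.asIdeal).count (Associates.mk (Ideal.span {r} : Ideal (𝓞 K))).factors
        : ℤ) := by
    intro r hr
    simp [ord, HeightOneSpectrum.valuation_of_algebraMap, v.intValuation_if_neg hr]
  rw [h1 n hn0, h1 d hd0]

/-- **finiteness of the class group**: there is a finite `S₀` with `ClS S₀`. -/
theorem exists_ClS : ∃ S : Finset (Pl K), ClS (S : Set (Pl K)) := by
  classical
  choose R hR using (ClassGroup.mk0_surjective (R := 𝓞 K))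
  have hfin : ∀ c : ClassGroup (𝓞 K), {v : Pl K | FractionalIdeal.count K v
      (((R c : Ideal (𝓞 K)) : FractionalIdeal (𝓞 K)⁰ K)) ≠ 0}.Finite := fun c =>
    FractionalIdeal.finite_factors _
  have hfin' : (⋃ c : ClassGroup (𝓞 K), {v : Pl K | FractionalIdeal.count K v
      (((R c : Ideal (𝓞 K)) : FractionalIdeal (𝓞 K)⁰ K)) ≠ 0}).Finite :=
    Set.finite_iUnion hfin
  refine ⟨hfin'.toFinset, ?_⟩
  -- the good divisors form a subgroup
  let G : AddSubgroup (Div K) :=
    { carrier := {D | ∃ a : Kˣ, ∀ v ∉ (hfin'.toFinset : Set (Pl K)), D v = ord v (a : K)}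
      add_mem' := by
        rintro D D' ⟨a, ha⟩ ⟨b, hb⟩
        refine ⟨a * b, fun v hv => ?_⟩
        rw [Finsupp.add_apply, ha v hv, hb v hv, Units.val_mul, ord_mul v a.ne_zero b.ne_zero]
      zero_mem' := ⟨1, fun v _ => by simp [ord_one]⟩
      neg_mem' := by
        rintro D ⟨a, ha⟩
        refine ⟨a⁻¹, fun v hv => ?_⟩
        rw [Finsupp.neg_apply, ha v hv, Units.val_inv_eq_inv_val, ord_inv] }
  have hsingle : ∀ w : Pl K, Finsupp.single w (1 : ℤ) ∈ G := by
    intro w
    have hw0 : w.asIdeal ∈ (Ideal (𝓞 K))⁰ := mem_nonZeroDivisors_of_ne_zero w.ne_bot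
    obtain ⟨x, hx, hxe⟩ := (ClassGroup.mk0_eq_mk0_iff_exists_fraction_ring K
      (I := R (ClassGroup.mk0 ⟨w.asIdeal, hw0⟩)) (J := ⟨w.asIdeal, hw0⟩)).1 (hR _)
    refine ⟨Units.mk0 x hx, fun v hv => ?_⟩
    have hv' : FractionalIdeal.count K v (((R (ClassGroup.mk0 ⟨w.asIdeal, hw0⟩) : Ideal (𝓞 K))
        : FractionalIdeal (𝓞 K)⁰ K)) = 0 := by
      by_contra h
      exact hv (by
        simp only [Set.Finite.coe_toFinset, Set.mem_iUnion]
        exact ⟨_, h⟩)
    have h1 := congrArg (FractionalIdeal.count K v) hxe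
    rw [FractionalIdeal.count_mul K v
      (by simpa [FractionalIdeal.spanSingleton_eq_zero_iff] using hx)
      (FractionalIdeal.coeIdeal_ne_zero.2 (nonZeroDivisors.coe_ne_zero _)), hv', add_zero,
      count_spanSingleton v hx] at h1
    simp only [Units.val_mk0]
    rw [h1, FractionalIdeal.count_maximal K v w, Finsupp.single_apply]
  intro D
  have : D ∈ G := by
    induction D using Finsupp.induction_linear with
    | zero => exact G.zero_mem
    | add f g hf hg => exact G.add_mem hf hg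
    | single w n =>
      have := G.zsmul_mem (hsingle w) n
      simpa using this
  exact this

/-- every finite set of primes is contained in a finite `S` with `ClS S` -/
theorem exists_ClS_superset (T : Finset (Pl K)) :
    ∃ S : Finset (Pl K), T ⊆ S ∧ ClS (S : Set (Pl K)) := by
  classical
  obtain ⟨S0, h0⟩ := exists_ClS (K := K)
  exact ⟨T ∪ S0, Finset.subset_union_left, h0.mono (by simp)⟩

/-- some positive multiple of every divisor is principal -/
theorem exists_nsmul_eq_dv (D : Div K) : ∃ h : ℕ, 0 < h ∧ ∃ a : Kˣ, h • D = dv (a : K) := by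
  classical
  refine ⟨Fintype.card (ClassGroup (𝓞 K)), Fintype.card_pos, ?_⟩
  set h := Fintype.card (ClassGroup (𝓞 K)) with hh
  let G : AddSubgroup (Div K) :=
    { carrier := {D | ∃ a : Kˣ, h • D = dv (a : K)}
      add_mem' := by
        rintro D D' ⟨a, ha⟩ ⟨b, hb⟩
        refine ⟨a * b, ?_⟩
        rw [smul_add, ha, hb, Units.val_mul, dv_mul a.ne_zero b.ne_zero]
      zero_mem' := ⟨1, by simp [dv_one]⟩
      neg_mem' := by
        rintro D ⟨a, ha⟩
        refine ⟨a⁻¹, ?_⟩
        rw [smul_neg, ha, Units.val_inv_eq_inv_val, dv_inv] }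
  have hsingle : ∀ w : Pl K, Finsupp.single w (1 : ℤ) ∈ G := by
    intro w
    have hw0 : w.asIdeal ∈ (Ideal (𝓞 K))⁰ := mem_nonZeroDivisors_of_ne_zero w.ne_bot
    have h1 : ClassGroup.mk0 (⟨w.asIdeal, hw0⟩ ^ h : (Ideal (𝓞 K))⁰) = 1 := by
      rw [map_pow, hh, pow_card_eq_one]
    rw [ClassGroup.mk0_eq_one_iff] at h1
    obtain ⟨x, hx⟩ := h1.principal
    have hx' : w.asIdeal ^ h = Ideal.span {x} := by
      simpa using hx
    have hx0 : x ≠ 0 := by
      rintro rfl
      rw [Set.singleton_zero, Ideal.span_zero] at hx'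
      exact pow_ne_zero h w.ne_bot hx'
    have hx0' : (x : K) ≠ 0 := by simpa using hx0
    refine ⟨Units.mk0 (x : K) hx0', ?_⟩
    ext v
    have h2 := congrArg (fun I : Ideal (𝓞 K) =>
      FractionalIdeal.count K v (I : FractionalIdeal (𝓞 K)⁰ K)) hx'
    simp only [FractionalIdeal.coeIdeal_pow, FractionalIdeal.coeIdeal_span_singleton] at h2
    rw [FractionalIdeal.count_pow, FractionalIdeal.count_maximal K v w,
      count_spanSingleton v hx0'] at h2
    simp only [Units.val_mk0, dv_apply, Finsupp.smul_apply, Finsupp.single_apply]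
    rw [← h2]
    simp
  have : D ∈ G := by
    induction D using Finsupp.induction_linear with
    | zero => exact G.zero_mem
    | add f g hf hg => exact G.add_mem hf hg
    | single w n =>
      have := G.zsmul_mem (hsingle w) n
      simpa using this
  exact this

end Claimed.Agent.R239.CFT
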