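import Claimed.Agent.R239.CFT.P0b

/-!
# R239 / CFT : package P0c  (relative API for `L/K`; proofs by helper152)

Output statements of the package (see `Blueprint.lean`).  Names and statements are frozen (ask
helper97 for changes).  Only the ORDER differs from the first version (`OneL.norm` now comes after the
Galois action).  Extra API (not in the first list): `mem_primesOver_of_below`,
`sum_above_eq_sum_primesOver`, `val_algebraMap`, `ord_eq_count`, `count_relNorm`, `Nm_apply`,
`one_algebraMap_iff`, `oneL_one`, `OneL.prod`, `OneL.div`, `OneL.pow`, `ext_single`, `eidx_le_finrank`,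
`fdeg_le_finrank`, `val_smul`, `One.smul`, `mem_above_iff`, `mem_toFinset_above`.
-/

set_option autoImplicit false

namespace Claimed.Agent.R239.CFT

open IsDedekindDomain NumberField UniqueFactorizationMonoid

section P0c

variable (K : Type*) [Field K] [NumberField K] (L : Type*) [Field L] [NumberField L] [Algebra K L]

theorem mem_primesOver_of_below {v : Pl K} {w : Pl L} (h : below K L w = v) :
    w.asIdeal ∈ v.asIdeal.primesOver (𝓞 L) := by
  subst h
  exact ⟨w.isPrime, ⟨rfl⟩⟩

theorem finite_above (v : Pl K) : {w : Pl L | below K L w = v}.Finite := by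
  have h := IsDedekindDomain.primesOver_finite v.asIdeal (𝓞 L)
  refine Set.Finite.of_finite_image (f := HeightOneSpectrum.asIdeal) (h.subset ?_) ?_
  · rintro _ ⟨w, hw, rfl⟩
    exact mem_primesOver_of_below K L hw
  · intro a _ b _ hab
    exact HeightOneSpectrum.ext hab

theorem mem_toFinset_above {v : Pl K} {w : Pl L} :
    w ∈ (finite_above K L v).toFinset ↔ below K L w = v := by simp

theorem exists_above (v : Pl K) : ∃ w : Pl L, below K L w = v := by
  have := v.isPrime
  obtain ⟨P, hP, hPv⟩ := Ideal.exists_ideal_over_prime_of_isIntegral_of_isDomain (S := 𝓞 L)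
    v.asIdeal (by simp)
  refine ⟨⟨P, hP, ?_⟩, HeightOneSpectrum.ext hPv⟩
  rintro rfl
  apply v.ne_bot
  rw [← hPv]
  exact Ideal.comap_bot_of_injective _ (FaithfulSMul.algebraMap_injective _ _)

theorem mem_above_iff {S : Set (Pl K)} {w : Pl L} : w ∈ above K L S ↔ below K L w ∈ S := Iff.rfl

theorem above_finite {S : Set (Pl K)} (hS : S.Finite) : (above K L S).Finite := by
  have : above K L S = ⋃ v ∈ S, {w : Pl L | below K L w = v} := by
    ext w
    simp [above]
  rw [this]
  exact hS.biUnion fun v _ => finite_above K L v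

/-- ramification index of `w` over `K` -/
noncomputable def eidx (w : Pl L) : ℕ := w.asIdeal.ramificationIdx (𝓞 K)

theorem eidx_pos (w : Pl L) : 0 < eidx K L w := by
  have := w.isPrime
  exact Ideal.ramificationIdx_pos _ _

theorem fdeg_pos (w : Pl L) : 0 < fdeg K L w := by
  have := w.isPrime
  exact Ideal.inertiaDeg_pos _ _

theorem val_algebraMap (w : Pl L) (a : K) :
    w.valuation L (algebraMap K L a) = (below K L w).valuation K a ^ eidx K L w := by
  have : w.asIdeal.LiesOver (below K L w).asIdeal := ⟨rfl⟩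
  have := w.isPrime
  rw [← HeightOneSpectrum.valuation_liesOver L (below K L w) w a, eidx,
    Ideal.ramificationIdx'_eq_ramificationIdx _ _ (below K L w).ne_bot]

theorem ord_algebraMap (w : Pl L) (a : K) :
    ord w (algebraMap K L a) = eidx K L w * ord (below K L w) a := by
  rw [ord, ord, val_algebraMap]
  simp [WithZero.log_pow]

/-- sums over the primes above `v` in Mathlib's vocabulary -/
theorem sum_above_eq_sum_primesOver {M : Type*} [AddCommMonoid M] (v : Pl K)
    (g : Ideal (𝓞 L) → M) :
    ∑ w ∈ (finite_above K L v).toFinset, g w.asIdeal = ∑ q : v.asIdeal.primesOver (𝓞 L), g q.1 := by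
  refine Finset.sum_bij (fun w hw => ⟨w.asIdeal, mem_primesOver_of_below K L (by simpa using hw)⟩)
    (fun _ _ => Finset.mem_univ _) ?_ ?_ (fun _ _ => rfl)
  · intro a _ b _ hab
    exact HeightOneSpectrum.ext (congrArg Subtype.val hab)
  · rintro ⟨q, hq⟩ _
    refine ⟨⟨q, hq.1, Ideal.ne_bot_of_mem_primesOver v.ne_bot hq⟩, ?_, rfl⟩
    rw [mem_toFinset_above]
    exact HeightOneSpectrum.ext (hq.2.over).symm

theorem sum_eidx_mul_fdeg (v : Pl K) :
    ∑ w ∈ (finite_above K L v).toFinset, eidx K L w * fdeg K L w = Module.finrank K L := by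
  have := v.isPrime
  rw [IsFractionRing.finrank_eq (𝓞 K) K (𝓞 L) L,
    ← Ideal.sum_ramification_inertia_eq_finrank v.asIdeal (𝓞 L)]
  exact sum_above_eq_sum_primesOver K L v
    (fun q => q.ramificationIdx (𝓞 K) * q.inertiaDeg (𝓞 K))

theorem eidx_mul_fdeg_le_finrank (w : Pl L) : eidx K L w * fdeg K L w ≤ Module.finrank K L := by
  rw [← sum_eidx_mul_fdeg K L (below K L w)]
  exact Finset.single_le_sum (f := fun w => eidx K L w * fdeg K L w) (fun _ _ => Nat.zero_le _)
    ((mem_toFinset_above K L).2 rfl)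

theorem eidx_le_finrank (w : Pl L) : eidx K L w ≤ Module.finrank K L :=
  le_trans (Nat.le_mul_of_pos_right _ (fdeg_pos K L w)) (eidx_mul_fdeg_le_finrank K L w)

theorem fdeg_le_finrank (w : Pl L) : fdeg K L w ≤ Module.finrank K L :=
  le_trans (Nat.le_mul_of_pos_left _ (eidx_pos K L w)) (eidx_mul_fdeg_le_finrank K L w)

omit [Algebra K L] [NumberField L] [Field L] in
variable {K} in
/-- `ord` of an integer = multiplicity of `v` in the principal ideal -/
theorem ord_eq_count (v : Pl K) {a : 𝓞 K} (ha : a ≠ 0) :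
    ord v (a : K) = ((normalizedFactors (Ideal.span {a})).count v.asIdeal : ℤ) := by
  classical
  have hne : Ideal.span {a} ≠ 0 := by simpa using ha
  rw [ord, HeightOneSpectrum.valuation_of_algebraMap,
    HeightOneSpectrum.intValuation_eq_exp_neg_multiplicity v ha,
    multiplicity_eq_of_emultiplicity_eq_some (emultiplicity_eq_count_normalizedFactors
      v.irreducible hne), normalize_eq]
  simp

theorem count_relNorm_prime (v : Pl K) (P : Ideal (𝓞 L)) (hP : Prime P) :
    (normalizedFactors (Ideal.relNorm (𝓞 K) P)).count v.asIdeal =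
      ∑ w ∈ (finite_above K L v).toFinset, fdeg K L w * (normalizedFactors P).count w.asIdeal := by
  classical
  have hP0 : P ≠ ⊥ := hP.ne_zero
  have hPp : P.IsPrime := Ideal.isPrime_of_prime hP
  have hPm : P.IsMaximal := hPp.isMaximal hP0
  let w0 : Pl L := ⟨P, hPp, hP0⟩
  have hq : (below K L w0).asIdeal.IsMaximal := (below K L w0).isMaximal
  have hl : P.LiesOver (below K L w0).asIdeal := ⟨rfl⟩
  rw [Ideal.relNorm_eq_pow_of_isMaximal P (below K L w0).asIdeal, normalizedFactors_pow,
    normalizedFactors_irreducible (below K L w0).irreducible, normalize_eq,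
    normalizedFactors_irreducible hP.irreducible, normalize_eq, Multiset.count_nsmul,
    Multiset.count_singleton]
  have e1 : ∀ w : Pl L, fdeg K L w * Multiset.count w.asIdeal {P} =
      if w = w0 then fdeg K L w0 else 0 := by
    intro w
    rw [Multiset.count_singleton]
    by_cases h : w = w0
    · subst h; simp [w0]
    · have : w.asIdeal ≠ P := fun h' => h (HeightOneSpectrum.ext h')
      simp [h, this]
  simp only [e1]
  rw [Finset.sum_ite_eq']
  by_cases h : below K L w0 = v
  · have h' : v.asIdeal = (below K L w0).asIdeal := by rw [h]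
    rw [if_pos h', if_pos (by simpa using h), mul_one]
    rfl
  · have h' : ¬ v.asIdeal = (below K L w0).asIdeal := fun h' => h (HeightOneSpectrum.ext h'.symm)
    rw [if_neg h', if_neg (by simpa using h), mul_zero]

/-- the multiplicity of `v` in the relative norm of an ideal -/
theorem count_relNorm (v : Pl K) (I : Ideal (𝓞 L)) (hI : I ≠ ⊥) :
    (normalizedFactors (Ideal.relNorm (𝓞 K) I)).count v.asIdeal =
      ∑ w ∈ (finite_above K L v).toFinset, fdeg K L w * (normalizedFactors I).count w.asIdeal := by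
  classical
  induction I using UniqueFactorizationMonoid.induction_on_prime with
  | h₁ => exact absurd rfl hI
  | h₂ x hx =>
    have : x = ⊤ := by simpa using hx
    subst this
    simp [← Ideal.one_eq_top]
  | h₃ a p ha hp ih =>
    have h1 : Ideal.relNorm (𝓞 K) p ≠ 0 := by
      rw [Ne, Ideal.zero_eq_bot, Ideal.relNorm_eq_bot_iff]; exact hp.ne_zero
    have h2 : Ideal.relNorm (𝓞 K) a ≠ 0 := by
      rw [Ne, Ideal.zero_eq_bot, Ideal.relNorm_eq_bot_iff]; exact ha
    rw [map_mul, normalizedFactors_mul h1 h2, Multiset.count_add, count_relNorm_prime K L v p hp,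
      ih ha, ← Finset.sum_add_distrib]
    refine Finset.sum_congr rfl fun w _ => ?_
    rw [normalizedFactors_mul hp.ne_zero ha, Multiset.count_add, mul_add]

theorem ord_norm_int (v : Pl K) {b : 𝓞 L} (hb : b ≠ 0) :
    ord v (Algebra.norm K (b : L)) =
      ∑ w ∈ (finite_above K L v).toFinset, (fdeg K L w : ℤ) * ord w (b : L) := by
  have h0 : Algebra.intNorm (𝓞 K) (𝓞 L) b ≠ 0 := by
    rwa [Ne, Algebra.intNorm_eq_zero]
  rw [← Algebra.algebraMap_intNorm (A := 𝓞 K) (B := 𝓞 L) (K := K) (L := L), ord_eq_count v h0,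
    ← Ideal.relNorm_singleton, count_relNorm K L v _ (by simpa using hb)]
  push_cast
  refine Finset.sum_congr rfl fun w _ => ?_
  rw [ord_eq_count w hb]

theorem ord_norm (v : Pl K) {b : L} (hb : b ≠ 0) :
    ord v (Algebra.norm K b) = ∑ w ∈ (finite_above K L v).toFinset, (fdeg K L w : ℤ) * ord w b := by
  obtain ⟨x, y, hy, rfl⟩ := IsFractionRing.div_surjective (A := 𝓞 L) b
  have hy0 : y ≠ 0 := nonZeroDivisors.ne_zero hy
  have hx0 : x ≠ 0 := by
    rintro rfl
    simp at hb
  have hx1 : algebraMap (𝓞 L) L x ≠ 0 := by simpa using hx0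
  have hy1 : algebraMap (𝓞 L) L y ≠ 0 := by simpa using hy0
  have hnx : Algebra.norm K (algebraMap (𝓞 L) L x) ≠ 0 := by
    rwa [Ne, Algebra.norm_eq_zero_iff]
  have hny : Algebra.norm K (algebraMap (𝓞 L) L y) ≠ 0 := by
    rwa [Ne, Algebra.norm_eq_zero_iff]
  have hdiv : Algebra.norm K (algebraMap (𝓞 L) L x / algebraMap (𝓞 L) L y) =
      Algebra.norm K (algebraMap (𝓞 L) L x) / Algebra.norm K (algebraMap (𝓞 L) L y) := by
    rw [eq_div_iff hny, ← map_mul, div_mul_cancel₀ _ hy1]
  rw [hdiv, ord_div v hnx hny, ord_norm_int K L v hx0, ord_norm_int K L v hy0,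
    ← Finset.sum_sub_distrib]
  refine Finset.sum_congr rfl fun w _ => ?_
  rw [ord_div w hx1 hy1, mul_sub]

theorem Nm_single (w : Pl L) (n : ℤ) :
    Nm K L (Finsupp.single w n) = Finsupp.single (below K L w) ((fdeg K L w : ℤ) * n) := by
  simp [Nm, mul_comm]

/-- the coefficients of the norm of a divisor -/
theorem Nm_apply (D : Div L) (v : Pl K) :
    Nm K L D v = ∑ w ∈ (finite_above K L v).toFinset, (fdeg K L w : ℤ) * D w := by
  classical
  induction D using Finsupp.induction_linear with
  | zero => simp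
  | add f g hf hg =>
    rw [map_add, Finsupp.add_apply, hf, hg, ← Finset.sum_add_distrib]
    refine Finset.sum_congr rfl fun w _ => ?_
    rw [Finsupp.add_apply, mul_add]
  | single w n =>
    rw [Nm_single, Finsupp.single_apply]
    simp only [Finsupp.single_apply, mul_ite, mul_zero]
    rw [Finset.sum_ite_eq]
    simp

theorem dv_norm {b : L} (hb : b ≠ 0) : dv (Algebra.norm K b) = Nm K L (dv b) := by
  ext v
  rw [dv_apply, Nm_apply, ord_norm K L v hb]
  rfl

theorem Nm_mem_IS {S : Set (Pl K)} {D : Div L} (hD : D ∈ IS (above K L S)) : Nm K L D ∈ IS S := by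
  intro v hv
  rw [Nm_apply]
  refine Finset.sum_eq_zero fun w hw => ?_
  have hw' : below K L w = v := by simpa using hw
  rw [hD w (by show below K L w ∈ S; rw [hw']; exact hv), mul_zero]

/-- `b ≡ 1 mod v ^ N 𝓞_L` (semilocal congruence) -/
def OneL (v : Pl K) (N : ℕ) (b : L) : Prop :=
  ∀ w : Pl L, below K L w = v → One w (N * eidx K L w) b

variable {K L}

theorem one_algebraMap_iff (w : Pl L) (N : ℕ) (a : K) :
    One w (N * eidx K L w) (algebraMap K L a) ↔ One (below K L w) N a := by
  have he := (eidx_pos K L w).ne'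
  unfold One
  rw [← map_one (algebraMap K L), ← map_sub, val_algebraMap]
  have : WithZero.exp (-((N * eidx K L w : ℕ) : ℤ)) = WithZero.exp (-(N : ℤ)) ^ eidx K L w := by
    rw [← WithZero.exp_nsmul]
    congr 1
    push_cast
    ring
  rw [this]
  exact pow_le_pow_iff_left₀ zero_le zero_le he

theorem oneL_algebraMap_iff (v : Pl K) (N : ℕ) (a : K) :
    OneL K L v N (algebraMap K L a) ↔ One v N a := by
  constructor
  · intro h
    obtain ⟨w, rfl⟩ := exists_above K L v
    exact (one_algebraMap_iff w N a).1 (h w rfl)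
  · rintro h w rfl
    exact (one_algebraMap_iff w N a).2 h

theorem oneL_one (v : Pl K) (N : ℕ) : OneL K L v N (1 : L) := fun w _ => one_one w _

theorem OneL.mul {v : Pl K} {N : ℕ} {a b : L} (ha : OneL K L v N a) (hb : OneL K L v N b) :
    OneL K L v N (a * b) := fun w hw => (ha w hw).mul (hb w hw)

theorem OneL.inv {v : Pl K} {N : ℕ} (hN : 1 ≤ N) {a : L} (ha : OneL K L v N a) :
    OneL K L v N a⁻¹ := fun w hw => (ha w hw).inv (Nat.mul_pos hN (eidx_pos K L w))

theorem OneL.div {v : Pl K} {N : ℕ} (hN : 1 ≤ N) {a b : L} (ha : OneL K L v N a)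
    (hb : OneL K L v N b) : OneL K L v N (a / b) := by
  rw [div_eq_mul_inv]
  exact ha.mul (hb.inv hN)

theorem OneL.mono {v : Pl K} {M N : ℕ} (h : M ≤ N) {a : L} (ha : OneL K L v N a) :
    OneL K L v M a := fun w hw => (ha w hw).mono (Nat.mul_le_mul_right _ h)

theorem OneL.prod {ι : Type*} (s : Finset ι) (f : ι → L) {v : Pl K} {N : ℕ}
    (h : ∀ i ∈ s, OneL K L v N (f i)) : OneL K L v N (∏ i ∈ s, f i) := by
  classical
  induction s using Finset.induction_on with
  | empty =>
    rw [Finset.prod_empty]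
    exact oneL_one v N
  | insert a s ha ih =>
    rw [Finset.prod_insert ha]
    exact (h a (Finset.mem_insert_self _ _)).mul
      (ih fun i hi => h i (Finset.mem_insert_of_mem hi))

theorem OneL.pow {v : Pl K} {N : ℕ} {a : L} (ha : OneL K L v N a) (n : ℕ) :
    OneL K L v N (a ^ n) :=
  fun w hw => (ha w hw).pow n

/-- weak approximation in `L` at the primes above a finite set of primes of `K` -/
theorem weak_approx_above (S : Finset (Pl K)) (x : Pl L → Lˣ) (N : ℕ) :
    ∃ b : Lˣ, ∀ w : Pl L, below K L w ∈ S → One w N ((b : L) / (x w : L)) := by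
  obtain ⟨b, hb⟩ := weak_approx_units (above_finite K L S.finite_toSet).toFinset x N
  exact ⟨b, fun w hw => hb w (by simpa [above] using hw)⟩

/-- semilocal version: approximate one element `x v` of `Lˣ` for each `v ∈ S` -/
theorem weak_approx_oneL (S : Finset (Pl K)) (x : Pl K → Lˣ) (N : ℕ) :
    ∃ b : Lˣ, ∀ v ∈ S, OneL K L v N ((b : L) / (x v : L)) := by
  obtain ⟨b, hb⟩ := weak_approx_above (K := K) S (fun w => x (below K L w))
    (N * Module.finrank K L)
  refine ⟨b, ?_⟩
  rintro v hv w rfl
  exact (hb w hv).mono (Nat.mul_le_mul_left _ (eidx_le_finrank K L w))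

variable (K L)

/-- extension of divisors -/
noncomputable def ext : Div K →+ Div L :=
  Finsupp.liftAddHom (fun v : Pl K =>
    (zmultiplesHom (Div L)) (∑ w ∈ (finite_above K L v).toFinset, Finsupp.single w (eidx K L w : ℤ)))

theorem ext_single (v : Pl K) (n : ℤ) : ext K L (Finsupp.single v n) =
    n • ∑ w ∈ (finite_above K L v).toFinset, Finsupp.single w (eidx K L w : ℤ) := by
  simp [ext]

theorem ext_apply (D : Div K) (w : Pl L) : ext K L D w = eidx K L w * D (below K L w) := by
  classical
  induction D using Finsupp.induction_linear with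
  | zero => simp
  | add f g hf hg => rw [map_add, Finsupp.add_apply, hf, hg, Finsupp.add_apply, mul_add]
  | single v n =>
    rw [ext_single, Finsupp.smul_apply, Finsupp.finsetSum_apply]
    simp only [Finsupp.single_apply]
    rw [Finset.sum_ite_eq']
    by_cases h : below K L w = v
    · rw [if_pos (by simpa using h), if_pos h.symm, smul_eq_mul, mul_comm]
    · rw [if_neg (by simpa using h), if_neg (fun h' => h h'.symm)]
      simp

theorem dv_algebraMap (a : K) : dv (algebraMap K L a) = ext K L (dv a) := by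
  ext w
  rw [dv_apply, ext_apply, dv_apply, ord_algebraMap]

theorem Nm_ext (D : Div K) : Nm K L (ext K L D) = Module.finrank K L • D := by
  ext v
  rw [Nm_apply, Finsupp.smul_apply, ← sum_eidx_mul_fdeg K L v, Finset.sum_smul]
  refine Finset.sum_congr rfl fun w hw => ?_
  have hw' : below K L w = v := by simpa using hw
  rw [ext_apply, hw', nsmul_eq_mul]
  push_cast
  ring

section galois

variable [IsGalois K L]

open Pointwise

/-- the Galois action on the primes of `L` -/
noncomputable instance instMulActionPl : MulAction Gal(L/K) (Pl L) where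
  smul σ w := ⟨σ • w.asIdeal, by
      have := w.isPrime
      exact Ideal.map_isPrime_of_equiv (MulSemiringAction.toRingEquiv Gal(L/K) (𝓞 L) σ), by
      intro h
      apply w.ne_bot
      have : σ⁻¹ • (σ • w.asIdeal) = σ⁻¹ • (⊥ : Ideal (𝓞 L)) := by rw [h]
      simpa using this⟩
  one_smul w := by
    apply HeightOneSpectrum.ext
    exact one_smul _ _
  mul_smul σ τ w := by
    apply HeightOneSpectrum.ext
    exact mul_smul _ _ _

theorem smul_asIdeal (σ : Gal(L/K)) (w : Pl L) : (σ • w).asIdeal = σ • w.asIdeal := rfl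

theorem below_smul (σ : Gal(L/K)) (w : Pl L) : below K L (σ • w) = below K L w := by
  apply HeightOneSpectrum.ext
  show (σ • w.asIdeal).under (𝓞 K) = w.asIdeal.under (𝓞 K)
  exact Ideal.under_smul _ _ _

theorem intVal_smul (σ : Gal(L/K)) (w : Pl L) (b : 𝓞 L) :
    (σ • w).intValuation (σ • b) = w.intValuation b := by
  by_cases hb : b = 0
  · subst hb; simp
  have hb' : σ • b ≠ 0 := fun h => hb (by
    have := congrArg (fun z => σ⁻¹ • z) h
    simpa using this)
  rw [HeightOneSpectrum.intValuation_eq_exp_neg_multiplicity _ hb,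
    HeightOneSpectrum.intValuation_eq_exp_neg_multiplicity _ hb']
  have e1 : Ideal.span {σ • b} = σ • Ideal.span {b} := by
    rw [Ideal.pointwise_smul_def, Ideal.map_span, Set.image_singleton]
    rfl
  have e2 : emultiplicity (σ • w.asIdeal) (σ • Ideal.span {b}) =
      emultiplicity w.asIdeal (Ideal.span {b}) :=
    emultiplicity_map_eq (MulSemiringAction.toRingEquiv Gal(L/K) (Ideal (𝓞 L)) σ)
  have e3 : multiplicity (σ • w).asIdeal (Ideal.span {σ • b}) =
      multiplicity w.asIdeal (Ideal.span {b}) := by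
    rw [e1]
    unfold multiplicity
    rw [smul_asIdeal, e2]
  rw [e3]

theorem val_smul (σ : Gal(L/K)) (w : Pl L) (b : L) :
    (σ • w).valuation L (σ b) = w.valuation L b := by
  obtain ⟨x, y, hy, rfl⟩ := IsFractionRing.div_surjective (A := 𝓞 L) b
  have e : ∀ z : 𝓞 L, σ (algebraMap (𝓞 L) L z) = algebraMap (𝓞 L) L (σ • z) := fun z => rfl
  rw [map_div₀, map_div₀, map_div₀, e, e, HeightOneSpectrum.valuation_of_algebraMap,
    HeightOneSpectrum.valuation_of_algebraMap, HeightOneSpectrum.valuation_of_algebraMap,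
    HeightOneSpectrum.valuation_of_algebraMap, intVal_smul, intVal_smul]

theorem ord_smul (σ : Gal(L/K)) (w : Pl L) (b : L) : ord (σ • w) (σ b) = ord w b := by
  rw [ord, ord, val_smul]

theorem exists_smul_eq {w w' : Pl L} (h : below K L w = below K L w') :
    ∃ σ : Gal(L/K), σ • w = w' := by
  have := w.isPrime
  have := w'.isPrime
  have h1 : w.asIdeal.LiesOver (below K L w).asIdeal := ⟨rfl⟩
  have h2 : w'.asIdeal.LiesOver (below K L w).asIdeal := ⟨by rw [h]; rfl⟩
  obtain ⟨σ, hσ⟩ := Ideal.exists_smul_eq_of_isGaloisGroup (below K L w).asIdeal w.asIdeal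
    w'.asIdeal Gal(L/K)
  exact ⟨σ, HeightOneSpectrum.ext hσ⟩

theorem eidx_smul (σ : Gal(L/K)) (w : Pl L) : eidx K L (σ • w) = eidx K L w := by
  show (σ • w.asIdeal).ramificationIdx (𝓞 K) = _
  rw [Ideal.ramificationIdx_smul]; rfl

theorem fdeg_smul (σ : Gal(L/K)) (w : Pl L) : fdeg K L (σ • w) = fdeg K L w := by
  show (σ • w.asIdeal).inertiaDeg (𝓞 K) = _
  rw [Ideal.inertiaDeg_smul]; rfl

theorem One.smul {w : Pl L} {N : ℕ} {b : L} (hb : One w N b) (σ : Gal(L/K)) :
    One (σ • w) N (σ b) := by
  unfold One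
  rw [← map_one σ, ← map_sub, val_smul]
  exact hb

theorem OneL.smul {v : Pl K} {N : ℕ} {b : L} (hb : OneL K L v N b) (σ : Gal(L/K)) :
    OneL K L v N (σ b) := by
  intro w hw
  have h1 : below K L (σ⁻¹ • w) = v := by rw [below_smul, hw]
  have h2 := One.smul K L (hb _ h1) σ
  rwa [smul_inv_smul, eidx_smul] at h2

theorem stabilizer_pl_eq (w : Pl L) :
    MulAction.stabilizer Gal(L/K) w = MulAction.stabilizer Gal(L/K) w.asIdeal := by
  ext σ
  rw [MulAction.mem_stabilizer_iff, MulAction.mem_stabilizer_iff, HeightOneSpectrum.ext_iff]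
  rfl

end galois

variable {K L}

/-- continuity of the norm -/
theorem OneL.norm [IsGalois K L] {v : Pl K} {N : ℕ} {b : L} (hb : OneL K L v N b) :
    One v N (Algebra.norm K b) := by
  rw [← oneL_algebraMap_iff (L := L), Algebra.norm_eq_prod_automorphisms]
  exact OneL.prod _ _ fun σ _ => OneL.smul K L hb σ

end P0c

end Claimed.Agent.R239.CFT
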