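import Claimed.Agent.R239.CFT.P0c

/-!
# R239 / CFT : package P0d.  Owner helper77.  No sorry in this file (it uses the statements of P0c).

All names/statements of helper97's frozen skeleton are kept verbatim; extras:
`card_le_of_forall_pow_eq`, `instLiesOverBelow`, `card_quot_pow_fdeg`, `eidx_eq_of_below_eq`,
`fdeg_eq_of_below_eq`, `inertia_eq_bot_iff`, `stabilizer_eq_bot_iff`, `finite_eidx_ne_one`,
`IsArithFrobAt_pow_mk`, `fdeg_le_orderOf`.
-/

set_option autoImplicit false

namespace Claimed.Agent.R239.CFT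

open IsDedekindDomain NumberField

/-- in a finite field, if every element is fixed by `x ↦ x ^ n` (`n ≥ 2`) then `card ≤ n` -/
lemma card_le_of_forall_pow_eq {F : Type*} [Field F] [Finite F] {n : ℕ} (hn : 2 ≤ n)
    (h : ∀ x : F, x ^ n = x) : Nat.card F ≤ n := by
  classical
  have := Fintype.ofFinite F
  obtain ⟨g, hg⟩ := IsCyclic.exists_generator (α := Fˣ)
  have h1 : orderOf g = Fintype.card Fˣ := by
    rw [orderOf_eq_card_of_forall_mem_zpowers hg, Nat.card_eq_fintype_card]
  have h2 : g ^ (n - 1) = 1 := by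
    have h3 : (g : F) ^ n = g := h g
    have h4 : (g : F) ^ (n - 1) * g = 1 * g := by
      rw [← pow_succ, Nat.sub_add_cancel (by omega), h3, one_mul]
    have h5 := mul_right_cancel₀ g.ne_zero h4
    exact Units.ext (by simpa using h5)
  have h3 : orderOf g ∣ n - 1 := orderOf_dvd_of_pow_eq_one h2
  have h4 := Nat.le_of_dvd (by omega) h3
  rw [h1, Fintype.card_units] at h4
  rw [Nat.card_eq_fintype_card]
  omega

section P0d

variable (K : Type*) [Field K] [NumberField K] (L : Type*) [Field L] [NumberField L] [Algebra K L]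

instance instLiesOverBelow (w : Pl L) : w.asIdeal.LiesOver (below K L w).asIdeal := by
  change w.asIdeal.LiesOver (w.asIdeal.under (𝓞 K))
  infer_instance

lemma card_quot_pow_fdeg (w : Pl L) :
    Nat.card (𝓞 K ⧸ (below K L w).asIdeal) ^ fdeg K L w = Nat.card (𝓞 L ⧸ w.asIdeal) :=
  Ideal.cardQuot_pow_inertiaDeg (below K L w).asIdeal w.asIdeal

variable [IsGalois K L]

open Pointwise

theorem card_inertia (w : Pl L) :
    Nat.card (w.asIdeal.inertia Gal(L/K)) = eidx K L w := by
  rw [Ideal.card_inertia_eq_ramificationIdxIn (G := Gal(L/K)) (below K L w).asIdeal w.asIdeal,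
    Ideal.ramificationIdxIn_eq_ramificationIdx (below K L w).asIdeal w.asIdeal Gal(L/K)]
  rfl

theorem card_stabilizer (w : Pl L) :
    Nat.card (MulAction.stabilizer Gal(L/K) w.asIdeal) = eidx K L w * fdeg K L w := by
  rw [Ideal.card_stabilizer_eq (G := Gal(L/K)) (below K L w).asIdeal w.asIdeal,
    Ideal.ramificationIdxIn_eq_ramificationIdx (below K L w).asIdeal w.asIdeal Gal(L/K),
    Ideal.inertiaDegIn_eq_inertiaDeg (below K L w).asIdeal w.asIdeal Gal(L/K)]
  rfl

lemma eidx_eq_of_below_eq {w w' : Pl L} (h : below K L w = below K L w') :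
    eidx K L w = eidx K L w' := by
  obtain ⟨σ, rfl⟩ := exists_smul_eq K L h
  rw [eidx_smul]

lemma fdeg_eq_of_below_eq {w w' : Pl L} (h : below K L w = below K L w') :
    fdeg K L w = fdeg K L w' := by
  obtain ⟨σ, rfl⟩ := exists_smul_eq K L h
  rw [fdeg_smul]

theorem nloc_eq (w : Pl L) :
    nloc K L (below K L w) = Nat.card (MulAction.stabilizer Gal(L/K) w.asIdeal) := by
  have : {n | ∃ w' : Pl L, below K L w' = below K L w ∧
      n = Nat.card (MulAction.stabilizer Gal(L/K) w'.asIdeal)}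
      = {Nat.card (MulAction.stabilizer Gal(L/K) w.asIdeal)} := by
    ext n
    constructor
    · rintro ⟨w', hw', rfl⟩
      rw [Set.mem_singleton_iff, card_stabilizer, card_stabilizer,
        eidx_eq_of_below_eq K L hw', fdeg_eq_of_below_eq K L hw']
    · rintro rfl
      exact ⟨w, rfl, rfl⟩
  unfold nloc
  rw [this, csSup_singleton]

theorem nloc_pos (v : Pl K) : 0 < nloc K L v := by
  obtain ⟨w, rfl⟩ := exists_above K L v
  rw [nloc_eq]
  exact Nat.card_pos

lemma inertia_eq_bot_iff (w : Pl L) :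
    w.asIdeal.toAddSubgroup.inertia Gal(L/K) = ⊥ ↔ eidx K L w = 1 := by
  rw [← card_inertia, Subgroup.card_eq_one]

lemma stabilizer_eq_bot_iff (w : Pl L) :
    MulAction.stabilizer Gal(L/K) w.asIdeal = ⊥ ↔ eidx K L w = 1 ∧ fdeg K L w = 1 := by
  rw [← mul_eq_one, ← card_stabilizer, Subgroup.card_eq_one]

theorem unram_iff (v : Pl K) : Unram K L v ↔ ∀ w : Pl L, below K L w = v → eidx K L w = 1 := by
  unfold Unram
  simp only [inertia_eq_bot_iff]

theorem split_iff (v : Pl K) :
    Split K L v ↔ ∀ w : Pl L, below K L w = v → eidx K L w = 1 ∧ fdeg K L w = 1 := by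
  unfold Split
  simp only [stabilizer_eq_bot_iff]

theorem Split.unram {v : Pl K} (h : Split K L v) : Unram K L v := by
  rw [unram_iff]
  rw [split_iff] at h
  exact fun w hw => (h w hw).1

theorem unram_of_exists {v : Pl K} (w : Pl L) (hw : below K L w = v)
    (h : w.asIdeal.inertia Gal(L/K) = ⊥) : Unram K L v := by
  rw [unram_iff]
  intro w' hw'
  rw [eidx_eq_of_below_eq K L (hw'.trans hw.symm)]
  exact (inertia_eq_bot_iff K L w).1 h

theorem split_of_exists {v : Pl K} (w : Pl L) (hw : below K L w = v)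
    (h : MulAction.stabilizer Gal(L/K) w.asIdeal = ⊥) : Split K L v := by
  rw [split_iff]
  intro w' hw'
  rw [eidx_eq_of_below_eq K L (hw'.trans hw.symm), fdeg_eq_of_below_eq K L (hw'.trans hw.symm)]
  exact (stabilizer_eq_bot_iff K L w).1 h

/-- only finitely many primes of `L` ramify -/
lemma finite_eidx_ne_one : {w : Pl L | eidx K L w ≠ 1}.Finite := by
  have h0 : differentIdeal (𝓞 K) (𝓞 L) ≠ 0 := differentIdeal_ne_bot
  refine (Ideal.finite_factors h0).subset ?_
  intro w hw
  by_contra hnd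
  have : Algebra.IsUnramifiedAt (𝓞 K) w.asIdeal := not_dvd_differentIdeal_iff.1 hnd
  exact hw (Ideal.ramificationIdx_eq_one_of_isUnramifiedAt (R := 𝓞 K) (p := w.asIdeal))

/-- only finitely many primes ramify -/
theorem finite_ram : {v : Pl K | ¬ Unram K L v}.Finite := by
  refine ((finite_eidx_ne_one K L).image (below K L)).subset ?_
  intro v hv
  rw [Set.mem_ofPred_eq, unram_iff] at hv
  push Not at hv
  obtain ⟨w, hw, hne⟩ := hv
  exact ⟨w, hne, hw⟩

/-- a Galois invariant divisor supported above unramified primes comes from `K` -/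
theorem exists_ext_eq_of_invariant (D : Div L) (hinv : ∀ (σ : Gal(L/K)) (w : Pl L), D (σ • w) = D w)
    (hur : ∀ w : Pl L, D w ≠ 0 → Unram K L (below K L w)) : ∃ D' : Div K, ext K L D' = D := by
  classical
  choose W hW using exists_above K L
  have hconst : ∀ w w' : Pl L, below K L w = below K L w' → D w = D w' := by
    intro w w' h
    obtain ⟨σ, rfl⟩ := exists_smul_eq K L h
    rw [hinv]
  have hfin : {v : Pl K | D (W v) ≠ 0}.Finite := by
    refine ((D.support.finite_toSet).image (below K L)).subset ?_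
    intro v hv
    exact ⟨W v, by simpa using hv, hW v⟩
  refine ⟨Finsupp.ofSupportFinite (fun v => D (W v)) hfin, ?_⟩
  ext w
  rw [ext_apply]
  change (eidx K L w : ℤ) * D (W (below K L w)) = D w
  rw [hconst (W (below K L w)) w (hW _)]
  by_cases h : D w = 0
  · rw [h, mul_zero]
  · rw [(unram_iff K L _).1 (hur w h) w rfl]
    simp

/-- Frobenius elements exist -/
theorem exists_isArithFrobAt (w : Pl L) : ∃ σ : Gal(L/K), IsArithFrobAt (𝓞 K) σ w.asIdeal :=
  IsArithFrobAt.exists_of_isInvariant (𝓞 K) Gal(L/K) w.asIdeal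


variable {K L} in
lemma IsArithFrobAt_pow_mk {w : Pl L} {σ : Gal(L/K)}
    (hσ : IsArithFrobAt (𝓞 K) σ w.asIdeal) (j : ℕ) (x : 𝓞 L) :
    Ideal.Quotient.mk w.asIdeal ((σ ^ j) • x)
      = (Ideal.Quotient.mk w.asIdeal x) ^ (Nat.card (𝓞 K ⧸ (below K L w).asIdeal) ^ j) := by
  induction j generalizing x with
  | zero => simp
  | succ j ih =>
    rw [pow_succ', mul_smul]
    have h1 := AlgHom.IsArithFrobAt.mk_apply hσ ((σ ^ j) • x)
    have h2 : Ideal.Quotient.mk w.asIdeal (σ • (σ ^ j) • x)
        = (Ideal.Quotient.mk w.asIdeal ((σ ^ j) • x))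
          ^ Nat.card (𝓞 K ⧸ (below K L w).asIdeal) := h1
    rw [h2, ih, ← pow_mul, pow_succ]

variable {K L} in
/-- the order of a Frobenius element is at least the residue degree -/
lemma fdeg_le_orderOf {w : Pl L} {σ : Gal(L/K)}
    (hσ : IsArithFrobAt (𝓞 K) σ w.asIdeal) : fdeg K L w ≤ orderOf σ := by
  set q := Nat.card (𝓞 K ⧸ (below K L w).asIdeal) with hq
  have hq2 : 2 ≤ q := by
    have : Nontrivial (𝓞 K ⧸ (below K L w).asIdeal) :=
      Ideal.Quotient.nontrivial_iff.2 (below K L w).isPrime.ne_top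
    exact Finite.one_lt_card
  have hk : 0 < orderOf σ := orderOf_pos σ
  let _ : Field (𝓞 L ⧸ w.asIdeal) := Ideal.Quotient.field w.asIdeal
  have hall : ∀ y : 𝓞 L ⧸ w.asIdeal, y ^ (q ^ orderOf σ) = y := by
    intro y
    obtain ⟨x, rfl⟩ := Ideal.Quotient.mk_surjective y
    have := IsArithFrobAt_pow_mk hσ (orderOf σ) x
    rw [pow_orderOf_eq_one, one_smul] at this
    exact this.symm
  have h2 : 2 ≤ q ^ orderOf σ := le_trans hq2 (Nat.le_self_pow hk.ne' q)
  have h3 := card_le_of_forall_pow_eq h2 hall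
  rw [← card_quot_pow_fdeg K L w] at h3
  exact (Nat.pow_le_pow_iff_right (by omega)).1 h3

/-- the decomposition group of an unramified prime is generated by a Frobenius element -/
theorem stabilizer_eq_zpowers {w : Pl L} (hur : Unram K L (below K L w)) {σ : Gal(L/K)}
    (hσ : IsArithFrobAt (𝓞 K) σ w.asIdeal) :
    MulAction.stabilizer Gal(L/K) w.asIdeal = Subgroup.zpowers σ := by
  have hle : Subgroup.zpowers σ ≤ MulAction.stabilizer Gal(L/K) w.asIdeal := by
    rw [Subgroup.zpowers_le]
    exact hσ.mem_stabilizer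
  refine (Subgroup.eq_of_le_of_card_ge hle ?_).symm
  rw [card_stabilizer, (unram_iff K L _).1 hur w rfl, one_mul, Nat.card_zpowers]
  exact fdeg_le_orderOf hσ

end P0d

end Claimed.Agent.R239.CFT
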