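import Claimed.Agent.R239.CFT.P1Core

/-!
# R239 / CFT : package P1 (Herbrand calculus, pure algebra)

`A` an additive commutative group, `f g : A →+ A` with `f ∘ g = 0 = g ∘ f`.
`hq f g = (ker f : im g)` as a natural number (`0` = infinite).
For a cyclic group `⟨s⟩` of order `n` acting on `A`: `f = s - 1`, `g = nrm s n`.
Multiplicative groups are treated through `Additive`.
The owner of P1 owns this file and replaces the `sorry`s in place.
-/

set_option autoImplicit false

namespace Claimed.Agent.R239.CFT.Herb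

variable {A : Type*} [AddCommGroup A]

-- `hq f g = (ker f : im g)` is defined in `P1Core.lean` (same namespace, same definition).

/-- both indices are finite -/
def Fin2 (f g : A →+ A) : Prop := hq f g ≠ 0 ∧ hq g f ≠ 0

/-- `B` is stable under `f` -/
def Stable (B : AddSubgroup A) (f : A →+ A) : Prop := ∀ x ∈ B, f x ∈ B

/-- restriction of an endomorphism to a stable subgroup -/
def resE (B : AddSubgroup A) (f : A →+ A) (h : Stable B f) : B →+ B :=
  (f.comp B.subtype).codRestrict B (fun x => h x x.2)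

/-- endomorphism induced on the quotient by a stable subgroup -/
def quoE (B : AddSubgroup A) (f : A →+ A) (h : Stable B f) : A ⧸ B →+ A ⧸ B :=
  QuotientAddGroup.map B B f (fun x hx => h x hx)

lemma hseq_sub_quo (f g : A →+ A) (B : AddSubgroup A) (hf : Stable B f) (hg : Stable B g) :
    HSeq (resE B f hf) (resE B g hg) f g (quoE B f hf) (quoE B g hg) B.subtype
      (QuotientAddGroup.mk' B) where
  inj := B.subtype_injective
  surj := QuotientAddGroup.mk'_surjective B
  exact := by rw [AddSubgroup.range_subtype, QuotientAddGroup.ker_mk']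
  i_f _ := rfl
  i_g _ := rfl
  p_f _ := rfl
  p_g _ := rfl

lemma comp_eq_zero_of {f g : A →+ A} (hfg : ∀ x, f (g x) = 0) : f.comp g = 0 :=
  AddMonoidHom.ext hfg

section hexagon

variable (f g : A →+ A) (hfg : ∀ x, f (g x) = 0) (hgf : ∀ x, g (f x) = 0)
  (B : AddSubgroup A) (hf : Stable B f) (hg : Stable B g)

include hfg hgf

theorem fin2_of_sub_quo (h1 : Fin2 (resE B f hf) (resE B g hg)) (h2 : Fin2 (quoE B f hf) (quoE B g hg)) :
    Fin2 f g :=
  hq_ne_zero_mid (hseq_sub_quo f g B hf hg) (comp_eq_zero_of hfg) (comp_eq_zero_of hgf)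
    h1.1 h1.2 h2.1 h2.2

theorem fin2_sub (h : Fin2 f g) (h2 : Fin2 (quoE B f hf) (quoE B g hg)) :
    Fin2 (resE B f hf) (resE B g hg) :=
  hq_ne_zero_left (hseq_sub_quo f g B hf hg) (comp_eq_zero_of hfg) (comp_eq_zero_of hgf)
    h.1 h.2 h2.1 h2.2

theorem fin2_quo (h : Fin2 f g) (h1 : Fin2 (resE B f hf) (resE B g hg)) :
    Fin2 (quoE B f hf) (quoE B g hg) :=
  hq_ne_zero_right (hseq_sub_quo f g B hf hg) (comp_eq_zero_of hfg) (comp_eq_zero_of hgf)
    h1.1 h1.2 h.1 h.2

/-- multiplicativity of the Herbrand quotient -/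
theorem hq_mul (h1 : Fin2 (resE B f hf) (resE B g hg)) (h2 : Fin2 (quoE B f hf) (quoE B g hg)) :
    hq f g * hq (resE B g hg) (resE B f hf) * hq (quoE B g hg) (quoE B f hf) =
      hq g f * hq (resE B f hf) (resE B g hg) * hq (quoE B f hf) (quoE B g hg) :=
  hq_hexagon (hseq_sub_quo f g B hf hg) (comp_eq_zero_of hfg) (comp_eq_zero_of hgf)

theorem fin2_of_finite [Finite A] : Fin2 f g := by
  obtain ⟨e, h⟩ := hq_finite (comp_eq_zero_of hfg) (comp_eq_zero_of hgf)
  exact ⟨h, e ▸ h⟩

theorem hq_eq_of_finite [Finite A] : hq f g = hq g f :=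
  (hq_finite (comp_eq_zero_of hfg) (comp_eq_zero_of hgf)).1

/-- a stable subgroup of finite index has the same Herbrand quotient -/
theorem fin2_iff_of_finiteIndex (hB : B.index ≠ 0) :
    Fin2 f g ↔ Fin2 (resE B f hf) (resE B g hg) := by
  have : B.FiniteIndex := ⟨hB⟩
  have : Finite (A ⧸ B) := AddSubgroup.finite_quotient_of_finiteIndex
  exact hq_ne_zero_iff_of_finite_right (hseq_sub_quo f g B hf hg) (comp_eq_zero_of hfg)
    (comp_eq_zero_of hgf)

theorem hq_mul_of_finiteIndex (hB : B.index ≠ 0) (h : Fin2 f g) :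
    hq f g * hq (resE B g hg) (resE B f hf) = hq g f * hq (resE B f hf) (resE B g hg) := by
  have : B.FiniteIndex := ⟨hB⟩
  have : Finite (A ⧸ B) := AddSubgroup.finite_quotient_of_finiteIndex
  exact hq_of_finite_right (hseq_sub_quo f g B hf hg) (comp_eq_zero_of hfg) (comp_eq_zero_of hgf)

/-- a finite stable subgroup can be divided out -/
theorem fin2_iff_of_finite_sub (hB : Finite B) :
    Fin2 f g ↔ Fin2 (quoE B f hf) (quoE B g hg) :=
  hq_ne_zero_iff_of_finite_left (hseq_sub_quo f g B hf hg) (comp_eq_zero_of hfg)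
    (comp_eq_zero_of hgf)

theorem hq_mul_of_finite_sub (hB : Finite B) (h : Fin2 f g) :
    hq f g * hq (quoE B g hg) (quoE B f hf) = hq g f * hq (quoE B f hf) (quoE B g hg) :=
  hq_of_finite_left (hseq_sub_quo f g B hf hg) (comp_eq_zero_of hfg) (comp_eq_zero_of hgf)

end hexagon

/-- transport along an isomorphism -/
theorem hq_congr {A' : Type*} [AddCommGroup A'] (e : A ≃+ A') (f g : A →+ A) (f' g' : A' →+ A')
    (hf : ∀ x, e (f x) = f' (e x)) (hg : ∀ x, e (g x) = g' (e x)) : hq f g = hq f' g' :=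
  hq_congr_core e hf hg

lemma relIndex_prod_prod {A' : Type*} [AddCommGroup A'] (H K : AddSubgroup A)
    (H' K' : AddSubgroup A') :
    (H.prod H').relIndex (K.prod K') = H.relIndex K * H'.relIndex K' := by
  have e : (K.subtype.prodMap K'.subtype).range = K.prod K' := by
    ext ⟨a, b⟩
    constructor
    · rintro ⟨⟨x, y⟩, h⟩
      simp only [AddMonoidHom.coe_prodMap, Prod.map_apply, Prod.mk.injEq] at h
      exact ⟨h.1 ▸ x.2, h.2 ▸ y.2⟩
    · rintro ⟨ha, hb⟩
      exact ⟨(⟨a, ha⟩, ⟨b, hb⟩), rfl⟩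
  rw [← e, ← AddSubgroup.index_comap]
  have e' : (H.prod H').comap (K.subtype.prodMap K'.subtype) =
      (H.addSubgroupOf K).prod (H'.addSubgroupOf K') := by
    ext ⟨x, y⟩
    simp [AddSubgroup.mem_prod, AddSubgroup.mem_addSubgroupOf]
  rw [e', AddSubgroup.index_prod]
  rfl

/-- products -/
theorem hq_prod {A' : Type*} [AddCommGroup A'] (f g : A →+ A) (f' g' : A' →+ A') :
    hq (f.prodMap f') (g.prodMap g') = hq f g * hq f' g' := by
  unfold hq
  have e1 : (g.prodMap g').range = g.range.prod g'.range := by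
    ext ⟨a, b⟩
    constructor
    · rintro ⟨⟨x, y⟩, h⟩
      simp only [AddMonoidHom.coe_prodMap, Prod.map_apply, Prod.mk.injEq] at h
      exact ⟨⟨x, h.1⟩, ⟨y, h.2⟩⟩
    · rintro ⟨⟨x, hx⟩, ⟨y, hy⟩⟩
      simp only at hx hy
      exact ⟨(x, y), by simp [hx, hy]⟩
  have e2 : (f.prodMap f').ker = f.ker.prod f'.ker := by
    ext ⟨a, b⟩
    simp [AddMonoidHom.mem_ker, AddSubgroup.mem_prod]
  rw [e1, e2]
  exact relIndex_prod_prod _ _ _ _

/-! ### cyclic group modules -/

/-- the norm `1 + s + ... + s^(n-1)` -/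
def nrm (s : A →+ A) (n : ℕ) : A →+ A where
  toFun x := ∑ i ∈ Finset.range n, (s^[i]) x
  map_zero' := by simp [iterate_map_zero]
  map_add' x y := by simp [iterate_map_add, Finset.sum_add_distrib]

/-- `s - 1` -/
def dlt (s : A →+ A) : A →+ A := s - AddMonoidHom.id A

theorem nrm_apply (s : A →+ A) (n : ℕ) (x : A) :
    nrm s n x = ∑ i ∈ Finset.range n, (s^[i]) x := rfl

theorem dlt_apply (s : A →+ A) (x : A) : dlt s x = s x - x := rfl

theorem dlt_nrm (s : A →+ A) (n : ℕ) (hs : ∀ x, (s^[n]) x = x) (x : A) : dlt s (nrm s n x) = 0 := by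
  rw [dlt_apply, nrm_apply, map_sum, ← Finset.sum_sub_distrib]
  have : ∀ i ∈ Finset.range n, s ((s^[i]) x) - (s^[i]) x = (s^[i + 1]) x - (s^[i]) x := by
    intro i _
    rw [Function.iterate_succ_apply']
  rw [Finset.sum_congr rfl this, Finset.sum_range_sub (fun i => (s^[i]) x), hs]
  simp

theorem nrm_dlt (s : A →+ A) (n : ℕ) (hs : ∀ x, (s^[n]) x = x) (x : A) : nrm s n (dlt s x) = 0 := by
  rw [dlt_apply, nrm_apply]
  have : ∀ i ∈ Finset.range n, (s^[i]) (s x - x) = (s^[i + 1]) x - (s^[i]) x := by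
    intro i _
    rw [iterate_map_sub, Function.iterate_succ_apply]
  rw [Finset.sum_congr rfl this, Finset.sum_range_sub (fun i => (s^[i]) x), hs]
  simp

/-- `h0 = (A^G : N A)` -/
noncomputable def h0 (s : A →+ A) (n : ℕ) : ℕ := hq (dlt s) (nrm s n)

/-- `h1 = (ker N : (s-1) A)` -/
noncomputable def h1 (s : A →+ A) (n : ℕ) : ℕ := hq (nrm s n) (dlt s)

/-- cohomologically trivial (in Tate degrees `0` and `-1`) -/
def CT (s : A →+ A) (n : ℕ) : Prop :=
  (∀ x, dlt s x = 0 → ∃ y, nrm s n y = x) ∧ (∀ x, nrm s n x = 0 → ∃ y, dlt s y = x)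

theorem CT.h0_eq_one {s : A →+ A} {n : ℕ} (h : CT s n) : h0 s n = 1 := by
  unfold h0 hq
  rw [AddSubgroup.relIndex_eq_one]
  intro x hx
  exact h.1 x hx

theorem CT.h1_eq_one {s : A →+ A} {n : ℕ} (h : CT s n) : h1 s n = 1 := by
  unfold h1 hq
  rw [AddSubgroup.relIndex_eq_one]
  intro x hx
  exact h.2 x hx

/-- trivial action on `ℤ` -/
theorem nrm_id_int (n : ℕ) (x : ℤ) : nrm (AddMonoidHom.id ℤ) n x = n * x := by
  rw [nrm_apply]
  have : ∀ i : ℕ, ((AddMonoidHom.id ℤ)^[i]) x = x := by
    intro i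
    induction i with
    | zero => rfl
    | succ k ih => rw [Function.iterate_succ_apply']; exact ih
  rw [Finset.sum_congr rfl fun i _ => this i]
  simp

theorem h0_int (n : ℕ) (hn : 0 < n) : h0 (AddMonoidHom.id ℤ) n = n := by
  unfold h0 hq
  have e1 : (dlt (AddMonoidHom.id ℤ)).ker = ⊤ := by
    ext x
    simp [AddMonoidHom.mem_ker, dlt_apply]
  have e2 : (nrm (AddMonoidHom.id ℤ) n).range = AddSubgroup.zmultiples (n : ℤ) := by
    ext x
    rw [AddSubgroup.mem_zmultiples_iff]
    constructor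
    · rintro ⟨y, rfl⟩
      exact ⟨y, by rw [nrm_id_int]; simp [mul_comm]⟩
    · rintro ⟨y, rfl⟩
      exact ⟨y, by rw [nrm_id_int]; simp [mul_comm]⟩
  rw [e1, e2, AddSubgroup.relIndex_top_right, Int.index_zmultiples]
  simp

theorem h1_int (n : ℕ) (hn : 0 < n) : h1 (AddMonoidHom.id ℤ) n = 1 := by
  unfold h1 hq
  rw [AddSubgroup.relIndex_eq_one]
  intro x hx
  have hx' : nrm (AddMonoidHom.id ℤ) n x = 0 := hx
  rw [nrm_id_int] at hx'
  have : x = 0 := by
    rcases mul_eq_zero.1 hx' with h | h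
    · exact absurd (by exact_mod_cast h) hn.ne'
    · exact h
  rw [this]
  exact zero_mem _

/-- the endomorphism of `X → T` induced by a permutation `p` of `X`: `(s φ) x = φ (p⁻¹ x)` -/
def permE {X : Type*} (T : Type*) [AddCommGroup T] (p : Equiv.Perm X) : (X → T) →+ (X → T) where
  toFun φ := fun x => φ (p.symm x)
  map_zero' := rfl
  map_add' _ _ := rfl

section perm_aux

variable {X : Type*} {T : Type*} [AddCommGroup T]

theorem permE_apply (p : Equiv.Perm X) (φ : X → T) (x : X) : permE T p φ x = φ (p.symm x) := rfl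

theorem permE_iterate (p : Equiv.Perm X) (i : ℕ) (φ : X → T) (x : X) :
    ((permE T p)^[i]) φ x = φ ((p⁻¹ ^ i) x) := by
  induction i generalizing φ with
  | zero => rfl
  | succ k ih =>
    rw [Function.iterate_succ_apply, ih, permE_apply, pow_succ']
    rfl

theorem nrm_permE_apply (p : Equiv.Perm X) (n : ℕ) (φ : X → T) (x : X) :
    nrm (permE T p) n φ x = ∑ i ∈ Finset.range n, φ ((p⁻¹ ^ i) x) := by
  rw [nrm_apply, Finset.sum_apply]
  exact Finset.sum_congr rfl fun i _ => permE_iterate p i φ x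

lemma perm_exists_period (q : Equiv.Perm X) (x : X) : ∃ L : ℕ, ∀ i : ℕ, (q ^ i) x = x ↔ L ∣ i :=
  ⟨Function.minimalPeriod q x, fun i => by
    rw [← Function.isPeriodicPt_iff_minimalPeriod_dvd, Function.IsPeriodicPt, Function.IsFixedPt,
      Equiv.Perm.iterate_eq_pow]⟩

lemma perm_inv_pow_fix_iff (p : Equiv.Perm X) (x : X) (i : ℕ) :
    ((p⁻¹) ^ i) x = x ↔ (p ^ i) x = x := by
  rw [inv_pow, Equiv.Perm.inv_eq_iff_eq, eq_comm]

/-- sum over a multiple of a period -/
lemma sum_range_mul_period (q : Equiv.Perm X) (x : X) (L m : ℕ) (hL : (q ^ L) x = x) (F : X → T) :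
    ∑ i ∈ Finset.range (m * L), F ((q ^ i) x) = m • ∑ j ∈ Finset.range L, F ((q ^ j) x) := by
  induction m with
  | zero => simp
  | succ k ih =>
    rw [Nat.succ_mul, Finset.sum_range_add, ih, succ_nsmul]
    congr 1
    refine Finset.sum_congr rfl fun j _ => ?_
    have h1 : (q ^ (k * L)) x = x := by
      rw [mul_comm, pow_mul]
      exact Equiv.Perm.pow_apply_eq_self_of_apply_eq_self hL k
    rw [add_comm, pow_add, Equiv.Perm.mul_apply, h1]

lemma pow_injOn_period (q : Equiv.Perm X) (x : X) (L : ℕ) (hL : ∀ i : ℕ, (q ^ i) x = x ↔ L ∣ i) :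
    Set.InjOn (fun j : ℕ => (q ^ j) x) (Finset.range L : Set ℕ) := by
  have key : ∀ j k : ℕ, j ≤ k → k < L → (q ^ j) x = (q ^ k) x → j = k := by
    intro j k hjk hk h
    have h1 : (q ^ (k - j)) x = x := by
      apply (q ^ j).injective
      rw [← Equiv.Perm.mul_apply, ← pow_add, Nat.add_sub_cancel' hjk, h]
    have h2 := (hL _).1 h1
    have h3 : k - j = 0 := Nat.eq_zero_of_dvd_of_lt h2 (by omega)
    omega
  intro j hj k hk h
  simp only [Finset.coe_range, Set.mem_Iio] at hj hk
  rcases le_total j k with hjk | hjk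
  · exact key j k hjk hk h
  · exact (key k j hjk hj h.symm).symm

lemma orbit_eq_image [Fintype X] [DecidableEq X] (q : Equiv.Perm X) (x : X) (L : ℕ) (hLpos : 0 < L)
    (hL : ∀ i : ℕ, (q ^ i) x = x ↔ L ∣ i) [DecidablePred fun z => q.SameCycle x z] :
    Finset.univ.filter (fun z => q.SameCycle x z) =
      (Finset.range L).image (fun j : ℕ => (q ^ j) x) := by
  ext z
  simp only [Finset.mem_filter, Finset.mem_univ, true_and, Finset.mem_image, Finset.mem_range]
  constructor
  · intro h
    obtain ⟨i, rfl⟩ := h.exists_nat_pow_eq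
    refine ⟨i % L, Nat.mod_lt _ hLpos, ?_⟩
    conv_rhs => rw [← Nat.mod_add_div i L]
    rw [pow_add, Equiv.Perm.mul_apply, (hL (L * (i / L))).2 (dvd_mul_right _ _)]
  · rintro ⟨j, _, rfl⟩
    exact ⟨j, by simp⟩

/-- the orbit sum formula -/
lemma sum_range_eq_orbit_sum [Fintype X] [DecidableEq X] (q : Equiv.Perm X) (x : X) (L m : ℕ)
    (hLpos : 0 < L) (hL : ∀ i : ℕ, (q ^ i) x = x ↔ L ∣ i)
    [DecidablePred fun z => q.SameCycle x z] (F : X → T) :
    ∑ i ∈ Finset.range (m * L), F ((q ^ i) x) =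
      m • ∑ z ∈ Finset.univ.filter (fun z => q.SameCycle x z), F z := by
  rw [sum_range_mul_period q x L m ((hL L).2 dvd_rfl), orbit_eq_image q x L hLpos hL,
    Finset.sum_image (pow_injOn_period q x L hL)]

open Classical in
/-- the norm on a permutation module -/
lemma nrm_permE_eq [Fintype X] (p : Equiv.Perm X) (n : ℕ) (x : X) (L m : ℕ)
    (hLpos : 0 < L) (hL : ∀ i : ℕ, (p ^ i) x = x ↔ L ∣ i) (hn : n = m * L) (φ : X → T) :
    nrm (permE T p) n φ x = m • ∑ z ∈ Finset.univ.filter (fun z => p.SameCycle x z), φ z := by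
  rw [nrm_permE_apply, hn, sum_range_eq_orbit_sum p⁻¹ x L m hLpos
    (fun i => (perm_inv_pow_fix_iff p x i).trans (hL i))]
  congr 1
  refine Finset.sum_congr ?_ fun _ _ => rfl
  ext z
  simp [Equiv.Perm.sameCycle_inv]

theorem permE_single [DecidableEq X] (p : Equiv.Perm X) (y : X) (t : T) :
    permE T p (Pi.single y t) = Pi.single (p y) t := by
  ext z
  rw [permE_apply, Pi.single_apply, Pi.single_apply]
  simp only [Equiv.symm_apply_eq]

lemma single_pow_sub_single_mem [DecidableEq X] (p : Equiv.Perm X) (y : X) (t : T) (j : ℕ) :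
    (Pi.single ((p ^ j) y) t - Pi.single y t : X → T) ∈ (dlt (permE T p)).range := by
  induction j with
  | zero => simp
  | succ k ih =>
    have h1 : (Pi.single ((p ^ (k + 1)) y) t - Pi.single ((p ^ k) y) t : X → T) ∈
        (dlt (permE T p)).range := by
      refine ⟨Pi.single ((p ^ k) y) t, ?_⟩
      rw [dlt_apply, permE_single, pow_succ', Equiv.Perm.mul_apply]
    have := add_mem h1 ih
    simpa using this

/-- base points of the cycles -/
lemma perm_exists_base (p : Equiv.Perm X) :
    ∃ r : X → X, (∀ x, p.SameCycle (r x) x) ∧ ∀ x z, p.SameCycle x z → r x = r z := by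
  refine ⟨fun x => (Quotient.mk (Equiv.Perm.SameCycle.setoid p) x).out, fun x => ?_, fun x z h => ?_⟩
  · exact Quotient.mk_out (s := Equiv.Perm.SameCycle.setoid p) x
  · have : Quotient.mk (Equiv.Perm.SameCycle.setoid p) x =
        Quotient.mk (Equiv.Perm.SameCycle.setoid p) z := Quotient.sound h
    simp only [this]

open Classical in
/-- zero cycle sums ⟹ in the image of `s - 1` -/
lemma mem_range_dlt_of_orbit_sum_zero [Fintype X] (p : Equiv.Perm X) (φ : X → T)
    (h : ∀ x, ∑ z ∈ Finset.univ.filter (fun z => p.SameCycle x z), φ z = 0) :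
    ∃ ψ, dlt (permE T p) ψ = φ := by
  obtain ⟨r, hr1, hr2⟩ := perm_exists_base p
  have hχ : (∑ x, Pi.single (r x) (φ x) : X → T) = 0 := by
    ext z
    rw [Finset.sum_apply]
    simp only [Pi.single_apply, Pi.zero_apply]
    rw [← Finset.sum_filter]
    by_cases hz : ∃ x0, r x0 = z
    · obtain ⟨x0, rfl⟩ := hz
      rw [← h x0]
      refine Finset.sum_congr ?_ fun _ _ => rfl
      ext x
      simp only [Finset.mem_filter, Finset.mem_univ, true_and]
      constructor
      · intro hx
        exact ((hr1 x0).symm.trans (hx ▸ hr1 x))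
      · intro hx
        exact hr2 _ _ hx
    · apply Finset.sum_eq_zero
      intro x hx
      simp only [Finset.mem_filter, Finset.mem_univ, true_and] at hx
      exact absurd ⟨x, hx.symm⟩ hz
  have hφ : φ = ∑ x, (Pi.single x (φ x) - Pi.single (r x) (φ x) : X → T) := by
    rw [Finset.sum_sub_distrib, hχ, sub_zero, Finset.univ_sum_single]
  have : φ ∈ (dlt (permE T p)).range := by
    rw [hφ]
    refine sum_mem fun x _ => ?_
    obtain ⟨j, hj⟩ := (hr1 x).exists_nat_pow_eq
    have := single_pow_sub_single_mem p (r x) (φ x) j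
    rwa [hj] at this
  exact this

lemma perm_inv_const (p : Equiv.Perm X) [Finite X] (φ : X → T) (h : dlt (permE T p) φ = 0) {x z : X}
    (hxz : p.SameCycle x z) : φ x = φ z := by
  have h1 : ∀ y, φ (p y) = φ y := by
    intro y
    have := congrFun h (p y)
    rw [dlt_apply] at this
    simp only [Pi.sub_apply, permE_apply, Equiv.symm_apply_apply, Pi.zero_apply] at this
    exact (sub_eq_zero.1 this).symm
  obtain ⟨j, rfl⟩ := hxz.exists_nat_pow_eq
  induction j with
  | zero => rfl
  | succ k ih =>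
    rw [pow_succ', Equiv.Perm.mul_apply, h1]
    exact ih ⟨k, by simp⟩

open Classical in
/-- cycle sums of a function supported on the base points -/
lemma orbit_sum_base [Fintype X] (p : Equiv.Perm X) (r : X → X) (hr1 : ∀ x, p.SameCycle (r x) x)
    (hr2 : ∀ x z, p.SameCycle x z → r x = r z) (c : X → T) (x : X) :
    ∑ z ∈ Finset.univ.filter (fun z => p.SameCycle x z), (if r z = z then c z else 0) =
      c (r x) := by
  rw [Finset.sum_eq_single (r x)]
  · rw [if_pos (hr2 _ _ (hr1 x))]
  · intro z hz hne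
    simp only [Finset.mem_filter, Finset.mem_univ, true_and] at hz
    rw [if_neg]
    intro hzz
    exact hne (hzz ▸ (hr2 _ _ hz).symm)
  · intro hx
    simp only [Finset.mem_filter, Finset.mem_univ, true_and] at hx
    exact absurd (hr1 x).symm hx

end perm_aux

/-- permutation modules: `h1 = 1` -/
theorem h1_perm {X : Type*} [Finite X] (p : Equiv.Perm X) (n : ℕ) (hn : 0 < n) (hp : p ^ n = 1) :
    h1 (permE ℤ p) n = 1 := by
  classical
  cases nonempty_fintype X
  unfold h1 hq
  rw [AddSubgroup.relIndex_eq_one]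
  intro φ hφ
  have hφ' : nrm (permE ℤ p) n φ = 0 := hφ
  refine mem_range_dlt_of_orbit_sum_zero p φ fun x => ?_
  obtain ⟨L, hL⟩ := perm_exists_period p x
  have hLn : L ∣ n := (hL n).1 (by rw [hp]; rfl)
  obtain ⟨m, hm⟩ := hLn
  have hLpos : 0 < L := Nat.pos_of_ne_zero (by rintro rfl; simp at hm; omega)
  have hmpos : m ≠ 0 := by rintro rfl; simp at hm; omega
  have h1 := nrm_permE_eq p n x L m hLpos hL (by rw [hm, mul_comm]) φ
  rw [hφ'] at h1
  simp only [Pi.zero_apply, nsmul_eq_mul] at h1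
  rcases mul_eq_zero.1 h1.symm with h | h
  · exact absurd (by exact_mod_cast h) hmpos
  · convert h

open Classical in
/-- permutation modules, general form: `π : X → Y` is onto, its fibres are the cycles of `p`,
`L x` is the length of the cycle of `x` and `m (π x) * L x = n`; then `h0 = ∏ y, m y`. -/
theorem h0_perm_fib {X Y : Type*} [Finite X] [Fintype Y] (p : Equiv.Perm X) (n : ℕ) (hn : 0 < n)
    (π : X → Y) (hπs : Function.Surjective π) (hπ : ∀ x z, π x = π z ↔ p.SameCycle x z)
    (m : Y → ℕ) (L : X → ℕ) (hL : ∀ (x : X) (i : ℕ), (p ^ i) x = x ↔ L x ∣ i)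
    (hm : ∀ x, n = m (π x) * L x) : h0 (permE ℤ p) n = ∏ y, m y := by
  cases nonempty_fintype X
  have hLpos : ∀ x, 0 < L x := fun x => Nat.pos_of_ne_zero (by
    intro h0
    have := hm x
    rw [h0, mul_zero] at this
    omega)
  set r : X → X := fun x => Function.surjInv hπs (π x) with hr
  have hπr : ∀ x, π (r x) = π x := fun x => Function.surjInv_eq hπs (π x)
  have hr1 : ∀ x, p.SameCycle (r x) x := fun x => (hπ _ _).1 (hπr x)
  have hr2 : ∀ x z, p.SameCycle x z → r x = r z := fun x z h => by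
    simp only [hr, (hπ x z).2 h]
  have hN : ∀ (φ : X → ℤ) (x : X), nrm (permE ℤ p) n φ x =
      m (π x) • ∑ z ∈ Finset.univ.filter (fun z => p.SameCycle x z), φ z := fun φ x =>
    nrm_permE_eq p n x (L x) (m (π x)) (hLpos x) (hL x) (hm x) φ
  let ι : (Y → ℤ) →+ (X → ℤ) :=
    { toFun := fun ψ x => ψ (π x), map_zero' := rfl, map_add' := fun _ _ => rfl }
  have hι : Function.Injective ι := by
    intro ψ ψ' h
    ext y
    obtain ⟨x, rfl⟩ := hπs y
    exact congrFun h x
  let H : AddSubgroup (Y → ℤ) :=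
    AddSubgroup.pi Set.univ (fun y : Y => AddSubgroup.zmultiples (m y : ℤ))
  have e1 : (dlt (permE ℤ p)).ker = (⊤ : AddSubgroup (Y → ℤ)).map ι := by
    ext φ
    constructor
    · intro hφ
      refine ⟨fun y => φ (Function.surjInv hπs y), trivial, ?_⟩
      ext x
      exact perm_inv_const p φ hφ (hr1 x)
    · rintro ⟨ψ, _, rfl⟩
      show dlt (permE ℤ p) (ι ψ) = 0
      ext x
      rw [dlt_apply]
      show ψ (π (p.symm x)) - ψ (π x) = 0
      have : π (p.symm x) = π x := (hπ _ _).2 ⟨1, by simp⟩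
      rw [this, sub_self]
  have e2 : (nrm (permE ℤ p) n).range = H.map ι := by
    ext φ
    constructor
    · rintro ⟨χ, rfl⟩
      refine ⟨fun y => m y • ∑ z ∈ Finset.univ.filter
        (fun z => p.SameCycle (Function.surjInv hπs y) z), χ z, ?_, ?_⟩
      · intro y _
        show _ ∈ AddSubgroup.zmultiples (m y : ℤ)
        rw [AddSubgroup.mem_zmultiples_iff]
        refine ⟨∑ z ∈ Finset.univ.filter
          (fun z => p.SameCycle (Function.surjInv hπs y) z), χ z, ?_⟩
        simp only [smul_eq_mul, nsmul_eq_mul]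
        exact mul_comm _ _
      · ext x
        rw [hN]
        show m (π x) • ∑ z ∈ Finset.univ.filter (fun z => p.SameCycle (r x) z), χ z = _
        congr 1
        refine Finset.sum_congr ?_ fun _ _ => rfl
        ext z
        simp only [Finset.mem_filter, Finset.mem_univ, true_and]
        exact ⟨fun h => (hr1 x).symm.trans h, fun h => (hr1 x).trans h⟩
    · rintro ⟨ψ, hψ, rfl⟩
      have hψ' : ∀ y, ∃ c : ℤ, c • (m y : ℤ) = ψ y := fun y =>
        AddSubgroup.mem_zmultiples_iff.1 (hψ y trivial)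
      choose c hc using hψ'
      refine ⟨fun z => if r z = z then c (π z) else 0, ?_⟩
      ext x
      rw [hN, orbit_sum_base p r hr1 hr2 (fun z => c (π z)) x, hπr]
      show _ = ψ (π x)
      rw [← hc]
      simp [mul_comm]
  unfold h0 hq
  rw [e1, e2, AddSubgroup.relIndex_map_map_of_injective _ _ hι, AddSubgroup.relIndex_top_right,
    AddSubgroup.index_pi]
  simp [Int.index_zmultiples]

/-- permutation modules: if all cycles of `p` have the same length `n / m` (`m ∣ n`; `m` = order of the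
stabilisers) and there are `r` of them then `h0 = m ^ r` -/
theorem h0_perm {X : Type*} [Finite X] (p : Equiv.Perm X) (n m r : ℕ) (hn : 0 < n) (hp : p ^ n = 1)
    (hm : ∀ (x : X) (i : ℕ), (p ^ i) x = x ↔ (n / m) ∣ i) (hmn : m ∣ n) (hm0 : 0 < m)
    (hr : Nat.card X * m = r * n) : h0 (permE ℤ p) n = m ^ r := by
  classical
  cases nonempty_fintype X
  obtain ⟨L, hLdef⟩ : ∃ L, L = n / m := ⟨_, rfl⟩
  have hnL : n = m * L := by rw [hLdef, Nat.mul_div_cancel' hmn]
  have hLpos : 0 < L := Nat.pos_of_ne_zero (by rintro rfl; simp at hnL; omega)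
  rw [← hLdef] at hm
  let Y := Quotient (Equiv.Perm.SameCycle.setoid p)
  letI : Fintype Y := Fintype.ofFinite Y
  have hπ : ∀ x z : X, (Quotient.mk (Equiv.Perm.SameCycle.setoid p) x : Y) =
      Quotient.mk (Equiv.Perm.SameCycle.setoid p) z ↔ p.SameCycle x z := fun x z =>
    ⟨fun h => Quotient.exact h, fun h => Quotient.sound h⟩
  have h := h0_perm_fib p n hn (Quotient.mk (Equiv.Perm.SameCycle.setoid p) : X → Y)
    Quotient.mk_surjective hπ (fun _ => m) (fun _ => L) hm (fun _ => hnL)
  rw [h, Finset.prod_const, Finset.card_univ]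
  congr 1
  -- count the cycles
  have hcard : Fintype.card X = Fintype.card Y * L := by
    rw [← Finset.card_univ, Finset.card_eq_sum_card_fiberwise
      (f := (Quotient.mk (Equiv.Perm.SameCycle.setoid p) : X → Y)) (t := Finset.univ)
      (fun _ _ => Finset.mem_coe.2 (Finset.mem_univ _))]
    rw [Finset.sum_congr rfl (g := fun _ => L), Finset.sum_const, Finset.card_univ, smul_eq_mul]
    intro y _
    obtain ⟨x, rfl⟩ := Quotient.mk_surjective y
    have : Finset.univ.filter (fun a : X => (Quotient.mk (Equiv.Perm.SameCycle.setoid p) a : Y) =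
        Quotient.mk (Equiv.Perm.SameCycle.setoid p) x) =
        Finset.univ.filter (fun z => p.SameCycle x z) := by
      ext z
      simp only [Finset.mem_filter, Finset.mem_univ, true_and]
      rw [hπ]
      exact ⟨fun h => h.symm, fun h => h.symm⟩
    rw [this, orbit_eq_image p x L hLpos (hm x),
      Finset.card_image_of_injOn (pow_injOn_period p x L (hm x)), Finset.card_range]
  rw [Nat.card_eq_fintype_card, hcard, hnL] at hr
  have : Fintype.card Y * (m * L) = r * (m * L) := by
    calc Fintype.card Y * (m * L) = Fintype.card Y * L * m := by ring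
      _ = r * (m * L) := hr
  exact Nat.eq_of_mul_eq_mul_right (by rw [← hnL]; exact hn) this

/-- free permutation modules with arbitrary coefficients are cohomologically trivial -/
theorem ct_perm_free {X : Type*} [Finite X] (T : Type*) [AddCommGroup T] (p : Equiv.Perm X) (n : ℕ)
    (hn : 0 < n) (hp : p ^ n = 1) (hfree : ∀ (x : X) (i : ℕ), (p ^ i) x = x → n ∣ i) :
    CT (permE T p) n := by
  classical
  cases nonempty_fintype X
  have hL : ∀ (x : X) (i : ℕ), (p ^ i) x = x ↔ n ∣ i := fun x i =>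
    ⟨hfree x i, fun ⟨k, hk⟩ => by rw [hk, pow_mul, hp, one_pow]; rfl⟩
  have hN : ∀ (φ : X → T) (x : X), nrm (permE T p) n φ x =
      ∑ z ∈ Finset.univ.filter (fun z => p.SameCycle x z), φ z := fun φ x => by
    rw [nrm_permE_eq p n x n 1 hn (hL x) (one_mul n).symm φ, one_smul]
  constructor
  · intro φ hφ
    obtain ⟨r, hr1, hr2⟩ := perm_exists_base p
    refine ⟨fun z => if r z = z then φ z else 0, ?_⟩
    ext x
    rw [hN, orbit_sum_base p r hr1 hr2 φ x]
    exact perm_inv_const p φ hφ (hr1 x)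
  · intro φ hφ
    refine mem_range_dlt_of_orbit_sum_zero p φ fun x => ?_
    rw [← hN, hφ]
    rfl

theorem ct_congr {A' : Type*} [AddCommGroup A'] (e : A ≃+ A') (s : A →+ A) (s' : A' →+ A') (n : ℕ)
    (hs : ∀ x, e (s x) = s' (e x)) (h : CT s n) : CT s' n := by
  have hit : ∀ (i : ℕ) (x : A), e ((s^[i]) x) = (s'^[i]) (e x) := by
    intro i
    induction i with
    | zero => intro x; rfl
    | succ k ih => intro x; rw [Function.iterate_succ_apply, ih, hs, ← Function.iterate_succ_apply]
  have hd : ∀ x, e (dlt s x) = dlt s' (e x) := fun x => by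
    rw [dlt_apply, dlt_apply, map_sub, hs]
  have hn : ∀ x, e (nrm s n x) = nrm s' n (e x) := fun x => by
    rw [nrm_apply, nrm_apply, map_sum]
    exact Finset.sum_congr rfl fun i _ => hit i x
  constructor
  · intro x hx
    obtain ⟨y, hy⟩ := h.1 (e.symm x) (by
      apply e.injective
      rw [hd, e.apply_symm_apply, hx, map_zero])
    exact ⟨e y, by rw [← hn, hy, e.apply_symm_apply]⟩
  · intro x hx
    obtain ⟨y, hy⟩ := h.2 (e.symm x) (by
      apply e.injective
      rw [hn, e.apply_symm_apply, hx, map_zero])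
    exact ⟨e y, by rw [← hd, hy, e.apply_symm_apply]⟩

/-- extensions of cohomologically trivial modules -/
theorem ct_of_sub_quo (s : A →+ A) (n : ℕ) (hs : ∀ x, (s^[n]) x = x) (B : AddSubgroup A)
    (hB : Stable B s) (h1 : CT (resE B s hB) n) (h2 : CT (quoE B s hB) n) : CT s n := by
  have hri : ∀ (i : ℕ) (b : B), ((((resE B s hB)^[i]) b : B) : A) = (s^[i]) (b : A) := by
    intro i
    induction i with
    | zero => intro b; rfl
    | succ k ih => intro b; rw [Function.iterate_succ_apply, ih, Function.iterate_succ_apply]; rfl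
  have hqi : ∀ (i : ℕ) (x : A), ((quoE B s hB)^[i]) (QuotientAddGroup.mk x) =
      QuotientAddGroup.mk ((s^[i]) x) := by
    intro i
    induction i with
    | zero => intro x; rfl
    | succ k ih =>
      intro x
      rw [Function.iterate_succ_apply, Function.iterate_succ_apply, ← ih]
      rfl
  have hrd : ∀ b : B, ((dlt (resE B s hB) b : B) : A) = dlt s (b : A) := fun b => rfl
  have hrn : ∀ b : B, ((nrm (resE B s hB) n b : B) : A) = nrm s n (b : A) := fun b => by
    rw [nrm_apply, nrm_apply]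
    rw [← Finset.sum_congr rfl fun i _ => hri i b]
    exact map_sum B.subtype _ _
  have hqd : ∀ x : A, dlt (quoE B s hB) (QuotientAddGroup.mk x) =
      QuotientAddGroup.mk (dlt s x) := fun x => rfl
  have hqn : ∀ x : A, nrm (quoE B s hB) n (QuotientAddGroup.mk x) =
      QuotientAddGroup.mk (nrm s n x) := fun x => by
    rw [nrm_apply, nrm_apply]
    rw [Finset.sum_congr rfl fun i _ => hqi i x]
    exact (map_sum (QuotientAddGroup.mk' B) _ _).symm
  constructor
  · intro x hx
    obtain ⟨c, hc⟩ := h2.1 (QuotientAddGroup.mk x) (by rw [hqd, hx]; rfl)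
    obtain ⟨y, rfl⟩ := QuotientAddGroup.mk_surjective c
    rw [hqn] at hc
    have hb : -(nrm s n y) + x ∈ B := (QuotientAddGroup.eq).1 hc
    obtain ⟨b', hb'⟩ := h1.1 ⟨_, hb⟩ (by
      apply Subtype.ext
      rw [hrd]
      show dlt s (-(nrm s n y) + x) = 0
      rw [map_add, map_neg, dlt_nrm s n hs, hx]
      simp)
    refine ⟨y + b', ?_⟩
    have := congrArg Subtype.val hb'
    rw [hrn] at this
    rw [map_add, this]
    simp
  · intro x hx
    obtain ⟨c, hc⟩ := h2.2 (QuotientAddGroup.mk x) (by rw [hqn, hx]; rfl)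
    obtain ⟨y, rfl⟩ := QuotientAddGroup.mk_surjective c
    rw [hqd] at hc
    have hb : -(dlt s y) + x ∈ B := (QuotientAddGroup.eq).1 hc
    obtain ⟨b', hb'⟩ := h1.2 ⟨_, hb⟩ (by
      apply Subtype.ext
      rw [hrn]
      show nrm s n (-(dlt s y) + x) = 0
      rw [map_add, map_neg, nrm_dlt s n hs, hx]
      simp)
    refine ⟨y + b', ?_⟩
    have := congrArg Subtype.val hb'
    rw [hrd] at this
    rw [map_add, this]
    simp

end Claimed.Agent.R239.CFT.Herb
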