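import Mathlib

/-!
# R239 / CFT / P1Core : Herbrand calculus (pure algebra), core (owner helper11)

The frozen interface statements of helper97 are in `P1.lean` (which imports this file).

`A` an additive commutative group, `f g : A →+ A`.
`hq f g = (ker f : im g)` (`ℕ`-valued relative index, `0` = infinite).
With the notation of the blueprint, `a(A) = hq f g`, `b(A) = hq g f`.

* `hq_hexagon`     (1.1) for an equivariant short exact sequence `0 → A' → A → A'' → 0`:
                   `a(A) b(A') b(A'') = b(A) a(A') a(A'')` (UNCONDITIONALLY, in `ℕ`),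
* `hq_ne_zero_mid`, `hq_ne_zero_right`, `hq_ne_zero_left` (two of three nonzero ⟹ third nonzero),
* `hq_finite`      (1.2) `A` finite ⟹ `a(A) = b(A) ≠ 0`,
* `hq_of_finite_coker`, `hq_of_finite_ker` (1.3),
* `hq_congr_core`  (1.4).
-/

set_option autoImplicit false

namespace Claimed.Agent.R239.CFT.Herb

open AddSubgroup

section defs

variable {A : Type*} [AddCommGroup A]

/-- `(ker f : im g)`, with value `0` if infinite. -/
noncomputable def hq (f g : A →+ A) : ℕ := g.range.relIndex f.ker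

lemma hq_range_le_ker {f g : A →+ A} (hfg : f.comp g = 0) : g.range ≤ f.ker := by
  rintro _ ⟨x, rfl⟩
  exact DFunLike.congr_fun hfg x

/-! ### the six numbers, inside `A` -/

/-- `(ker f ∩ B : im g ∩ B)` -/
noncomputable def hqAl (f g : A →+ A) (B : AddSubgroup A) : ℕ := g.range.relIndex (f.ker ⊓ B)

/-- `(ker f : im g + ker f ∩ B)` -/
noncomputable def hqBe (f g : A →+ A) (B : AddSubgroup A) : ℕ :=
  (g.range ⊔ (f.ker ⊓ B)).relIndex f.ker

/-- `(im g ∩ B : g B)` -/
noncomputable def hqGa (g : A →+ A) (B : AddSubgroup A) : ℕ := (B.map g).relIndex (g.range ⊓ B)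

/-- `a(A) = β α` -/
lemma hq_eq_be_al {f g : A →+ A} (hfg : f.comp g = 0) (B : AddSubgroup A) :
    hq f g = hqAl f g B * hqBe f g B := by
  have h1 : g.range ≤ f.ker := hq_range_le_ker hfg
  unfold hq hqAl hqBe
  rw [← relIndex_mul_relIndex (H := g.range) (K := g.range ⊔ (f.ker ⊓ B)) (L := f.ker) le_sup_left
    (sup_le h1 inf_le_left), relIndex_sup_left]

/-- `a(B) = α γ`, where `a(B)` is computed inside `A`. -/
lemma hq_sub_eq {f g : A →+ A} (hfg : f.comp g = 0) (B : AddSubgroup A)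
    (hB : B.map g ≤ B) :
    (B.map g).relIndex (f.ker ⊓ B) = hqGa g B * hqAl f g B := by
  have h1 : g.range ≤ f.ker := hq_range_le_ker hfg
  have h2 : B.map g ≤ g.range ⊓ B := le_inf (by
    rintro _ ⟨x, _, rfl⟩
    exact ⟨x, rfl⟩) hB
  have h3 : g.range ⊓ B ≤ f.ker ⊓ B := inf_le_inf_right _ h1
  unfold hqGa hqAl
  rw [← relIndex_mul_relIndex (H := B.map g) (K := g.range ⊓ B) (L := f.ker ⊓ B) h2 h3]
  congr 1
  rw [← inf_relIndex_right, ← inf_relIndex_right (H := g.range)]
  congr 1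
  apply le_antisymm
  · exact le_inf (inf_le_left.trans inf_le_left) inf_le_right
  · exact le_inf (le_inf inf_le_left (inf_le_right.trans inf_le_right)) inf_le_right

/-- `a(A/B) = γ(f) β`, where `a(A/B)` is computed inside `A`. -/
lemma hq_quot_eq {f g : A →+ A} (hfg : f.comp g = 0) (B : AddSubgroup A)
    (hB : B.map f ≤ B) :
    (g.range ⊔ B).relIndex (B.comap f) = hqBe f g B * hqGa f B := by
  have h1 : g.range ≤ f.ker := hq_range_le_ker hfg
  have hBc : B ≤ B.comap f := map_le_iff_le_comap.1 hB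
  have hk : f.ker ≤ B.comap f := fun x hx => by
    rw [mem_comap, (AddMonoidHom.mem_ker).1 hx]
    exact B.zero_mem
  rw [← relIndex_mul_relIndex (H := g.range ⊔ B) (K := f.ker ⊔ B) (L := B.comap f)
    (sup_le_sup_right h1 _) (sup_le hk hBc)]
  congr 1
  · -- `(ker f + B : im g + B) = (ker f : im g + ker f ∩ B)`
    unfold hqBe
    have e1 : f.ker ⊔ B = f.ker ⊔ (g.range ⊔ B) := by
      rw [← sup_assoc, sup_eq_left.2 h1]
    rw [e1, relIndex_sup_right, ← inf_relIndex_right]
    congr 1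
    -- modular law
    rw [inf_comm, sup_comm g.range B, ← inf_sup_assoc_of_le B h1, sup_comm]
  · unfold hqGa
    have e2 : f.ker ⊔ B = (B.map f).comap f := by
      rw [comap_map_eq, sup_comm]
    rw [e2, relIndex_comap, map_comap_eq]

end defs

/-! ### equivariant short exact sequences -/

/-- an equivariant short exact sequence `0 → A' → A → A'' → 0` of groups with two endomorphisms -/
structure HSeq {A' A A'' : Type*} [AddCommGroup A'] [AddCommGroup A] [AddCommGroup A'']
    (f' g' : A' →+ A') (f g : A →+ A) (f'' g'' : A'' →+ A'') (i : A' →+ A) (p : A →+ A'') :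
    Prop where
  inj : Function.Injective i
  surj : Function.Surjective p
  exact : i.range = p.ker
  i_f : ∀ x, i (f' x) = f (i x)
  i_g : ∀ x, i (g' x) = g (i x)
  p_f : ∀ x, p (f x) = f'' (p x)
  p_g : ∀ x, p (g x) = g'' (p x)

section hseq

variable {A' A A'' : Type*} [AddCommGroup A'] [AddCommGroup A] [AddCommGroup A'']
  {f' g' : A' →+ A'} {f g : A →+ A} {f'' g'' : A'' →+ A''} {i : A' →+ A} {p : A →+ A''}

lemma HSeq.swap (h : HSeq f' g' f g f'' g'' i p) : HSeq g' f' g f g'' f'' i p :=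
  ⟨h.inj, h.surj, h.exact, h.i_g, h.i_f, h.p_g, h.p_f⟩

lemma HSeq.map_f_le (h : HSeq f' g' f g f'' g'' i p) : i.range.map f ≤ i.range := by
  rintro _ ⟨_, ⟨x, rfl⟩, rfl⟩
  exact ⟨f' x, h.i_f x⟩

lemma HSeq.hq_left (h : HSeq f' g' f g f'' g'' i p) :
    hq f' g' = (i.range.map g).relIndex (f.ker ⊓ i.range) := by
  unfold hq
  rw [← relIndex_map_map_of_injective _ _ h.inj]
  congr 1
  · ext y
    constructor
    · rintro ⟨_, ⟨x, rfl⟩, rfl⟩
      exact ⟨i x, ⟨x, rfl⟩, (h.i_g x).symm⟩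
    · rintro ⟨_, ⟨x, rfl⟩, rfl⟩
      exact ⟨g' x, ⟨x, rfl⟩, h.i_g x⟩
  · ext y
    constructor
    · rintro ⟨x, hx, rfl⟩
      refine ⟨?_, ⟨x, rfl⟩⟩
      have hx' : f' x = 0 := hx
      show f (i x) = 0
      rw [← h.i_f, hx', map_zero]
    · rintro ⟨hy, ⟨x, rfl⟩⟩
      refine ⟨x, ?_, rfl⟩
      have hy' : f (i x) = 0 := hy
      show f' x = 0
      apply h.inj
      rw [h.i_f, hy', map_zero]

lemma HSeq.hq_right (h : HSeq f' g' f g f'' g'' i p) :
    hq f'' g'' = (g.range ⊔ i.range).relIndex (i.range.comap f) := by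
  unfold hq
  have e1 : g.range ⊔ i.range = g''.range.comap p := by
    apply le_antisymm
    · refine sup_le ?_ ?_
      · rintro _ ⟨x, rfl⟩
        exact ⟨p x, (h.p_g x).symm⟩
      · intro y hy
        rw [h.exact] at hy
        have hy' : p y = 0 := hy
        show p y ∈ g''.range
        rw [hy']
        exact zero_mem _
    · intro y hy
      obtain ⟨c, hc⟩ := hy
      obtain ⟨x, rfl⟩ := h.surj c
      have h1 : y - g x ∈ i.range := by
        rw [h.exact]
        show p (y - g x) = 0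
        rw [map_sub, h.p_g, hc, sub_self]
      have : y = g x + (y - g x) := by abel
      rw [this]
      exact add_mem (mem_sup_left ⟨x, rfl⟩) (mem_sup_right h1)
  have e2 : (i.range.comap f).map p = f''.ker := by
    ext c
    constructor
    · rintro ⟨x, hx, rfl⟩
      have hx' : f x ∈ i.range := hx
      rw [h.exact] at hx'
      have hx'' : p (f x) = 0 := hx'
      show f'' (p x) = 0
      rw [← h.p_f, hx'']
    · intro hc
      obtain ⟨x, rfl⟩ := h.surj c
      refine ⟨x, ?_, rfl⟩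
      show f x ∈ i.range
      rw [h.exact]
      show p (f x) = 0
      rw [h.p_f]
      exact hc
  rw [e1, relIndex_comap, e2]

/-- the six numbers of the hexagon -/
lemma HSeq.six (h : HSeq f' g' f g f'' g'' i p) (hfg : f.comp g = 0) (hgf : g.comp f = 0) :
    ∃ k1 k2 k3 k4 k5 k6 : ℕ,
      hq f' g' = k6 * k1 ∧ hq f g = k1 * k2 ∧ hq f'' g'' = k2 * k3 ∧
      hq g' f' = k3 * k4 ∧ hq g f = k4 * k5 ∧ hq g'' f'' = k5 * k6 := by
  refine ⟨hqAl f g i.range, hqBe f g i.range, hqGa f i.range, hqAl g f i.range, hqBe g f i.range,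
    hqGa g i.range, ?_, hq_eq_be_al hfg _, ?_, ?_, hq_eq_be_al hgf _, ?_⟩
  · rw [h.hq_left, hq_sub_eq hfg _ h.swap.map_f_le]
  · rw [h.hq_right, hq_quot_eq hfg _ h.map_f_le]
  · rw [h.swap.hq_left, hq_sub_eq hgf _ h.map_f_le]
  · rw [h.swap.hq_right, hq_quot_eq hgf _ h.swap.map_f_le]

/-- **1.1** (multiplicativity; holds unconditionally in `ℕ`). -/
theorem hq_hexagon (h : HSeq f' g' f g f'' g'' i p) (hfg : f.comp g = 0) (hgf : g.comp f = 0) :
    hq f g * hq g' f' * hq g'' f'' = hq g f * hq f' g' * hq f'' g'' := by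
  obtain ⟨k1, k2, k3, k4, k5, k6, h1, h2, h3, h4, h5, h6⟩ := h.six hfg hgf
  rw [h1, h2, h3, h4, h5, h6]
  ring

theorem hq_ne_zero_right (h : HSeq f' g' f g f'' g'' i p) (hfg : f.comp g = 0)
    (hgf : g.comp f = 0) (ha' : hq f' g' ≠ 0) (hb' : hq g' f' ≠ 0) (ha : hq f g ≠ 0)
    (hb : hq g f ≠ 0) : hq f'' g'' ≠ 0 ∧ hq g'' f'' ≠ 0 := by
  obtain ⟨k1, k2, k3, k4, k5, k6, h1, h2, h3, h4, h5, h6⟩ := h.six hfg hgf
  rw [h1] at ha'; rw [h4] at hb'; rw [h2] at ha; rw [h5] at hb
  rw [h3, h6]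
  simp only [ne_eq, mul_eq_zero, not_or] at *
  tauto

theorem hq_ne_zero_left (h : HSeq f' g' f g f'' g'' i p) (hfg : f.comp g = 0)
    (hgf : g.comp f = 0) (ha : hq f g ≠ 0) (hb : hq g f ≠ 0) (ha'' : hq f'' g'' ≠ 0)
    (hb'' : hq g'' f'' ≠ 0) : hq f' g' ≠ 0 ∧ hq g' f' ≠ 0 := by
  obtain ⟨k1, k2, k3, k4, k5, k6, h1, h2, h3, h4, h5, h6⟩ := h.six hfg hgf
  rw [h3] at ha''; rw [h6] at hb''; rw [h2] at ha; rw [h5] at hb
  rw [h1, h4]
  simp only [ne_eq, mul_eq_zero, not_or] at *
  tauto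

theorem hq_ne_zero_mid (h : HSeq f' g' f g f'' g'' i p) (hfg : f.comp g = 0)
    (hgf : g.comp f = 0) (ha' : hq f' g' ≠ 0) (hb' : hq g' f' ≠ 0) (ha'' : hq f'' g'' ≠ 0)
    (hb'' : hq g'' f'' ≠ 0) : hq f g ≠ 0 ∧ hq g f ≠ 0 := by
  obtain ⟨k1, k2, k3, k4, k5, k6, h1, h2, h3, h4, h5, h6⟩ := h.six hfg hgf
  rw [h3] at ha''; rw [h6] at hb''; rw [h1] at ha'; rw [h4] at hb'
  rw [h2, h5]
  simp only [ne_eq, mul_eq_zero, not_or] at *
  tauto

lemma HSeq.comp_left (h : HSeq f' g' f g f'' g'' i p) (hfg : f.comp g = 0) : f'.comp g' = 0 := by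
  ext x
  apply h.inj
  have := DFunLike.congr_fun hfg (i x)
  simp only [AddMonoidHom.comp_apply, AddMonoidHom.zero_apply, map_zero] at this ⊢
  rw [h.i_f, h.i_g, this]

lemma HSeq.comp_right (h : HSeq f' g' f g f'' g'' i p) (hfg : f.comp g = 0) :
    f''.comp g'' = 0 := by
  ext c
  obtain ⟨x, rfl⟩ := h.surj c
  have := DFunLike.congr_fun hfg x
  simp only [AddMonoidHom.comp_apply, AddMonoidHom.zero_apply] at this ⊢
  rw [← h.p_g, ← h.p_f, this, map_zero]

end hseq

/-! ### finite groups -/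

section finite

variable {A : Type*} [AddCommGroup A]

lemma hq_mul_card_range {f g : A →+ A} (hfg : f.comp g = 0) :
    Nat.card g.range * hq f g = Nat.card f.ker := by
  unfold hq
  rw [← relIndex_bot_left, ← relIndex_bot_left]
  exact relIndex_mul_relIndex _ _ _ bot_le (hq_range_le_ker hfg)

/-- **1.2** -/
theorem hq_finite [Finite A] {f g : A →+ A} (hfg : f.comp g = 0) (hgf : g.comp f = 0) :
    hq f g = hq g f ∧ hq f g ≠ 0 := by
  have h1 := hq_mul_card_range hfg
  have h2 := hq_mul_card_range hgf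
  have h3 : Nat.card f.ker * Nat.card f.range = Nat.card A := by
    rw [← index_ker]; exact card_mul_index _
  have h4 : Nat.card g.ker * Nat.card g.range = Nat.card A := by
    rw [← index_ker]; exact card_mul_index _
  have hA : Nat.card A ≠ 0 := Nat.card_pos.ne'
  have hf : Nat.card f.range ≠ 0 := Nat.card_pos.ne'
  have hg : Nat.card g.range ≠ 0 := Nat.card_pos.ne'
  constructor
  · have : Nat.card g.range * Nat.card f.range * hq f g =
        Nat.card g.range * Nat.card f.range * hq g f := by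
      calc Nat.card g.range * Nat.card f.range * hq f g
          = (Nat.card g.range * hq f g) * Nat.card f.range := by ring
        _ = Nat.card A := by rw [h1, h3]
        _ = (Nat.card f.range * hq g f) * Nat.card g.range := by rw [h2, h4]
        _ = _ := by ring
    exact Nat.eq_of_mul_eq_mul_left (Nat.pos_of_ne_zero (mul_ne_zero hg hf)) this
  · intro h0
    rw [h0, mul_zero] at h1
    exact (Nat.card_pos (α := f.ker)).ne' h1.symm

end finite

section finite_seq

variable {A' A A'' : Type*} [AddCommGroup A'] [AddCommGroup A] [AddCommGroup A'']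
  {f' g' : A' →+ A'} {f g : A →+ A} {f'' g'' : A'' →+ A''} {i : A' →+ A} {p : A →+ A''}

/-- **1.3** finite cokernel (`A'` of finite index in `A`). -/
theorem hq_of_finite_right [Finite A''] (h : HSeq f' g' f g f'' g'' i p) (hfg : f.comp g = 0)
    (hgf : g.comp f = 0) : hq f g * hq g' f' = hq g f * hq f' g' := by
  obtain ⟨e, hne⟩ := hq_finite (h.comp_right hfg) (h.swap.comp_right hgf)
  have := hq_hexagon h hfg hgf
  rw [← e] at this
  exact Nat.eq_of_mul_eq_mul_right (Nat.pos_of_ne_zero hne) this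

theorem hq_ne_zero_iff_of_finite_right [Finite A''] (h : HSeq f' g' f g f'' g'' i p)
    (hfg : f.comp g = 0) (hgf : g.comp f = 0) :
    (hq f g ≠ 0 ∧ hq g f ≠ 0) ↔ (hq f' g' ≠ 0 ∧ hq g' f' ≠ 0) := by
  obtain ⟨e, hne⟩ := hq_finite (h.comp_right hfg) (h.swap.comp_right hgf)
  constructor
  · rintro ⟨h1, h2⟩
    exact hq_ne_zero_left h hfg hgf h1 h2 hne (e ▸ hne)
  · rintro ⟨h1, h2⟩
    exact hq_ne_zero_mid h hfg hgf h1 h2 hne (e ▸ hne)

/-- **1.3'** finite kernel. -/
theorem hq_of_finite_left [Finite A'] (h : HSeq f' g' f g f'' g'' i p) (hfg : f.comp g = 0)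
    (hgf : g.comp f = 0) : hq f g * hq g'' f'' = hq g f * hq f'' g'' := by
  obtain ⟨e, hne⟩ := hq_finite (h.comp_left hfg) (h.swap.comp_left hgf)
  have := hq_hexagon h hfg hgf
  rw [← e] at this
  have h2 : hq f' g' * (hq f g * hq g'' f'') = hq f' g' * (hq g f * hq f'' g'') := by
    calc hq f' g' * (hq f g * hq g'' f'') = hq f g * hq f' g' * hq g'' f'' := by ring
      _ = hq g f * hq f' g' * hq f'' g'' := this
      _ = _ := by ring
  exact Nat.eq_of_mul_eq_mul_left (Nat.pos_of_ne_zero hne) h2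

theorem hq_ne_zero_iff_of_finite_left [Finite A'] (h : HSeq f' g' f g f'' g'' i p)
    (hfg : f.comp g = 0) (hgf : g.comp f = 0) :
    (hq f g ≠ 0 ∧ hq g f ≠ 0) ↔ (hq f'' g'' ≠ 0 ∧ hq g'' f'' ≠ 0) := by
  obtain ⟨e, hne⟩ := hq_finite (h.comp_left hfg) (h.swap.comp_left hgf)
  constructor
  · rintro ⟨h1, h2⟩
    exact hq_ne_zero_right h hfg hgf hne (e ▸ hne) h1 h2
  · rintro ⟨h1, h2⟩
    exact hq_ne_zero_mid h hfg hgf hne (e ▸ hne) h1 h2

end finite_seq

/-! ### isomorphisms -/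

section iso

variable {A A' : Type*} [AddCommGroup A] [AddCommGroup A']

/-- **1.4** -/
theorem hq_congr_core {f g : A →+ A} {f' g' : A' →+ A'} (e : A ≃+ A') (hf : ∀ x, e (f x) = f' (e x))
    (hg : ∀ x, e (g x) = g' (e x)) : hq f g = hq f' g' := by
  unfold hq
  rw [← relIndex_map_map_of_injective (f := e.toAddMonoidHom) _ _ e.injective]
  congr 1
  · ext y
    constructor
    · rintro ⟨_, ⟨x, rfl⟩, rfl⟩
      exact ⟨e x, (hg x).symm⟩
    · rintro ⟨x, rfl⟩
      refine ⟨g (e.symm x), ⟨_, rfl⟩, ?_⟩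
      show e (g (e.symm x)) = g' x
      rw [hg, e.apply_symm_apply]
  · ext y
    constructor
    · rintro ⟨x, hx, rfl⟩
      have hx' : f x = 0 := hx
      show f' (e x) = 0
      rw [← hf, hx', map_zero]
    · intro hy
      have hy' : f' y = 0 := hy
      refine ⟨e.symm y, ?_, e.apply_symm_apply y⟩
      show f (e.symm y) = 0
      apply e.injective
      rw [hf, e.apply_symm_apply, hy', map_zero]

end iso

end Claimed.Agent.R239.CFT.Herb
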