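import Claimed.Agent.R239.CFT.I1

/-!
# R239 / CFT : package P2a (Lang IX.4: a stable lattice contains a permutation sublattice)

Output statements of the package (see `Blueprint.lean`, 2.4, 2.5): `exists_perm_sublattice`, `lattice_herbrand`,
`hyperplane_lattice_herbrand`.  Owner helper16.  No sorry in this file (it uses the statements of P1).
Pure linear algebra / analysis: no number theory.

Reusable general lemmas (any `A`, `s : A →+ A`, `B` stable): `p2a_stable_dlt`, `p2a_stable_nrm`, `p2a_resE_dlt`,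
`p2a_resE_nrm`, `p2a_quoE_dlt`, `p2a_quoE_nrm`, `p2a_resE_iter`, `p2a_quoE_iter`, `p2a_h_congr` (h0, h1 transported along an
equivariant isomorphism), `p2a_h_finiteIndex`, `p2a_h_sub` (P1 1.1, 1.3 in terms of `h0`, `h1`).
-/

set_option autoImplicit false

namespace Claimed.Agent.R239.CFT

open Herb

variable {X : Type*} [Fintype X]

/-! ### auxiliary lemmas -/

theorem p2a_permE_mul {Y : Type*} (T : Type*) [AddCommGroup T] (p q : Equiv.Perm Y) (φ : Y → T) :
    permE T (p * q) φ = permE T p (permE T q φ) := rfl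

theorem p2a_permE_one {Y : Type*} (T : Type*) [AddCommGroup T] (φ : Y → T) :
    permE T (1 : Equiv.Perm Y) φ = φ := rfl

theorem p2a_stable_pow {Y : Type*} {T : Type*} [AddCommGroup T] (p : Equiv.Perm Y) (Γ : AddSubgroup (Y → T))
    (hstab : Stable Γ (permE T p)) (i : ℕ) : ∀ z ∈ Γ, permE T (p ^ i) z ∈ Γ := by
  induction i with
  | zero => intro z hz; simpa [p2a_permE_one] using hz
  | succ i ih =>
    intro z hz
    rw [pow_succ', p2a_permE_mul]
    exact hstab _ (ih z hz)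

/-- every real multiple of a vector is at bounded distance of `Γ`. -/
theorem p2a_approx (Γ : AddSubgroup (X → ℝ)) (hspan : Submodule.span ℝ (Γ : Set (X → ℝ)) = ⊤)
    (v : X → ℝ) : ∃ b : ℝ, ∀ c : ℝ, ∃ z ∈ Γ, ‖z - c • v‖ ≤ b := by
  have hv : v ∈ Submodule.span ℝ (Γ : Set (X → ℝ)) := by rw [hspan]; trivial
  induction hv using Submodule.span_induction with
  | mem γ hγ =>
    refine ⟨‖γ‖, fun c => ⟨⌊c⌋ • γ, Γ.zsmul_mem hγ _, ?_⟩⟩
    have h1 : (⌊c⌋ : ℤ) • γ - c • γ = (-(Int.fract c)) • γ := by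
      rw [← Int.cast_smul_eq_zsmul ℝ, ← sub_smul]
      congr 1
      unfold Int.fract
      ring
    rw [h1, norm_smul, norm_neg, Real.norm_eq_abs, abs_of_nonneg (Int.fract_nonneg c)]
    exact mul_le_of_le_one_left (norm_nonneg _) (Int.fract_lt_one c).le
  | zero => exact ⟨0, fun c => ⟨0, Γ.zero_mem, by simp⟩⟩
  | add u w _ _ hu hw =>
    obtain ⟨b1, h1⟩ := hu
    obtain ⟨b2, h2⟩ := hw
    refine ⟨b1 + b2, fun c => ?_⟩
    obtain ⟨z1, hz1, e1⟩ := h1 c
    obtain ⟨z2, hz2, e2⟩ := h2 c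
    refine ⟨z1 + z2, Γ.add_mem hz1 hz2, ?_⟩
    have h3 : z1 + z2 - c • (u + w) = (z1 - c • u) + (z2 - c • w) := by rw [smul_add]; abel
    rw [h3]
    exact (norm_add_le _ _).trans (add_le_add e1 e2)
  | smul a u _ hu =>
    obtain ⟨b, h⟩ := hu
    refine ⟨b, fun c => ?_⟩
    obtain ⟨z, hz, e⟩ := h (c * a)
    exact ⟨z, hz, by rwa [smul_smul]⟩

/-- an equivariant family of vectors of `Γ` close to a large multiple of the standard basis
(no freeness needed: average over the group). -/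
theorem p2a_exists_family [DecidableEq X] (p : Equiv.Perm X) (n : ℕ) (hn : 0 < n) (hp : p ^ n = 1)
    (Γ : AddSubgroup (X → ℝ)) (hspan : Submodule.span ℝ (Γ : Set (X → ℝ)) = ⊤)
    (hstab : Stable Γ (permE ℝ p)) :
    ∃ (y : X → X → ℝ) (t b : ℝ), 0 ≤ b ∧ (Fintype.card X : ℝ) * b < t ∧ (∀ x, y x ∈ Γ) ∧
      (∀ x, permE ℝ p (y x) = y (p x)) ∧ ∀ x x', |y x x' - (if x' = x then t else 0)| ≤ b := by
  choose b0 hb0 using fun a : X => p2a_approx Γ hspan (Pi.single a (1 : ℝ))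
  set b : ℝ := ∑ a, |b0 a| with hb
  have hb_nonneg : 0 ≤ b := Finset.sum_nonneg fun _ _ => abs_nonneg _
  have hb0le : ∀ a, b0 a ≤ b := fun a => (le_abs_self _).trans
    (Finset.single_le_sum (f := fun a => |b0 a|) (fun _ _ => abs_nonneg _) (Finset.mem_univ a))
  set t : ℝ := Fintype.card X * b + 1 with ht
  choose z hzΓ hz using fun a : X => hb0 a t
  have hzp : ∀ a x', |z a x' - (if x' = a then t else 0)| ≤ b := by
    intro a x'
    set u : X → ℝ := z a - t • Pi.single a (1 : ℝ) with hu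
    have h0 : ‖u‖ ≤ b := (hz a).trans (hb0le a)
    have h1 : ‖u x'‖ ≤ b := (norm_le_pi_norm u x').trans h0
    rw [Real.norm_eq_abs] at h1
    have h2 : u x' = z a x' - (if x' = a then t else 0) := by
      simp [hu, Pi.single_apply]
    rwa [h2] at h1
  have hn' : (0 : ℝ) < n := by exact_mod_cast hn
  refine ⟨fun x => ∑ i ∈ Finset.range n, permE ℝ (p ^ i) (z ((p ^ i).symm x)), n * t, n * b,
    by positivity, ?_, ?_, ?_, ?_⟩
  · rw [ht]
    nlinarith
  · intro x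
    exact Γ.sum_mem fun i _ => p2a_stable_pow p Γ hstab i _ (hzΓ _)
  · intro x
    rw [map_sum]
    set G : ℕ → X → ℝ := fun i => permE ℝ (p ^ i) (z ((p ^ i).symm (p x))) with hG
    have h1 : ∀ i, permE ℝ p (permE ℝ (p ^ i) (z ((p ^ i).symm x))) = G (i + 1) := by
      intro i
      rw [hG]
      simp only
      rw [← p2a_permE_mul, ← pow_succ']
      congr 2
      rw [pow_succ']
      simp [Equiv.Perm.mul_def]
    simp only [h1]
    have h2 := Finset.sum_range_succ G n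
    have h3 := Finset.sum_range_succ' G n
    have h4 : G n = G 0 := by
      rw [hG]
      simp only [hp, pow_zero]
    rw [h3, h4] at h2
    exact add_right_cancel h2
  · intro x x'
    have h1 : (∑ i ∈ Finset.range n, permE ℝ (p ^ i) (z ((p ^ i).symm x))) x'
        - (if x' = x then (n : ℝ) * t else 0)
        = ∑ i ∈ Finset.range n, (z ((p ^ i).symm x) ((p ^ i).symm x')
          - (if (p ^ i).symm x' = (p ^ i).symm x then t else 0)) := by
      rw [Finset.sum_apply, Finset.sum_sub_distrib]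
      congr 1
      simp only [EmbeddingLike.apply_eq_iff_eq]
      split_ifs <;> simp
    rw [h1]
    refine (Finset.abs_sum_le_sum_abs _ _).trans ?_
    refine (Finset.sum_le_sum fun i _ => hzp _ _).trans ?_
    simp

/-- diagonal dominance. -/
theorem p2a_inj [DecidableEq X] (y : X → X → ℝ) (t b : ℝ) (hb : 0 ≤ b) (ht : (Fintype.card X : ℝ) * b < t)
    (hy : ∀ x x', |y x x' - (if x' = x then t else 0)| ≤ b) (c : X → ℝ)
    (hc : ∑ x, c x • y x = 0) : c = 0 := by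
  have ht0 : 0 < t := lt_of_le_of_lt (by positivity) ht
  have h1 : ∀ x', t * |c x'| ≤ Fintype.card X * b * ‖c‖ := by
    intro x'
    have h2 : ∑ x, c x * y x x' = 0 := by
      have := congrFun hc x'
      simpa [Finset.sum_apply] using this
    have h3 : t * c x' = - ∑ x, c x * (y x x' - (if x' = x then t else 0)) := by
      simp only [mul_sub, Finset.sum_sub_distrib, h2]
      simp [mul_comm]
    have h4 : |t * c x'| ≤ ∑ _x : X, ‖c‖ * b := by
      rw [h3, abs_neg]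
      refine (Finset.abs_sum_le_sum_abs _ _).trans (Finset.sum_le_sum fun x _ => ?_)
      rw [abs_mul]
      exact mul_le_mul (norm_le_pi_norm c x) (hy x x') (abs_nonneg _) (norm_nonneg _)
    rw [abs_mul, abs_of_pos ht0] at h4
    refine h4.trans (le_of_eq ?_)
    simp
    ring
  have h5 : ‖c‖ ≤ Fintype.card X * b * ‖c‖ / t := by
    rw [pi_norm_le_iff_of_nonneg (by positivity)]
    intro x'
    rw [Real.norm_eq_abs, le_div_iff₀ ht0, mul_comm]
    exact h1 x'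
  rw [le_div_iff₀ ht0] at h5
  have h6 : ‖c‖ ≤ 0 := by
    by_contra hne
    rw [not_le] at hne
    nlinarith
  exact norm_le_zero_iff.1 h6

/-- Blueprint 2.4 (free action).  `Γ` a discrete subgroup of `X → ℝ` spanning it, stable under the shift by
the permutation `p`, where `⟨p⟩` (of order `n`) acts freely on `X`. -/
theorem exists_perm_sublattice (p : Equiv.Perm X) (n : ℕ) (hn : 0 < n) (hp : p ^ n = 1)
    (_hfree : ∀ (x : X) (i : ℕ), (p ^ i) x = x → n ∣ i)
    (Γ : AddSubgroup (X → ℝ)) (hdisc : DiscreteTopology Γ)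
    (hspan : Submodule.span ℝ (Γ : Set (X → ℝ)) = ⊤) (hstab : Stable Γ (permE ℝ p)) :
    ∃ j : (X → ℤ) →+ (X → ℝ), Function.Injective j ∧ (∀ φ, j φ ∈ Γ) ∧
      (∀ φ, j (permE ℤ p φ) = permE ℝ p (j φ)) ∧ j.range.relIndex Γ ≠ 0 := by
  classical
  obtain ⟨y, t, b, hb, ht, hyΓ, hyp, hy⟩ := p2a_exists_family p n hn hp Γ hspan hstab
  let J : (X → ℝ) →ₗ[ℝ] (X → ℝ) := Fintype.linearCombination ℝ y
  have hJ : ∀ c, J c = ∑ x, c x • y x := fun c => Fintype.linearCombination_apply ℝ y c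
  have hJinj : Function.Injective J := by
    rw [injective_iff_map_eq_zero]
    intro c hc
    rw [hJ] at hc
    exact p2a_inj y t b hb ht hy c hc
  have hJsurj : Function.Surjective J := LinearMap.injective_iff_surjective.1 hJinj
  let j : (X → ℤ) →+ (X → ℝ) := J.toAddMonoidHom.comp ((Int.castAddHom ℝ).compLeft X)
  have hj : ∀ φ : X → ℤ, j φ = ∑ x, (φ x : ℝ) • y x := fun φ => hJ _
  have hjJ : ∀ φ : X → ℤ, j φ = J (fun x => (φ x : ℝ)) := fun φ => rfl
  have hjΓ : ∀ φ, j φ ∈ Γ := by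
    intro φ
    rw [hj]
    refine Γ.sum_mem fun x _ => ?_
    rw [Int.cast_smul_eq_zsmul]
    exact Γ.zsmul_mem (hyΓ x) _
  refine ⟨j, ?_, hjΓ, ?_, ?_⟩
  · intro φ ψ h
    rw [hjJ, hjJ] at h
    have := hJinj h
    funext x
    exact_mod_cast congrFun this x
  · intro φ
    rw [hj, hj, map_sum]
    rw [← Equiv.sum_comp p]
    refine Finset.sum_congr rfl fun x _ => ?_
    rw [← hyp]
    funext x'
    simp [permE]
  · -- finite index
    set M : ℝ := ∑ x, ‖y x‖ with hM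
    have hfin : ((Metric.closedBall (0 : X → ℝ) M) ∩ (Γ : Set (X → ℝ))).Finite :=
      Metric.finite_isBounded_inter_isClosed (isDiscrete_iff_discreteTopology.mpr hdisc)
        Metric.isBounded_closedBall (AddSubgroup.isClosed_of_discrete)
    have : Finite ↥((Metric.closedBall (0 : X → ℝ) M) ∩ (Γ : Set (X → ℝ))) := hfin
    let g : ↥((Metric.closedBall (0 : X → ℝ) M) ∩ (Γ : Set (X → ℝ))) → (Γ ⧸ j.range.addSubgroupOf Γ) :=
      fun u => QuotientAddGroup.mk ⟨u.1, u.2.2⟩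
    have hg : Function.Surjective g := by
      intro q
      obtain ⟨γ, rfl⟩ := QuotientAddGroup.mk_surjective q
      obtain ⟨c, hc⟩ := hJsurj γ.1
      set φ : X → ℤ := fun x => ⌊c x⌋ with hφ
      have h1 : γ.1 - j φ = ∑ x, Int.fract (c x) • y x := by
        rw [← hc, hJ, hj, ← Finset.sum_sub_distrib]
        refine Finset.sum_congr rfl fun x _ => ?_
        rw [← sub_smul]
        rfl
      have h2 : ‖γ.1 - j φ‖ ≤ M := by
        rw [h1]
        refine (norm_sum_le _ _).trans (Finset.sum_le_sum fun x _ => ?_)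
        rw [norm_smul, Real.norm_eq_abs, abs_of_nonneg (Int.fract_nonneg _)]
        exact mul_le_of_le_one_left (norm_nonneg _) (Int.fract_lt_one _).le
      refine ⟨⟨γ.1 - j φ, ?_, Γ.sub_mem γ.2 (hjΓ φ)⟩, ?_⟩
      · simpa using h2
      · show (QuotientAddGroup.mk _ : Γ ⧸ j.range.addSubgroupOf Γ) = QuotientAddGroup.mk γ
        rw [QuotientAddGroup.eq, AddSubgroup.mem_addSubgroupOf]
        refine ⟨φ, ?_⟩
        simp
    have : Finite (Γ ⧸ j.range.addSubgroupOf Γ) := Finite.of_surjective g hg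
    exact AddSubgroup.index_ne_zero_of_finite

/-! ### general lemmas on `dlt`, `nrm`, `resE`, `quoE` -/

section general

variable {A : Type*} [AddCommGroup A]

theorem p2a_stable_dlt {B : AddSubgroup A} {s : A →+ A} (h : Stable B s) : Stable B (dlt s) :=
  fun x hx => B.sub_mem (h x hx) hx

theorem p2a_stable_iter {B : AddSubgroup A} {s : A →+ A} (h : Stable B s) (i : ℕ) :
    ∀ x ∈ B, (s^[i]) x ∈ B := by
  induction i with
  | zero => intro x hx; exact hx
  | succ i ih => intro x hx; rw [Function.iterate_succ_apply']; exact h _ (ih x hx)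

theorem p2a_stable_nrm {B : AddSubgroup A} {s : A →+ A} (h : Stable B s) (n : ℕ) :
    Stable B (nrm s n) := by
  intro x hx
  rw [nrm_apply]
  exact B.sum_mem fun i _ => p2a_stable_iter h i x hx

theorem p2a_resE_dlt {B : AddSubgroup A} {s : A →+ A} (h : Stable B s) :
    resE B (dlt s) (p2a_stable_dlt h) = dlt (resE B s h) := by
  ext x
  rfl

theorem p2a_resE_iter {B : AddSubgroup A} {s : A →+ A} (h : Stable B s) (i : ℕ) (x : B) :
    ((((resE B s h)^[i]) x : B) : A) = (s^[i]) (x : A) := by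
  induction i with
  | zero => rfl
  | succ i ih =>
    rw [Function.iterate_succ_apply', Function.iterate_succ_apply', ← ih]
    rfl

theorem p2a_resE_nrm {B : AddSubgroup A} {s : A →+ A} (h : Stable B s) (n : ℕ) :
    resE B (nrm s n) (p2a_stable_nrm h n) = nrm (resE B s h) n := by
  ext x
  rw [nrm_apply]
  have h1 : ((∑ i ∈ Finset.range n, ((resE B s h)^[i]) x : B) : A)
      = ∑ i ∈ Finset.range n, ((((resE B s h)^[i]) x : B) : A) := map_sum B.subtype _ _
  rw [h1]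
  simp only [p2a_resE_iter]
  rfl

theorem p2a_quoE_dlt {B : AddSubgroup A} {s : A →+ A} (h : Stable B s) :
    quoE B (dlt s) (p2a_stable_dlt h) = dlt (quoE B s h) := by
  ext x
  rfl

theorem p2a_quoE_iter {B : AddSubgroup A} {s : A →+ A} (h : Stable B s) (i : ℕ) (x : A) :
    ((quoE B s h)^[i]) (QuotientAddGroup.mk x) = QuotientAddGroup.mk ((s^[i]) x) := by
  induction i with
  | zero => rfl
  | succ i ih =>
    rw [Function.iterate_succ_apply', Function.iterate_succ_apply', ih]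
    rfl

theorem p2a_quoE_nrm {B : AddSubgroup A} {s : A →+ A} (h : Stable B s) (n : ℕ) :
    quoE B (nrm s n) (p2a_stable_nrm h n) = nrm (quoE B s h) n := by
  ext x
  show (QuotientAddGroup.mk (nrm s n x) : A ⧸ B) = nrm (quoE B s h) n (QuotientAddGroup.mk x)
  rw [nrm_apply, nrm_apply]
  simp only [p2a_quoE_iter]
  exact map_sum (QuotientAddGroup.mk' B) _ _

theorem p2a_h_congr {A' : Type*} [AddCommGroup A'] (e : A ≃+ A') (s : A →+ A) (s' : A' →+ A') (n : ℕ)
    (hs : ∀ x, e (s x) = s' (e x)) : h0 s n = h0 s' n ∧ h1 s n = h1 s' n := by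
  have hit : ∀ (i : ℕ) (x : A), e ((s^[i]) x) = (s'^[i]) (e x) := by
    intro i
    induction i with
    | zero => intro x; rfl
    | succ i ih =>
      intro x
      rw [Function.iterate_succ_apply', Function.iterate_succ_apply', hs, ih]
  have hd : ∀ x, e (dlt s x) = dlt s' (e x) := by
    intro x
    show e (s x - x) = s' (e x) - e x
    rw [map_sub, hs]
  have hn : ∀ x, e (nrm s n x) = nrm s' n (e x) := by
    intro x
    rw [nrm_apply, nrm_apply, map_sum]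
    exact Finset.sum_congr rfl fun i _ => hit i x
  exact ⟨Herb.hq_congr e _ _ _ _ hd hn, Herb.hq_congr e _ _ _ _ hn hd⟩

/-- finite index stable subgroup, in terms of `h0`, `h1`. -/
theorem p2a_h_finiteIndex (s : A →+ A) (n : ℕ) (hs : ∀ x, (s^[n]) x = x) (B : AddSubgroup A)
    (hB : Stable B s) (hidx : B.index ≠ 0) (h0B : h0 (resE B s hB) n ≠ 0)
    (h1B : h1 (resE B s hB) n ≠ 0) :
    h0 s n ≠ 0 ∧ h1 s n ≠ 0 ∧ h0 s n * h1 (resE B s hB) n = h1 s n * h0 (resE B s hB) n := by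
  have hfg := dlt_nrm s n hs
  have hgf := nrm_dlt s n hs
  have hF : Fin2 (resE B (dlt s) (p2a_stable_dlt hB)) (resE B (nrm s n) (p2a_stable_nrm hB n)) := by
    rw [p2a_resE_dlt hB, p2a_resE_nrm hB]
    exact ⟨h0B, h1B⟩
  have hF' : Fin2 (dlt s) (nrm s n) :=
    (Herb.fin2_iff_of_finiteIndex _ _ hfg hgf B (p2a_stable_dlt hB) (p2a_stable_nrm hB n) hidx).2 hF
  have hm := Herb.hq_mul_of_finiteIndex _ _ hfg hgf B (p2a_stable_dlt hB) (p2a_stable_nrm hB n) hidx hF'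
  rw [p2a_resE_dlt hB, p2a_resE_nrm hB] at hm
  exact ⟨hF'.1, hF'.2, hm⟩

/-- multiplicativity in terms of `h0`, `h1`, middle and quotient known. -/
theorem p2a_h_sub (s : A →+ A) (n : ℕ) (hs : ∀ x, (s^[n]) x = x) (B : AddSubgroup A)
    (hB : Stable B s) (h0A : h0 s n ≠ 0) (h1A : h1 s n ≠ 0) (h0Q : h0 (quoE B s hB) n ≠ 0)
    (h1Q : h1 (quoE B s hB) n ≠ 0) :
    h0 (resE B s hB) n ≠ 0 ∧ h1 (resE B s hB) n ≠ 0 ∧
      h0 s n * h1 (resE B s hB) n * h1 (quoE B s hB) n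
        = h1 s n * h0 (resE B s hB) n * h0 (quoE B s hB) n := by
  have hfg := dlt_nrm s n hs
  have hgf := nrm_dlt s n hs
  have hQ : Fin2 (quoE B (dlt s) (p2a_stable_dlt hB)) (quoE B (nrm s n) (p2a_stable_nrm hB n)) := by
    rw [p2a_quoE_dlt hB, p2a_quoE_nrm hB]
    exact ⟨h0Q, h1Q⟩
  have hR := Herb.fin2_sub _ _ hfg hgf B (p2a_stable_dlt hB) (p2a_stable_nrm hB n) ⟨h0A, h1A⟩ hQ
  have hm := Herb.hq_mul _ _ hfg hgf B (p2a_stable_dlt hB) (p2a_stable_nrm hB n) hR hQ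
  rw [p2a_resE_dlt hB, p2a_resE_nrm hB] at hR
  rw [p2a_resE_dlt hB, p2a_resE_nrm hB, p2a_quoE_dlt hB, p2a_quoE_nrm hB] at hm
  exact ⟨hR.1, hR.2, hm⟩

end general

theorem p2a_permE_iter {Y : Type*} (T : Type*) [AddCommGroup T] (p : Equiv.Perm Y) (i : ℕ) (φ : Y → T) :
    ((permE T p)^[i]) φ = permE T (p ^ i) φ := by
  induction i with
  | zero => rfl
  | succ i ih => rw [Function.iterate_succ_apply', ih, pow_succ', p2a_permE_mul]

theorem p2a_res_iter_eq {Y : Type*} {T : Type*} [AddCommGroup T] (p : Equiv.Perm Y) (n : ℕ) (hp : p ^ n = 1)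
    (Γ : AddSubgroup (Y → T)) (hstab : Stable Γ (permE T p)) (x : Γ) :
    ((resE Γ (permE T p) hstab)^[n]) x = x := by
  apply Subtype.ext
  rw [p2a_resE_iter, p2a_permE_iter, hp, p2a_permE_one]

/-- Blueprint 2.5, first half: the Herbrand quotient of such a lattice is `1`. -/
theorem lattice_herbrand (p : Equiv.Perm X) (n : ℕ) (hn : 0 < n) (hp : p ^ n = 1)
    (hfree : ∀ (x : X) (i : ℕ), (p ^ i) x = x → n ∣ i)
    (Γ : AddSubgroup (X → ℝ)) (hdisc : DiscreteTopology Γ)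
    (hspan : Submodule.span ℝ (Γ : Set (X → ℝ)) = ⊤) (hstab : Stable Γ (permE ℝ p)) :
    h0 (resE Γ (permE ℝ p) hstab) n ≠ 0 ∧
      h0 (resE Γ (permE ℝ p) hstab) n = h1 (resE Γ (permE ℝ p) hstab) n := by
  obtain ⟨j, hjinj, hjΓ, hjeq, hjidx⟩ := exists_perm_sublattice p n hn hp hfree Γ hdisc hspan hstab
  set s' := resE Γ (permE ℝ p) hstab with hs'
  let j' : (X → ℤ) →+ Γ := j.codRestrict Γ hjΓ
  have hj'inj : Function.Injective j' := fun a b h => hjinj (congrArg Subtype.val h)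
  have hBeq : j'.range = j.range.addSubgroupOf Γ := by
    ext γ
    rw [AddSubgroup.mem_addSubgroupOf]
    constructor
    · rintro ⟨φ, rfl⟩
      exact ⟨φ, rfl⟩
    · rintro ⟨φ, hφ⟩
      exact ⟨φ, Subtype.ext hφ⟩
  have hidx : j'.range.index ≠ 0 := by rw [hBeq]; exact hjidx
  have hB : Stable j'.range s' := by
    rintro _ ⟨φ, rfl⟩
    exact ⟨permE ℤ p φ, Subtype.ext (hjeq φ)⟩
  let e : (X → ℤ) ≃+ j'.range := AddMonoidHom.ofInjective hj'inj
  have he : ∀ φ, e (permE ℤ p φ) = resE j'.range s' hB (e φ) := by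
    intro φ
    apply Subtype.ext
    apply Subtype.ext
    exact hjeq φ
  obtain ⟨e0, e1⟩ := p2a_h_congr e (permE ℤ p) (resE j'.range s' hB) n he
  have hct := ct_perm_free ℤ p n hn hp hfree
  rw [hct.h0_eq_one] at e0
  rw [hct.h1_eq_one] at e1
  obtain ⟨a0, _, a2⟩ := p2a_h_finiteIndex s' n (p2a_res_iter_eq p n hp Γ hstab) j'.range hB hidx
    (by rw [← e0]; exact one_ne_zero) (by rw [← e1]; exact one_ne_zero)
  rw [← e0, ← e1, mul_one, mul_one] at a2
  exact ⟨a0, a2⟩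

/-- the vector `(1, …, 1)`. -/
def p2aOne (X : Type*) : X → ℝ := fun _ => 1

theorem p2a_permE_zsmul_one {Y : Type*} (p : Equiv.Perm Y) (k : ℤ) :
    permE ℝ p (k • p2aOne Y) = k • p2aOne Y := rfl

theorem p2a_sum_zsmul_one (k : ℤ) : ∑ x : X, (k • p2aOne X) x = k * Fintype.card X := by
  simp [p2aOne, mul_comm]

/-- `Γ₀ + ℤ (1, …, 1)` -/
def p2aExt (Γ₀ : AddSubgroup (X → ℝ)) : AddSubgroup (X → ℝ) :=
  Γ₀ ⊔ AddSubgroup.zmultiples (p2aOne X)

omit [Fintype X] in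
theorem p2a_mem_ext {Γ₀ : AddSubgroup (X → ℝ)} {γ : X → ℝ} :
    γ ∈ p2aExt Γ₀ ↔ ∃ γ₀ ∈ Γ₀, ∃ k : ℤ, γ₀ + k • p2aOne X = γ := by
  unfold p2aExt
  rw [AddSubgroup.mem_sup]
  constructor
  · rintro ⟨y, hy, z, hz, rfl⟩
    obtain ⟨k, rfl⟩ := AddSubgroup.mem_zmultiples_iff.1 hz
    exact ⟨y, hy, k, rfl⟩
  · rintro ⟨y, hy, k, rfl⟩
    exact ⟨y, hy, _, AddSubgroup.mem_zmultiples_iff.2 ⟨k, rfl⟩, rfl⟩

theorem p2a_ext_stable (p : Equiv.Perm X) (Γ₀ : AddSubgroup (X → ℝ)) (hstab : Stable Γ₀ (permE ℝ p)) :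
    Stable (p2aExt Γ₀) (permE ℝ p) := by
  intro γ hγ
  obtain ⟨γ₀, h0, k, rfl⟩ := p2a_mem_ext.1 hγ
  rw [map_add, p2a_permE_zsmul_one]
  exact p2a_mem_ext.2 ⟨_, hstab _ h0, k, rfl⟩

theorem p2a_ext_span [Nonempty X] (Γ₀ : AddSubgroup (X → ℝ))
    (hspan : ∀ φ : X → ℝ, ∑ x, φ x = 0 → φ ∈ Submodule.span ℝ (Γ₀ : Set (X → ℝ))) :
    Submodule.span ℝ (p2aExt Γ₀ : Set (X → ℝ)) = ⊤ := by
  rw [eq_top_iff]
  intro φ _
  have hle : Submodule.span ℝ (Γ₀ : Set (X → ℝ)) ≤ Submodule.span ℝ (p2aExt Γ₀ : Set (X → ℝ)) :=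
    Submodule.span_mono (fun x hx => (le_sup_left : Γ₀ ≤ p2aExt Γ₀) hx)
  have hone : p2aOne X ∈ Submodule.span ℝ (p2aExt Γ₀ : Set (X → ℝ)) :=
    Submodule.subset_span (p2a_mem_ext.2 ⟨0, Γ₀.zero_mem, 1, by simp⟩)
  have hc : (Fintype.card X : ℝ) ≠ 0 := by exact_mod_cast Fintype.card_ne_zero
  set m : ℝ := (∑ x, φ x) / Fintype.card X with hm
  have h1 : ∑ x, (φ - m • p2aOne X) x = 0 := by
    simp only [Pi.sub_apply, Pi.smul_apply, p2aOne, smul_eq_mul, mul_one, Finset.sum_sub_distrib,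
      Finset.sum_const, Finset.card_univ, nsmul_eq_mul]
    rw [hm]
    field_simp
    ring
  have h2 : φ = (φ - m • p2aOne X) + m • p2aOne X := by abel
  rw [h2]
  exact Submodule.add_mem _ (hle (hspan _ h1)) (Submodule.smul_mem _ _ hone)

theorem p2a_ext_discrete [Nonempty X] (Γ₀ : AddSubgroup (X → ℝ)) (hdisc : DiscreteTopology Γ₀)
    (hhyp : ∀ φ ∈ Γ₀, ∑ x, φ x = 0) : DiscreteTopology (p2aExt Γ₀) := by
  have h0 : IsOpen ({0} : Set Γ₀) := isOpen_discrete _
  obtain ⟨ε, hε, hball⟩ := Metric.isOpen_singleton_iff.1 h0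
  apply discreteTopology_of_isOpen_singleton_zero
  rw [Metric.isOpen_singleton_iff]
  refine ⟨min ε 1, lt_min hε one_pos, ?_⟩
  intro γ hγ
  obtain ⟨γ₀, hγ₀, k, hk⟩ := p2a_mem_ext.1 γ.2
  have hnorm : ‖(γ : X → ℝ)‖ < min ε 1 := by
    have : dist γ 0 = ‖(γ : X → ℝ)‖ := by
      rw [Subtype.dist_eq]
      simp
    rwa [this] at hγ
  have hc : (0 : ℝ) < Fintype.card X := by exact_mod_cast Fintype.card_pos
  -- `k = 0`
  have hsum : ∑ x, (γ : X → ℝ) x = k * Fintype.card X := by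
    rw [← hk]
    simp only [Pi.add_apply, Finset.sum_add_distrib, hhyp γ₀ hγ₀, zero_add]
    exact p2a_sum_zsmul_one k
  have hle : |∑ x, (γ : X → ℝ) x| ≤ Fintype.card X * ‖(γ : X → ℝ)‖ := by
    refine (Finset.abs_sum_le_sum_abs _ _).trans ?_
    refine (Finset.sum_le_sum fun x _ => norm_le_pi_norm (γ : X → ℝ) x).trans ?_
    simp
  have hk0 : k = 0 := by
    rw [hsum, abs_mul, abs_of_pos hc, mul_comm] at hle
    have h1 : |(k : ℝ)| ≤ ‖(γ : X → ℝ)‖ := le_of_mul_le_mul_left hle hc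
    have h2 : |(k : ℝ)| < 1 := lt_of_le_of_lt h1 (lt_of_lt_of_le hnorm (min_le_right _ _))
    have h3 : |k| < 1 := by exact_mod_cast h2
    exact Int.abs_lt_one_iff.1 h3
  subst hk0
  rw [zero_smul, add_zero] at hk
  have h4 : (⟨γ₀, hγ₀⟩ : Γ₀) = 0 := by
    apply hball
    rw [Subtype.dist_eq]
    simp only [AddSubgroup.coe_zero, dist_zero_right]
    rw [hk]
    exact lt_of_lt_of_le hnorm (min_le_left _ _)
  apply Subtype.ext
  rw [← hk]
  exact congrArg Subtype.val h4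

/-- Blueprint 2.5: a discrete stable subgroup `Γ₀` of the hyperplane `∑ = 0` spanning the hyperplane has
Herbrand quotient `1 / n`. -/
theorem hyperplane_lattice_herbrand [Nonempty X] (p : Equiv.Perm X) (n : ℕ) (hn : 0 < n) (hp : p ^ n = 1)
    (hfree : ∀ (x : X) (i : ℕ), (p ^ i) x = x → n ∣ i)
    (Γ₀ : AddSubgroup (X → ℝ)) (hdisc : DiscreteTopology Γ₀)
    (hhyp : ∀ φ ∈ Γ₀, ∑ x, φ x = 0)
    (hspan : ∀ φ : X → ℝ, ∑ x, φ x = 0 → φ ∈ Submodule.span ℝ (Γ₀ : Set (X → ℝ)))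
    (hstab : Stable Γ₀ (permE ℝ p)) :
    h0 (resE Γ₀ (permE ℝ p) hstab) n ≠ 0 ∧
      h0 (resE Γ₀ (permE ℝ p) hstab) n * n = h1 (resE Γ₀ (permE ℝ p) hstab) n := by
  set Γ := p2aExt Γ₀ with hΓ
  have hstabΓ : Stable Γ (permE ℝ p) := p2a_ext_stable p Γ₀ hstab
  obtain ⟨a0, a1⟩ := lattice_herbrand p n hn hp hfree Γ (p2a_ext_discrete Γ₀ hdisc hhyp)
    (p2a_ext_span Γ₀ hspan) hstabΓ
  set s' := resE Γ (permE ℝ p) hstabΓ with hs'
  have hle : Γ₀ ≤ Γ := le_sup_left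
  set B : AddSubgroup Γ := Γ₀.addSubgroupOf Γ with hB
  have hBst : Stable B s' := by
    intro x hx
    rw [hB, AddSubgroup.mem_addSubgroupOf] at hx ⊢
    exact hstab _ hx
  -- the subgroup
  let e1 : B ≃+ Γ₀ := AddSubgroup.addSubgroupOfEquivOfLe hle
  have he1 : ∀ x, e1 (resE B s' hBst x) = resE Γ₀ (permE ℝ p) hstab (e1 x) := by
    intro x
    apply Subtype.ext
    rfl
  obtain ⟨b0, b1⟩ := p2a_h_congr e1 _ _ n he1
  -- the quotient
  have honeΓ : ∀ k : ℤ, k • p2aOne X ∈ Γ := fun k => p2a_mem_ext.2 ⟨0, Γ₀.zero_mem, k, by simp⟩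
  let ψ : ℤ →+ Γ ⧸ B := (QuotientAddGroup.mk' B).comp
    ((zmultiplesHom Γ) ⟨p2aOne X, by simpa using honeΓ 1⟩)
  have hψ : ∀ k : ℤ, ψ k = QuotientAddGroup.mk (⟨k • p2aOne X, honeΓ k⟩ : Γ) := by
    intro k
    show (QuotientAddGroup.mk _ : Γ ⧸ B) = _
    congr 1
  have hc : (Fintype.card X : ℝ) ≠ 0 := by exact_mod_cast Fintype.card_ne_zero
  have hψbij : Function.Bijective ψ := by
    constructor
    · rw [injective_iff_map_eq_zero]
      intro k hk
      rw [hψ, QuotientAddGroup.eq_zero_iff, hB, AddSubgroup.mem_addSubgroupOf] at hk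
      have h1 := hhyp _ hk
      rw [p2a_sum_zsmul_one] at h1
      have h2 : (k : ℝ) = 0 := by
        rcases mul_eq_zero.1 h1 with h | h
        · exact h
        · exact absurd h hc
      exact_mod_cast h2
    · intro q
      obtain ⟨γ, rfl⟩ := QuotientAddGroup.mk_surjective q
      obtain ⟨γ₀, hγ₀, k, hk⟩ := p2a_mem_ext.1 γ.2
      refine ⟨k, ?_⟩
      rw [hψ, QuotientAddGroup.eq, hB, AddSubgroup.mem_addSubgroupOf]
      have h1 : ((-(⟨k • p2aOne X, honeΓ k⟩ : Γ) + γ : Γ) : X → ℝ) = γ₀ := by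
        push_cast
        rw [← hk]
        abel
      rw [h1]
      exact hγ₀
  let e2 : ℤ ≃+ Γ ⧸ B := AddEquiv.ofBijective ψ hψbij
  have he2 : ∀ k, e2 (AddMonoidHom.id ℤ k) = quoE B s' hBst (e2 k) := by
    intro k
    show ψ k = quoE B s' hBst (ψ k)
    rw [hψ]
    rfl
  obtain ⟨c0, c1⟩ := p2a_h_congr e2 _ _ n he2
  rw [h0_int n hn] at c0
  rw [h1_int n hn] at c1
  obtain ⟨d0, _, d2⟩ := p2a_h_sub s' n (p2a_res_iter_eq p n hp Γ hstabΓ) B hBst a0 (a1 ▸ a0)
    (by rw [← c0]; exact hn.ne') (by rw [← c1]; exact one_ne_zero)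
  rw [← c0, ← c1, b0, b1, mul_one, ← a1, mul_assoc] at d2
  rw [b0] at d0
  exact ⟨d0, (Nat.eq_of_mul_eq_mul_left (Nat.pos_of_ne_zero a0) d2).symm⟩

end Claimed.Agent.R239.CFT
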