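import Claimed.Agent.R239.CFT.I0
import Claimed.Agent.R239.CFT.P2a

/-!
# R239 / CFT : package P2b (Herbrand quotient of the unit group)

Output statements of the package (see `Blueprint.lean`, 2.1-2.3, 2.6).  The owner of the package owns this
file and replaces the `sorry`s in place; names and statements are frozen (ask helper97 for changes).

All Galois modules of the chain are subquotients of `Additive Lˣ` with the endomorphism `actU σ`.
-/

set_option autoImplicit false
set_option linter.unusedSectionVars false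

namespace Claimed.Agent.R239.CFT

namespace Herb

/-! ### cyclic modules: equivariant short exact sequences -/

variable {A' A A'' : Type*} [AddCommGroup A'] [AddCommGroup A] [AddCommGroup A'']

lemma iterate_semiconj {s : A →+ A} {s'' : A'' →+ A''} (p : A →+ A'')
    (hp : ∀ x, p (s x) = s'' (p x)) (k : ℕ) (x : A) : p ((s^[k]) x) = (s''^[k]) (p x) := by
  induction k generalizing x with
  | zero => rfl
  | succ k ih => rw [Function.iterate_succ_apply, ih, hp, ← Function.iterate_succ_apply]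

lemma dlt_semiconj {s : A →+ A} {s'' : A'' →+ A''} (p : A →+ A'')
    (hp : ∀ x, p (s x) = s'' (p x)) (x : A) : p (dlt s x) = dlt s'' (p x) := by
  rw [dlt_apply, dlt_apply, map_sub, hp]

lemma nrm_semiconj {s : A →+ A} {s'' : A'' →+ A''} (p : A →+ A'')
    (hp : ∀ x, p (s x) = s'' (p x)) (n : ℕ) (x : A) : p (nrm s n x) = nrm s'' n (p x) := by
  rw [nrm_apply, nrm_apply, map_sum]
  exact Finset.sum_congr rfl fun i _ => iterate_semiconj p hp i x

/-- an equivariant short exact sequence of cyclic modules gives an `HSeq` -/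
lemma hseq_cyc {s' : A' →+ A'} {s : A →+ A} {s'' : A'' →+ A''} {i : A' →+ A} {p : A →+ A''}
    (inj : Function.Injective i) (surj : Function.Surjective p) (exact : i.range = p.ker)
    (hi : ∀ x, i (s' x) = s (i x)) (hp : ∀ x, p (s x) = s'' (p x)) (n : ℕ) :
    HSeq (dlt s') (nrm s' n) (dlt s) (nrm s n) (dlt s'') (nrm s'' n) i p where
  inj := inj
  surj := surj
  exact := exact
  i_f := dlt_semiconj i hi
  i_g := nrm_semiconj i hi n
  p_f := dlt_semiconj p hp
  p_g := nrm_semiconj p hp n

lemma dlt_comp_nrm (s : A →+ A) (n : ℕ) (hs : ∀ x, (s^[n]) x = x) : (dlt s).comp (nrm s n) = 0 :=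
  AddMonoidHom.ext (dlt_nrm s n hs)

lemma nrm_comp_dlt (s : A →+ A) (n : ℕ) (hs : ∀ x, (s^[n]) x = x) : (nrm s n).comp (dlt s) = 0 :=
  AddMonoidHom.ext (nrm_dlt s n hs)

lemma stable_ker {s : A →+ A} {s'' : A'' →+ A''} (p : A →+ A'')
    (hp : ∀ x, p (s x) = s'' (p x)) : Stable p.ker s := by
  intro x hx
  rw [AddMonoidHom.mem_ker] at hx ⊢
  rw [hp, hx, map_zero]

lemma stable_range {s : A →+ A} {s'' : A'' →+ A''} (p : A →+ A'')
    (hp : ∀ x, p (s x) = s'' (p x)) : Stable p.range s'' := by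
  rintro _ ⟨x, rfl⟩
  exact ⟨s x, hp x⟩

/-- the sequence `0 → ker p → A → range p → 0` -/
lemma hseq_ker_range {s : A →+ A} {s'' : A'' →+ A''} (p : A →+ A'')
    (hp : ∀ x, p (s x) = s'' (p x)) (hst : Stable p.range s'') (n : ℕ) :
    HSeq (dlt (resE p.ker s (stable_ker p hp))) (nrm (resE p.ker s (stable_ker p hp)) n)
      (dlt s) (nrm s n) (dlt (resE p.range s'' hst)) (nrm (resE p.range s'' hst) n)
      p.ker.subtype p.rangeRestrict :=
  hseq_cyc (s' := resE p.ker s (stable_ker p hp)) (s := s) (s'' := resE p.range s'' hst)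
    p.ker.subtype_injective p.rangeRestrict_surjective
    (by rw [AddSubgroup.range_subtype, AddMonoidHom.ker_rangeRestrict])
    (fun _ => rfl) (fun x => Subtype.ext (hp x)) n

/-- an equivariant homomorphism with finite kernel does not change the Herbrand quotient -/
theorem herbrand_of_finite_ker {s : A →+ A} {s'' : A'' →+ A''} (p : A →+ A'')
    (hp : ∀ x, p (s x) = s'' (p x)) (hst : Stable p.range s'') (n : ℕ)
    (hs : ∀ x, (s^[n]) x = x) (hfin : Finite p.ker) :
    ((h0 s n ≠ 0 ∧ h1 s n ≠ 0) ↔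
      (h0 (resE p.range s'' hst) n ≠ 0 ∧ h1 (resE p.range s'' hst) n ≠ 0)) ∧
    h0 s n * h1 (resE p.range s'' hst) n = h1 s n * h0 (resE p.range s'' hst) n :=
  ⟨hq_ne_zero_iff_of_finite_left (hseq_ker_range p hp hst n) (dlt_comp_nrm s n hs)
      (nrm_comp_dlt s n hs),
    hq_of_finite_left (hseq_ker_range p hp hst n) (dlt_comp_nrm s n hs) (nrm_comp_dlt s n hs)⟩

end Herb


open IsDedekindDomain NumberField Herb

variable (K : Type*) [Field K] [NumberField K] (L : Type*) [Field L] [NumberField L] [Algebra K L]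

variable {K L} in
/-- the endomorphism of `Additive Lˣ` induced by `σ` -/
noncomputable def actU (σ : Gal(L/K)) : Additive Lˣ →+ Additive Lˣ :=
  MonoidHom.toAdditive (Units.map ((σ : L →+* L) : L →* L))

variable {K L} in
theorem actU_apply (σ : Gal(L/K)) (b : Lˣ) :
    ((Additive.toMul (actU σ (Additive.ofMul b)) : Lˣ) : L) = σ (b : L) := rfl

/-- the `T`-units as a subgroup of `Additive Lˣ` -/
noncomputable abbrev unitA (T : Set (Pl L)) : AddSubgroup (Additive Lˣ) :=
  Subgroup.toAddSubgroup (T.unit L)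

lemma mem_unitA_iff (T : Set (Pl L)) (x : Additive Lˣ) :
    x ∈ unitA L T ↔ ∀ w ∉ T, ord w ((Additive.toMul x : Lˣ) : L) = 0 :=
  mem_unit_iff T (Additive.toMul x)

theorem stable_unitA [IsGalois K L] (S : Set (Pl K)) (σ : Gal(L/K)) :
    Stable (unitA L (above K L S)) (actU σ) := by
  intro x hx
  rw [mem_unitA_iff] at hx ⊢
  intro w hw
  have h1 : σ⁻¹ • w ∉ above K L S := by
    intro h
    apply hw
    have h2 : below K L (σ⁻¹ • w) ∈ S := h
    rw [below_smul] at h2
    exact h2
  have h2 := ord_smul K L σ (σ⁻¹ • w) ((Additive.toMul x : Lˣ) : L)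
  rw [smul_inv_smul] at h2
  rw [← hx _ h1, ← h2]
  rfl

/-- Blueprint 2.1 -/
theorem infinitePlace_free [IsGalois K L] [IsTotallyComplex K] (σ : Gal(L/K)) (w : InfinitePlace L)
    (h : σ • w = w) : σ = 1 := by
  have h1 : InfinitePlace.IsUnramified K w :=
    InfinitePlace.isUnramified_iff.2 (Or.inr (IsTotallyComplex.isComplex _))
  rw [InfinitePlace.isUnramified_iff_stabilizer_eq_bot] at h1
  have h2 : σ ∈ MulAction.stabilizer Gal(L/K) w := h
  rw [h1] at h2
  exact h2

/-- the full logarithmic map -/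
noncomputable def LogL : Additive Lˣ →+ (InfinitePlace L → ℝ) where
  toFun b w := (w.mult : ℝ) * Real.log (w ((Additive.toMul b : Lˣ) : L))
  map_zero' := by
    ext w
    simp
  map_add' a b := by
    ext w
    have h1 : w ((Additive.toMul a : Lˣ) : L) ≠ 0 := by simp
    have h2 : w ((Additive.toMul b : Lˣ) : L) ≠ 0 := by simp
    simp only [toMul_add, Units.val_mul, map_mul, Real.log_mul h1 h2, Pi.add_apply]
    ring

lemma LogL_apply (b : Additive Lˣ) (w : InfinitePlace L) :
    LogL L b w = (w.mult : ℝ) * Real.log (w ((Additive.toMul b : Lˣ) : L)) := rfl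

variable {K L} in
lemma mult_smul' (σ : Gal(L/K)) (w : InfinitePlace L) : (σ • w).mult = w.mult := by
  unfold InfinitePlace.mult
  by_cases h : w.IsReal
  · rw [if_pos h, if_pos (InfinitePlace.isReal_smul_iff.2 h)]
  · rw [if_neg h, if_neg (fun h' => h (InfinitePlace.isReal_smul_iff.1 h'))]

variable {K L} in
/-- equivariance of the logarithmic map -/
lemma LogL_actU (σ : Gal(L/K)) (b : Additive Lˣ) :
    LogL L (actU σ b) = permE ℝ (MulAction.toPerm σ) (LogL L b) := by
  ext w
  rw [permE_apply, LogL_apply, LogL_apply]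
  have h1 : (MulAction.toPerm σ : Equiv.Perm (InfinitePlace L)).symm w = σ⁻¹ • w := rfl
  rw [h1, mult_smul', InfinitePlace.smul_apply]
  rfl

variable {L} in
/-- global units -/
lemma exists_unit_of_ord_eq_zero (b : Lˣ) (h : ∀ w : Pl L, ord w (b : L) = 0) :
    ∃ u : (𝓞 L)ˣ, ((u : 𝓞 L) : L) = b := by
  obtain ⟨x, hx⟩ := exists_integer_of_ord_nonneg (b : L) (fun w => (h w).ge)
  obtain ⟨y, hy⟩ := exists_integer_of_ord_nonneg ((b⁻¹ : Lˣ) : L) (fun w => by
    rw [Units.val_inv_eq_inv_val, ord_inv, h w]; simp)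
  refine ⟨⟨x, y, ?_, ?_⟩, hx⟩
  · apply RingOfIntegers.ext
    rw [RingOfIntegers.coe_eq_algebraMap, map_mul, ← RingOfIntegers.coe_eq_algebraMap,
      ← RingOfIntegers.coe_eq_algebraMap, hx, hy]
    simp
  · apply RingOfIntegers.ext
    rw [RingOfIntegers.coe_eq_algebraMap, map_mul, ← RingOfIntegers.coe_eq_algebraMap,
      ← RingOfIntegers.coe_eq_algebraMap, hx, hy]
    simp

variable {L} in
lemma ord_unit_eq_zero (u : (𝓞 L)ˣ) (w : Pl L) : ord w ((u : 𝓞 L) : L) = 0 := by
  have h1 := ord_nonneg_of_integer w (u : 𝓞 L)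
  have h2 := ord_nonneg_of_integer w ((u⁻¹ : (𝓞 L)ˣ) : 𝓞 L)
  have h3 : (((u⁻¹ : (𝓞 L)ˣ) : 𝓞 L) : L) = (((u : 𝓞 L) : L))⁻¹ := by
    apply eq_inv_of_mul_eq_one_left
    rw [← map_mul]
    simp
  rw [h3, ord_inv] at h2
  omega

/-- the inclusion of the global units -/
noncomputable def incU : Additive (𝓞 L)ˣ →+ Additive Lˣ :=
  MonoidHom.toAdditive (Units.map ((algebraMap (𝓞 L) L : 𝓞 L →+* L) : 𝓞 L →* L))

lemma incU_apply (u : Additive (𝓞 L)ˣ) :
    ((Additive.toMul (incU L u) : Lˣ) : L) = ((Additive.toMul u : (𝓞 L)ˣ) : 𝓞 L) := rfl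

lemma incU_injective : Function.Injective (incU L) := by
  intro a b h
  have h1 := congrArg (fun x : Additive Lˣ => ((Additive.toMul x : Lˣ) : L)) h
  simp only [incU_apply] at h1
  exact Additive.toMul.injective (Units.ext (RingOfIntegers.ext h1))

lemma incU_mem (T : Set (Pl L)) (u : Additive (𝓞 L)ˣ) : incU L u ∈ unitA L T := by
  rw [mem_unitA_iff]
  intro w _
  rw [incU_apply]
  exact ord_unit_eq_zero _ w

lemma exists_incU_eq {T : Set (Pl L)} (hT : ∀ w, w ∉ T) {x : Additive Lˣ} (hx : x ∈ unitA L T) :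
    ∃ u, incU L u = x := by
  rw [mem_unitA_iff] at hx
  obtain ⟨u, hu⟩ := exists_unit_of_ord_eq_zero (Additive.toMul x) (fun w => hx w (hT w))
  exact ⟨Additive.ofMul u, Additive.toMul.injective (Units.ext hu)⟩

open Units.dirichletUnitTheorem in
/-- restriction to the places `≠ w₀` -/
noncomputable def resW : (InfinitePlace L → ℝ) →ₗ[ℝ] logSpace L :=
  LinearMap.funLeft ℝ ℝ (fun w : {w : InfinitePlace L // w ≠ w₀} => (w : InfinitePlace L))

lemma resW_LogL (u : Additive (𝓞 L)ˣ) : resW L (LogL L (incU L u)) = Units.logEmbedding L u := rfl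

lemma sum_LogL (u : Additive (𝓞 L)ˣ) : ∑ w, LogL L (incU L u) w = 0 :=
  Units.sum_mult_mul_log (Additive.toMul u)

open Units.dirichletUnitTheorem in
lemma eq_zero_of_resW_eq_zero (φ : InfinitePlace L → ℝ) (h0 : ∑ w, φ w = 0) (h : resW L φ = 0) :
    φ = 0 := by
  classical
  have h1 : ∀ w, w ≠ w₀ → φ w = 0 := fun w hw => congrFun h ⟨w, hw⟩
  rw [Finset.sum_eq_single w₀ (fun b _ hb => h1 b hb) (by simp)] at h0
  ext w
  by_cases hw : w = w₀
  · rw [hw]; exact h0
  · exact h1 w hw


section lattice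

variable {L}
variable {T : Set (Pl L)} (hT : ∀ w, w ∉ T)

include hT

lemma logLat_mem_iff (γ : InfinitePlace L → ℝ) :
    γ ∈ ((LogL L).comp (unitA L T).subtype).range ↔ ∃ u, LogL L (incU L u) = γ := by
  constructor
  · rintro ⟨x, rfl⟩
    obtain ⟨u, hu⟩ := exists_incU_eq L hT x.2
    exact ⟨u, by rw [hu]; rfl⟩
  · rintro ⟨u, rfl⟩
    exact ⟨⟨incU L u, incU_mem L T u⟩, rfl⟩

lemma logLat_sum {γ : InfinitePlace L → ℝ} (hγ : γ ∈ ((LogL L).comp (unitA L T).subtype).range) :
    ∑ w, γ w = 0 := by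
  obtain ⟨u, rfl⟩ := (logLat_mem_iff hT γ).1 hγ
  exact sum_LogL L u

lemma logLat_discrete : DiscreteTopology ((LogL L).comp (unitA L T).subtype).range := by
  have hmem : ∀ γ : ((LogL L).comp (unitA L T).subtype).range,
      resW L (γ : InfinitePlace L → ℝ) ∈ Units.unitLattice L := by
    intro γ
    obtain ⟨u, hu⟩ := (logLat_mem_iff hT _).1 γ.2
    rw [← hu, resW_LogL]
    exact ⟨u, trivial, rfl⟩
  let f : ((LogL L).comp (unitA L T).subtype).range → Units.unitLattice L :=
    fun γ => ⟨resW L γ, hmem γ⟩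
  have hf : Continuous f := by
    apply Continuous.subtype_mk
    exact (LinearMap.continuous_of_finiteDimensional (resW L)).comp continuous_subtype_val
  have hinj : Function.Injective f := by
    intro a b hab
    have h1 : resW L ((a : InfinitePlace L → ℝ) - b) = 0 := by
      rw [map_sub, sub_eq_zero]
      exact congrArg Subtype.val hab
    have h2 := eq_zero_of_resW_eq_zero L _ (by
      simp only [Pi.sub_apply, Finset.sum_sub_distrib]
      rw [logLat_sum hT a.2, logLat_sum hT b.2, sub_zero]) h1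
    exact Subtype.ext (sub_eq_zero.1 h2)
  exact DiscreteTopology.of_continuous_injective hf hinj

lemma logLat_span (φ : InfinitePlace L → ℝ) (h0 : ∑ w, φ w = 0) :
    φ ∈ Submodule.span ℝ
      (((LogL L).comp (unitA L T).subtype).range : Set (InfinitePlace L → ℝ)) := by
  have h1 : resW L φ ∈ Submodule.span ℝ (Units.unitLattice L : Set _) := by
    rw [Units.dirichletUnitTheorem.unitLattice_span_eq_top]
    trivial
  have h2 : (Units.unitLattice L : Set _) ⊆
      resW L '' (((LogL L).comp (unitA L T).subtype).range : Set (InfinitePlace L → ℝ)) := by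
    rintro _ ⟨u, _, rfl⟩
    exact ⟨LogL L (incU L u), (logLat_mem_iff hT _).2 ⟨u, rfl⟩, rfl⟩
  have h3 := Submodule.span_mono h2 h1
  rw [Submodule.span_image] at h3
  obtain ⟨ψ, hψ, hψφ⟩ := h3
  have h4 : ∑ w, ψ w = 0 := by
    refine Submodule.span_induction (p := fun x _ => ∑ w, x w = 0) ?_ ?_ ?_ ?_ hψ
    · intro x hx
      exact logLat_sum hT hx
    · simp
    · intro x y _ _ hx hy
      simp only [Pi.add_apply, Finset.sum_add_distrib, hx, hy, add_zero]
    · intro a x _ hx
      simp only [Pi.smul_apply, smul_eq_mul, ← Finset.mul_sum, hx, mul_zero]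
  have h5 := eq_zero_of_resW_eq_zero L (ψ - φ)
    (by simp only [Pi.sub_apply, Finset.sum_sub_distrib, h4, h0, sub_zero])
    (by rw [map_sub, hψφ, sub_self])
  rw [← sub_eq_zero.1 h5]
  exact hψ

lemma logLat_finite_ker : Finite ((LogL L).comp (unitA L T).subtype).ker := by
  have h : ∀ x : ((LogL L).comp (unitA L T).subtype).ker, ∃ u : Units.torsion L,
      incU L (Additive.ofMul (u : (𝓞 L)ˣ)) = ((x : unitA L T) : Additive Lˣ) := by
    intro x
    obtain ⟨u, hu⟩ := exists_incU_eq L hT x.1.2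
    have h1 : LogL L (incU L u) = 0 := by
      rw [hu]
      exact x.2
    have h2 : Units.logEmbedding L u = 0 := by rw [← resW_LogL, h1, map_zero]
    exact ⟨⟨Additive.toMul u, Units.dirichletUnitTheorem.logEmbedding_eq_zero_iff.1 h2⟩, hu⟩
  choose f hf using h
  exact Finite.of_injective f (fun a b hab => by
    apply Subtype.ext
    apply Subtype.ext
    rw [← hf a, ← hf b, hab])

end lattice

variable {K L} in
lemma actU_iterate (σ : Gal(L/K)) (i : ℕ) (x : Additive Lˣ) :
    ((actU σ)^[i]) x = actU (σ ^ i) x := by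
  induction i with
  | zero =>
    apply Additive.toMul.injective
    apply Units.ext
    rfl
  | succ i ih =>
    rw [Function.iterate_succ_apply', ih, pow_succ']
    apply Additive.toMul.injective
    apply Units.ext
    rfl

variable {K L} in
lemma actU_one (x : Additive Lˣ) : actU (1 : Gal(L/K)) x = x := by
  apply Additive.toMul.injective
  apply Units.ext
  rfl

/-- Blueprint 2.6: `h0(𝓞_Lˣ) · n = h1(𝓞_Lˣ)` -/
theorem units_herbrand [IsGalois K L] [IsTotallyComplex K] (σ : Gal(L/K))
    (hσ : ∀ τ : Gal(L/K), τ ∈ Subgroup.zpowers σ) :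
    h0 (resE (unitA L (above K L ∅)) (actU σ) (stable_unitA K L ∅ σ)) (Module.finrank K L) ≠ 0 ∧
    h0 (resE (unitA L (above K L ∅)) (actU σ) (stable_unitA K L ∅ σ)) (Module.finrank K L)
        * Module.finrank K L =
      h1 (resE (unitA L (above K L ∅)) (actU σ) (stable_unitA K L ∅ σ)) (Module.finrank K L) := by
  have hn0 : 0 < Module.finrank K L := Module.finrank_pos
  have hT : ∀ w : Pl L, w ∉ above K L (∅ : Set (Pl K)) := fun w hw => hw
  have hcard : Nat.card Gal(L/K) = Module.finrank K L := IsGalois.card_aut_eq_finrank K L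
  have hσn : σ ^ Module.finrank K L = 1 := by
    rw [← hcard]
    exact pow_card_eq_one'
  have hord : orderOf σ = Module.finrank K L := by
    rw [orderOf_eq_card_of_forall_mem_zpowers hσ, hcard]
  have hpow : ∀ i : ℕ, (MulAction.toPerm σ : Equiv.Perm (InfinitePlace L)) ^ i =
      MulAction.toPerm (σ ^ i) := fun i =>
    (map_pow (MulAction.toPermHom Gal(L/K) (InfinitePlace L)) σ i).symm
  have hp : (MulAction.toPerm σ : Equiv.Perm (InfinitePlace L)) ^ Module.finrank K L = 1 := by
    rw [hpow, hσn]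
    ext
    simp
  have hfree : ∀ (x : InfinitePlace L) (i : ℕ),
      ((MulAction.toPerm σ : Equiv.Perm (InfinitePlace L)) ^ i) x = x →
        Module.finrank K L ∣ i := by
    intro x i h
    rw [hpow] at h
    have := infinitePlace_free K L (σ ^ i) x h
    rw [← hord]
    exact orderOf_dvd_of_pow_eq_one this
  have hφ : ∀ x, ((LogL L).comp (unitA L (above K L ∅)).subtype)
      (resE (unitA L (above K L ∅)) (actU σ) (stable_unitA K L ∅ σ) x) =
      permE ℝ (MulAction.toPerm σ) (((LogL L).comp (unitA L (above K L ∅)).subtype) x) :=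
    fun x => LogL_actU σ x
  have hst := stable_range _ hφ
  have hs : ∀ x, ((resE (unitA L (above K L ∅)) (actU σ) (stable_unitA K L ∅ σ))^[
      Module.finrank K L]) x = x := by
    intro x
    apply Subtype.ext
    rw [p2a_resE_iter, actU_iterate, hσn, actU_one]
  obtain ⟨b0, b1⟩ := hyperplane_lattice_herbrand (MulAction.toPerm σ) _ hn0 hp hfree _
    (logLat_discrete hT) (fun φ hφ => logLat_sum hT hφ) (logLat_span hT) hst
  obtain ⟨c1, c2⟩ := herbrand_of_finite_ker _ hφ hst _ hs (logLat_finite_ker hT)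
  have b2 : h1 (resE _ (permE ℝ (MulAction.toPerm σ)) hst) (Module.finrank K L) ≠ 0 := by
    rw [← b1]
    exact Nat.mul_ne_zero b0 hn0.ne'
  obtain ⟨d0, -⟩ := c1.2 ⟨b0, b2⟩
  refine ⟨d0, ?_⟩
  rw [← b1] at c2
  apply Nat.eq_of_mul_eq_mul_right (Nat.pos_of_ne_zero b0)
  rw [← c2]
  ring

end Claimed.Agent.R239.CFT
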