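import Claimed.Agent.R239.CFT.I0
import Claimed.Agent.R239.CFT.I1
import Claimed.Agent.R239.CFT.P2b

/-!
# R239 / CFT : package P2c (S-units; final results of P2)

Output statements of the package (see `Blueprint.lean`).  The owner of the package owns this file and
replaces the `sorry`s in place; names and statements are frozen (ask helper97 for changes).
-/

set_option autoImplicit false
set_option linter.unusedSectionVars false

namespace Claimed.Agent.R239.CFT

open IsDedekindDomain NumberField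

namespace Herb

section HQ

variable {A' A A'' : Type*} [AddCommGroup A'] [AddCommGroup A] [AddCommGroup A'']
  {f' g' : A' →+ A'} {f g : A →+ A} {f'' g'' : A'' →+ A''} {i : A' →+ A} {p : A →+ A''}

/-- both indices are finite and `hq f g / hq g f = a / b` -/
def HQ (f g : A →+ A) (a b : ℕ) : Prop := hq f g ≠ 0 ∧ hq g f ≠ 0 ∧ hq f g * b = hq g f * a

lemma HQ.mid (h : HSeq f' g' f g f'' g'' i p) (hfg : f.comp g = 0) (hgf : g.comp f = 0)
    {a' b' a'' b'' : ℕ} (h' : HQ f' g' a' b') (h'' : HQ f'' g'' a'' b'') :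
    HQ f g (a' * a'') (b' * b'') := by
  obtain ⟨x1, x2, x3⟩ := h'
  obtain ⟨y1, y2, y3⟩ := h''
  obtain ⟨z1, z2⟩ := hq_ne_zero_mid h hfg hgf x1 x2 y1 y2
  refine ⟨z1, z2, ?_⟩
  have hx := hq_hexagon h hfg hgf
  apply Nat.eq_of_mul_eq_mul_right (Nat.pos_of_ne_zero (Nat.mul_ne_zero x2 y2))
  calc hq f g * (b' * b'') * (hq g' f' * hq g'' f'')
      = (hq f g * hq g' f' * hq g'' f'') * (b' * b'') := by ring
    _ = hq g f * (hq f' g' * b') * (hq f'' g'' * b'') := by rw [hx]; ring
    _ = hq g f * (a' * a'') * (hq g' f' * hq g'' f'') := by rw [x3, y3]; ring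

lemma HQ.of_finite_left [Finite A'] (h : HSeq f' g' f g f'' g'' i p) (hfg : f.comp g = 0)
    (hgf : g.comp f = 0) {a b : ℕ} (h'' : HQ f'' g'' a b) : HQ f g a b := by
  obtain ⟨y1, y2, y3⟩ := h''
  obtain ⟨z1, z2⟩ := (hq_ne_zero_iff_of_finite_left h hfg hgf).2 ⟨y1, y2⟩
  refine ⟨z1, z2, ?_⟩
  have hx := hq_of_finite_left h hfg hgf
  apply Nat.eq_of_mul_eq_mul_right (Nat.pos_of_ne_zero y2)
  calc hq f g * b * hq g'' f'' = (hq f g * hq g'' f'') * b := by ring
    _ = hq g f * (hq f'' g'' * b) := by rw [hx]; ring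
    _ = hq g f * a * hq g'' f'' := by rw [y3]; ring

lemma HQ.of_finite_right [Finite A''] (h : HSeq f' g' f g f'' g'' i p) (hfg : f.comp g = 0)
    (hgf : g.comp f = 0) {a b : ℕ} (h0 : HQ f g a b) : HQ f' g' a b := by
  obtain ⟨y1, y2, y3⟩ := h0
  obtain ⟨z1, z2⟩ := (hq_ne_zero_iff_of_finite_right h hfg hgf).1 ⟨y1, y2⟩
  refine ⟨z1, z2, ?_⟩
  have hx := hq_of_finite_right h hfg hgf
  apply Nat.eq_of_mul_eq_mul_right (Nat.pos_of_ne_zero y2)
  calc hq f' g' * b * hq g f = (hq g f * hq f' g') * b := by ring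
    _ = hq g' f' * (hq f g * b) := by rw [← hx]; ring
    _ = hq g' f' * a * hq g f := by rw [y3]; ring

end HQ

end Herb


/-! ### the Herbrand quotient for multiplication by `m` -/

namespace Herb

variable {A' A A'' : Type*} [AddCommGroup A'] [AddCommGroup A] [AddCommGroup A'']

/-- an exact sequence is equivariant for `0` and multiplication by `m` -/
lemma hseq_m {i : A' →+ A} {p : A →+ A''} (inj : Function.Injective i)
    (surj : Function.Surjective p) (exact : i.range = p.ker) (m : ℕ) :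
    HSeq (0 : A' →+ A') (nsmulAddMonoidHom m) (0 : A →+ A) (nsmulAddMonoidHom m)
      (0 : A'' →+ A'') (nsmulAddMonoidHom m) i p where
  inj := inj
  surj := surj
  exact := exact
  i_f _ := by simp
  i_g _ := by simp
  p_f _ := by simp
  p_g _ := by simp

lemma hq_zero_m (m : ℕ) : hq (0 : A →+ A) (nsmulAddMonoidHom m) =
    (nsmulAddMonoidHom m : A →+ A).range.index := by
  unfold hq
  rw [AddMonoidHom.ker_zero, AddSubgroup.relIndex_top_right]

lemma hq_m_zero (m : ℕ) : hq (nsmulAddMonoidHom m) (0 : A →+ A) =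
    Nat.card (nsmulAddMonoidHom m : A →+ A).ker := by
  unfold hq
  rw [AddMonoidHom.range_zero, AddSubgroup.relIndex_bot_left]

lemma hq_zero_m_pi (X : Type*) [Fintype X] (m : ℕ) :
    hq (0 : (X → ℤ) →+ (X → ℤ)) (nsmulAddMonoidHom m) = m ^ Fintype.card X := by
  rw [hq_zero_m]
  have : (nsmulAddMonoidHom m : (X → ℤ) →+ (X → ℤ)).range =
      AddSubgroup.pi Set.univ (fun _ : X => AddSubgroup.zmultiples (m : ℤ)) := by
    ext φ
    constructor
    · rintro ⟨ψ, rfl⟩ x _
      show _ ∈ AddSubgroup.zmultiples (m : ℤ)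
      rw [AddSubgroup.mem_zmultiples_iff]
      exact ⟨ψ x, by simp [mul_comm]⟩
    · intro h
      have h' : ∀ x, ∃ c : ℤ, c • (m : ℤ) = φ x := fun x =>
        AddSubgroup.mem_zmultiples_iff.1 (h x trivial)
      choose c hc using h'
      refine ⟨c, ?_⟩
      ext x
      rw [← hc]
      simp [mul_comm]
  rw [this, AddSubgroup.index_pi]
  simp [Int.index_zmultiples]

lemma hq_m_zero_pi (X : Type*) (m : ℕ) (hm : 0 < m) :
    hq (nsmulAddMonoidHom m) (0 : (X → ℤ) →+ (X → ℤ)) = 1 := by
  rw [hq_m_zero]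
  have : (nsmulAddMonoidHom m : (X → ℤ) →+ (X → ℤ)).ker = ⊥ := by
    rw [AddSubgroup.eq_bot_iff_forall]
    intro φ hφ
    ext x
    have := congrFun (AddMonoidHom.mem_ker.1 hφ) x
    simp only [nsmulAddMonoidHom_apply, Pi.smul_apply, nsmul_eq_mul, Pi.zero_apply,
      mul_eq_zero] at this
    rcases this with h | h
    · exact absurd (by exact_mod_cast h) hm.ne'
    · exact h
  rw [this]
  simp

end Herb

open Herb

variable (L : Type*) [Field L] [NumberField L]

/-! ### the orders at a set of primes -/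

/-- the orders at the primes of `T` -/
noncomputable def ordT (T : Set (Pl L)) : Additive Lˣ →+ (T → ℤ) where
  toFun b w := ord (w : Pl L) ((Additive.toMul b : Lˣ) : L)
  map_zero' := by
    ext w
    simp [ord_one]
  map_add' a b := by
    ext w
    simp [ord_mul]

lemma ordT_apply (T : Set (Pl L)) (b : Additive Lˣ) (w : T) :
    ordT L T b w = ord (w : Pl L) ((Additive.toMul b : Lˣ) : L) := rfl

lemma ordT_eq_zero_iff (T : Set (Pl L)) {x : Additive Lˣ} (hx : x ∈ unitA L T) :
    ordT L T x = 0 ↔ ∃ u, incU L u = x := by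
  constructor
  · intro h
    apply exists_incU_eq L (T := ∅) (fun _ => id)
    rw [mem_unitA_iff] at hx ⊢
    intro w _
    by_cases hw : w ∈ T
    · exact congrFun h ⟨w, hw⟩
    · exact hx w hw
  · rintro ⟨u, rfl⟩
    ext w
    rw [ordT_apply, incU_apply]
    exact ord_unit_eq_zero _ _

lemma ordT_index (T : Set (Pl L)) [Finite T] :
    ((ordT L T).comp (unitA L T).subtype).range.index ≠ 0 := by
  classical
  cases nonempty_fintype T
  have h1 : ∀ w : T, ∃ h : ℕ, 0 < h ∧ ∃ a : Lˣ, h • (Finsupp.single (w : Pl L) (1 : ℤ)) = dv (a : L) :=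
    fun w => exists_nsmul_eq_dv _
  choose h hpos a ha using h1
  have hord : ∀ (w : T) (v : Pl L), ord v (a w : L) = if v = w then (h w : ℤ) else 0 := by
    intro w v
    rw [← dv_apply, ← ha w]
    simp only [Finsupp.coe_smul, Pi.smul_apply, Finsupp.single_apply, nsmul_eq_mul]
    split_ifs with h1 h2 h2
    · simp
    · exact absurd h1.symm h2
    · exact absurd h2.symm h1
    · simp
  have hmem : ∀ w : T, Additive.ofMul (a w) ∈ unitA L T := by
    intro w
    rw [mem_unitA_iff]
    intro v hv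
    show ord v (a w : L) = 0
    rw [hord, if_neg]
    rintro rfl
    exact hv w.2
  have hval : ∀ w : T, ordT L T (Additive.ofMul (a w)) = Pi.single w (h w : ℤ) := by
    intro w
    ext v
    rw [ordT_apply, Pi.single_apply]
    show ord (v : Pl L) (a w : L) = _
    rw [hord]
    simp only [Subtype.ext_iff]
  have hle : AddSubgroup.pi Set.univ (fun w : T => AddSubgroup.zmultiples (h w : ℤ)) ≤
      ((ordT L T).comp (unitA L T).subtype).range := by
    intro ψ hψ
    have h' : ∀ w, ∃ c : ℤ, c • (h w : ℤ) = ψ w := fun w =>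
      AddSubgroup.mem_zmultiples_iff.1 (hψ w trivial)
    choose c hc using h'
    have : ψ = ∑ w, c w • (Pi.single w (h w : ℤ) : T → ℤ) := by
      ext v
      rw [Finset.sum_apply]
      simp only [Pi.smul_apply, Pi.single_apply, smul_eq_mul, mul_ite, mul_zero]
      rw [Finset.sum_ite_eq]
      simp [← hc]
    rw [this]
    refine sum_mem fun w _ => zsmul_mem ?_ _
    exact ⟨⟨_, hmem w⟩, hval w⟩
  have hidx : (AddSubgroup.pi Set.univ (fun w : T => AddSubgroup.zmultiples (h w : ℤ))).index ≠ 0 := by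
    rw [AddSubgroup.index_pi]
    simp only [Int.index_zmultiples, Int.natAbs_natCast]
    exact Finset.prod_ne_zero_iff.2 fun w _ => (hpos w).ne'
  exact ne_zero_of_dvd_ne_zero hidx (AddSubgroup.index_dvd_of_le hle)


/-- `K ∋ μ_ℓ`, `ℓ` odd, forces `K` to be totally complex -/
theorem HasMu.isTotallyComplex {ℓ : ℕ} (hℓ : ℓ.Prime) (h2 : ℓ ≠ 2) {K : Type*} [Field K] [NumberField K]
    (h : HasMu ℓ K) : IsTotallyComplex K := by
  obtain ⟨ζ, hζ⟩ := h
  refine ⟨fun v => ?_⟩
  rw [← InfinitePlace.not_isReal_iff_isComplex]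
  intro hv
  have h1 : ComplexEmbedding.IsReal v.embedding := (InfinitePlace.isReal_iff).1 hv
  have h3 : IsPrimitiveRoot (v.embedding ζ) ℓ := hζ.map_of_injective v.embedding.injective
  have h4 : (starRingEnd ℂ) (v.embedding ζ) = v.embedding ζ := RingHom.congr_fun h1 ζ
  have h5 : ‖v.embedding ζ‖ = 1 := Complex.norm_eq_one_of_pow_eq_one h3.pow_eq_one hℓ.ne_zero
  have h6 : (v.embedding ζ) ^ 2 = 1 := by
    have := Complex.mul_conj (v.embedding ζ)
    rw [h4, Complex.normSq_eq_norm_sq, h5] at this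
    rw [sq, this]
    simp
  have h7 : ℓ ∣ 2 := h3.dvd_of_pow_eq_one 2 h6
  exact h2 ((Nat.prime_dvd_prime_iff_eq hℓ Nat.prime_two).1 h7)

variable (K : Type*) [Field K] [NumberField K] (L : Type*) [Field L] [NumberField L] [Algebra K L]

/-- an element of `Kˣ` whose `m`-th power is an `S`-unit is an `S`-unit -/
theorem unit_pow_mem (m : ℕ) (hm : 0 < m) (S : Set (Pl K)) (b : Kˣ) (h : b ^ m ∈ S.unit K) :
    b ∈ S.unit K := by
  rw [mem_unit_iff] at h ⊢
  intro v hv
  have h1 := h v hv
  rw [Units.val_pow_eq_pow_val, ord_pow] at h1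
  rcases mul_eq_zero.1 h1 with h2 | h2
  · exact absurd (by exact_mod_cast h2) hm.ne'
  · exact h2


/-! ### 2.10 -/

namespace Herb

lemma HQ_pi (X : Type*) [Finite X] (m : ℕ) (hm : 0 < m) :
    HQ (0 : (X → ℤ) →+ (X → ℤ)) (nsmulAddMonoidHom m) (m ^ Nat.card X) 1 := by
  cases nonempty_fintype X
  rw [Nat.card_eq_fintype_card]
  refine ⟨?_, ?_, ?_⟩
  · rw [hq_zero_m_pi]
    positivity
  · rw [hq_m_zero_pi X m hm]
    exact one_ne_zero
  · rw [hq_zero_m_pi, hq_m_zero_pi X m hm]
    ring

lemma HQ_sub_of_index {A : Type*} [AddCommGroup A] (B : AddSubgroup A) (hB : B.index ≠ 0) (m : ℕ)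
    {a b : ℕ} (h : HQ (0 : A →+ A) (nsmulAddMonoidHom m) a b) :
    HQ (0 : B →+ B) (nsmulAddMonoidHom m) a b := by
  have : B.FiniteIndex := ⟨hB⟩
  have : Finite (A ⧸ B) := AddSubgroup.finite_quotient_of_finiteIndex
  exact HQ.of_finite_right (hseq_m B.subtype_injective (QuotientAddGroup.mk'_surjective B)
    (by rw [AddSubgroup.range_subtype, QuotientAddGroup.ker_mk']) m) (by simp) (by simp) h

end Herb

section quot

lemma logEmbedding_mem (x : Additive (𝓞 K)ˣ) : Units.logEmbedding K x ∈ Units.unitLattice K :=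
  ⟨x, trivial, rfl⟩

/-- the projection of the global units onto `ℤ^r` -/
noncomputable def unitsToPi : Additive (𝓞 K)ˣ →+ (Fin (Units.rank K) → ℤ) :=
  ((Units.basisUnitLattice K).equivFun.toLinearMap.toAddMonoidHom).comp
    ((Units.logEmbedding K).codRestrict (Units.unitLattice K) (logEmbedding_mem K))

lemma unitsToPi_surjective : Function.Surjective (unitsToPi K) := by
  intro φ
  obtain ⟨⟨_, x, _, rfl⟩, hy⟩ := (Units.basisUnitLattice K).equivFun.surjective φ
  exact ⟨x, hy⟩

lemma unitsToPi_ker_finite : Finite (unitsToPi K).ker := by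
  have h : ∀ x : (unitsToPi K).ker, Additive.toMul (x : Additive (𝓞 K)ˣ) ∈ Units.torsion K := by
    intro x
    have h1 : (Units.basisUnitLattice K).equivFun
        ((Units.logEmbedding K).codRestrict (Units.unitLattice K) (logEmbedding_mem K)
          (x : Additive (𝓞 K)ˣ)) = 0 := x.2
    rw [LinearEquiv.map_eq_zero_iff] at h1
    exact Units.dirichletUnitTheorem.logEmbedding_eq_zero_iff.1 (congrArg Subtype.val h1)
  exact Finite.of_injective (fun x : (unitsToPi K).ker =>
    (⟨Additive.toMul (x : Additive (𝓞 K)ˣ), h x⟩ : Units.torsion K)) (fun a b hab => by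
      apply Subtype.ext
      exact Additive.toMul.injective (congrArg (fun z : Units.torsion K => (z : (𝓞 K)ˣ)) hab))

lemma HQ_units (m : ℕ) (hm : 0 < m) :
    HQ (0 : Additive (𝓞 K)ˣ →+ Additive (𝓞 K)ˣ) (nsmulAddMonoidHom m) (m ^ Units.rank K) 1 := by
  have := unitsToPi_ker_finite K
  have h := HQ_pi (Fin (Units.rank K)) m hm
  rw [Nat.card_eq_fintype_card, Fintype.card_fin] at h
  exact HQ.of_finite_left (hseq_m (i := (unitsToPi K).ker.subtype) (p := unitsToPi K)
    (AddSubgroup.subtype_injective _) (unitsToPi_surjective K) (AddSubgroup.range_subtype _) m)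
    (by simp) (by simp) h

lemma HQ_unitA (T : Set (Pl K)) [Finite T] (m : ℕ) (hm : 0 < m) :
    HQ (0 : unitA K T →+ unitA K T) (nsmulAddMonoidHom m)
      (m ^ Units.rank K * m ^ Nat.card T) (1 * 1) := by
  refine HQ.mid (i := (incU K).codRestrict (unitA K T) (incU_mem K T))
    (p := ((ordT K T).comp (unitA K T).subtype).rangeRestrict) (hseq_m ?_ ?_ ?_ m) (by simp)
    (by simp) (HQ_units K m hm) (HQ_sub_of_index _ (ordT_index K T) m (HQ_pi T m hm))
  · intro a b hab
    exact incU_injective K (congrArg Subtype.val hab)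
  · exact AddMonoidHom.rangeRestrict_surjective _
  · ext x
    rw [AddMonoidHom.mem_ker, AddMonoidHom.mem_range]
    constructor
    · rintro ⟨u, rfl⟩
      apply Subtype.ext
      exact (ordT_eq_zero_iff K T (incU_mem K T u)).2 ⟨u, rfl⟩
    · intro h
      obtain ⟨u, hu⟩ := (ordT_eq_zero_iff K T x.2).1 (congrArg Subtype.val h)
      exact ⟨u, Subtype.ext hu⟩

lemma card_ker_nsmul_unitA (T : Set (Pl K)) (m : ℕ) (hm : 0 < m)
    (hμ : ∃ ζ : K, IsPrimitiveRoot ζ m) :
    Nat.card (nsmulAddMonoidHom m : unitA K T →+ unitA K T).ker = m := by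
  obtain ⟨ζ, hζ⟩ := hμ
  have : NeZero m := ⟨hm.ne'⟩
  refine Eq.trans ?_ hζ.card_rootsOfUnity
  refine Nat.card_congr
    { toFun := fun x => ⟨Additive.toMul ((x : unitA K T) : Additive Kˣ), ?_⟩
      invFun := fun z => ⟨⟨Additive.ofMul (z : Kˣ), ?_⟩, ?_⟩
      left_inv := fun x => rfl
      right_inv := fun z => rfl }
  · rw [mem_rootsOfUnity]
    have := congrArg (fun y : unitA K T => Additive.toMul (y : Additive Kˣ)) x.2
    exact this
  · apply unit_pow_mem K m hm T (z : Kˣ)
    rw [(mem_rootsOfUnity _ _).1 z.2]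
    exact one_mem _
  · apply Subtype.ext
    exact congrArg Additive.ofMul ((mem_rootsOfUnity _ _).1 z.2)

lemma index_range_nsmul_unitA (T : Set (Pl K)) (m : ℕ) (hm : 0 < m) :
    (nsmulAddMonoidHom m : unitA K T →+ unitA K T).range.index =
      ((powMonoidHom m : Kˣ →* Kˣ).range).relIndex (T.unit K) := by
  rw [← Subgroup.relIndex_toAddSubgroup, ← AddSubgroup.inf_relIndex_right,
    ← AddSubgroup.relIndex_top_right,
    ← AddSubgroup.relIndex_map_map_of_injective _ _ (unitA K T).subtype_injective,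
    ← AddMonoidHom.range_eq_map, AddSubgroup.range_subtype]
  congr 1
  ext x
  constructor
  · rintro ⟨_, ⟨y, rfl⟩, rfl⟩
    exact ⟨⟨Additive.toMul (y : Additive Kˣ), rfl⟩, (m • y).2⟩
  · rintro ⟨⟨y, hy⟩, hx⟩
    have hy' : y ^ m = Additive.toMul x := hy
    have h1 : y ∈ T.unit K := unit_pow_mem K m hm T y (by rw [hy']; exact hx)
    exact ⟨_, ⟨⟨Additive.ofMul y, h1⟩, rfl⟩, congrArg Additive.ofMul hy'⟩

end quot

/-- Blueprint 2.10 -/
theorem card_unit_quot [IsTotallyComplex K] (m : ℕ) (hμ : ∃ ζ : K, IsPrimitiveRoot ζ m) (hm : 0 < m)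
    (S : Finset (Pl K)) :
    ((powMonoidHom m : Kˣ →* Kˣ).range).relIndex ((S : Set (Pl K)).unit K)
      = m ^ (S.card + InfinitePlace.nrComplexPlaces K) := by
  obtain ⟨-, -, h⟩ := HQ_unitA K (S : Set (Pl K)) m hm
  rw [hq_zero_m, hq_m_zero, card_ker_nsmul_unitA K _ m hm hμ, index_range_nsmul_unitA K _ m hm] at h
  have h1 : Units.rank K + 1 = InfinitePlace.nrComplexPlaces K := by
    have h2 := InfinitePlace.card_eq_nrRealPlaces_add_nrComplexPlaces K
    rw [IsTotallyComplex.nrRealPlaces_eq_zero K, zero_add] at h2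
    have h3 : 0 < Fintype.card (InfinitePlace K) := Fintype.card_pos
    unfold Units.rank
    omega
  have h4 : Nat.card (S : Set (Pl K)) = S.card := by simp
  rw [h4] at h
  rw [← h1]
  calc _ = _ := (by ring : _ = _ * (1 * 1))
    _ = _ := h
    _ = _ := by ring

/-! ### 2.7 - 2.9 -/

lemma card_mul_period {G : Type*} [Group G] [Finite G] (σ : G)
    (hσ : ∀ τ, τ ∈ Subgroup.zpowers σ) (H : Subgroup G) (l : ℕ)
    (hl : ∀ i : ℕ, σ ^ i ∈ H ↔ l ∣ i) : Nat.card G = Nat.card H * l := by
  have hn : orderOf σ = Nat.card G := orderOf_eq_card_of_forall_mem_zpowers hσ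
  have hln : l ∣ Nat.card G := (hl _).1 (by rw [pow_card_eq_one']; exact one_mem _)
  have hl0 : l ≠ 0 := by
    rintro rfl
    exact Nat.card_pos.ne' (Nat.eq_zero_of_zero_dvd hln)
  have hH : H = Subgroup.zpowers (σ ^ l) := by
    apply le_antisymm
    · intro τ hτ
      obtain ⟨k, rfl⟩ := (isOfFinOrder_of_finite σ).mem_powers_iff_mem_zpowers.2 (hσ τ)
      obtain ⟨c, rfl⟩ := (hl k).1 hτ
      show σ ^ (l * c) ∈ _
      rw [pow_mul]
      exact Subgroup.pow_mem _ (Subgroup.mem_zpowers _) _
    · rw [Subgroup.zpowers_le]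
      exact (hl l).2 dvd_rfl
  rw [hH, Nat.card_zpowers, orderOf_pow' _ hl0, hn, Nat.gcd_eq_right hln, Nat.div_mul_cancel hln]

lemma exists_pow_eq_of_generator {G : Type*} [Group G] [Finite G] {σ : G}
    (hσ : ∀ τ, τ ∈ Subgroup.zpowers σ) (τ : G) : ∃ k : ℕ, σ ^ k = τ :=
  (isOfFinOrder_of_finite σ).mem_powers_iff_mem_zpowers.2 (hσ τ)

lemma prod_range_pow_eq_prod_univ {G M : Type*} [Group G] [Fintype G] [CommMonoid M] (σ : G)
    (hσ : ∀ τ, τ ∈ Subgroup.zpowers σ) (F : G → M) :
    ∏ i ∈ Finset.range (orderOf σ), F (σ ^ i) = ∏ τ, F τ := by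
  classical
  have huniv : (Finset.univ : Finset G) = (Finset.range (orderOf σ)).image (σ ^ ·) := by
    ext τ
    simp only [Finset.mem_univ, true_iff]
    exact (isOfFinOrder_of_finite σ).mem_zpowers_iff_mem_range_orderOf.1 (hσ τ)
  rw [huniv, Finset.prod_image]
  intro i hi j hj hij
  exact pow_injOn_Iio_orderOf (by simpa using hi) (by simpa using hj) hij

/-- Hilbert 90 for cyclic extensions (universe polymorphic) -/
theorem hilbert90_cyclic {K L : Type*} [Field K] [Field L] [Algebra K L] [FiniteDimensional K L]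
    [IsGalois K L] (σ : Gal(L/K)) (hσ : ∀ τ, τ ∈ Subgroup.zpowers σ) {b : L}
    (hb : Algebra.norm K b = 1) : ∃ y : Lˣ, (y : L) / σ (y : L) = b := by
  classical
  set n := orderOf σ with hn
  have hn0 : 0 < n := orderOf_pos σ
  let c : ℕ → L := fun i => ∏ j ∈ Finset.range i, (σ ^ j) b
  have hc0 : c 0 = 1 := by simp [c]
  have hcs : ∀ i, c (i + 1) = b * σ (c i) := by
    intro i
    simp only [c]
    rw [Finset.prod_range_succ', map_prod, mul_comm]
    congr 1
    refine Finset.prod_congr rfl fun k _ => ?_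
    rw [pow_succ', AlgEquiv.mul_apply]
  have hcn : c n = 1 := by
    simp only [c]
    rw [prod_range_pow_eq_prod_univ σ hσ (fun τ => τ b), ← Algebra.norm_eq_prod_automorphisms, hb,
      map_one]
  have hex : ∃ z : L, ∑ i ∈ Finset.range n, c i * (σ ^ i) z ≠ 0 := by
    by_contra hcon
    push Not at hcon
    have hli : LinearIndependent L (fun i : Fin n => (((σ ^ (i : ℕ) : Gal(L/K)) : L → L))) := by
      have h1 := linearIndependent_monoidHom L L
      have h2 := h1.comp (fun i : Fin n => (((σ ^ (i : ℕ) : Gal(L/K)) : L →+* L) : L →* L)) (by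
        intro i j hij
        apply Fin.ext
        apply pow_injOn_Iio_orderOf (x := σ) i.2 j.2
        ext x
        exact DFunLike.congr_fun hij x)
      exact h2
    rw [Fintype.linearIndependent_iff] at hli
    have h3 := hli (fun i => c i) (by
      ext z
      rw [Finset.sum_apply]
      have := hcon z
      rw [Finset.sum_range] at this
      simpa using this) ⟨0, hn0⟩
    simp only [hc0] at h3
    exact one_ne_zero h3
  obtain ⟨z, hz⟩ := hex
  have hkey : b * σ (∑ i ∈ Finset.range n, c i * (σ ^ i) z) =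
      ∑ i ∈ Finset.range n, c i * (σ ^ i) z := by
    rw [map_sum, Finset.mul_sum]
    have h1 : ∀ i ∈ Finset.range n, b * σ (c i * (σ ^ i) z) = c (i + 1) * (σ ^ (i + 1)) z := by
      intro i _
      rw [map_mul, hcs, pow_succ', AlgEquiv.mul_apply, mul_assoc]
    rw [Finset.sum_congr rfl h1]
    have h2 := Finset.sum_range_succ' (fun i => c i * (σ ^ i) z) n
    have h3 := Finset.sum_range_succ (fun i => c i * (σ ^ i) z) n
    rw [h3] at h2
    have h5 : σ ^ n = 1 := pow_orderOf_eq_one σ
    rw [hcn, hc0, h5, pow_zero] at h2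
    exact (add_right_cancel h2).symm
  refine ⟨Units.mk0 _ hz, ?_⟩
  rw [Units.val_mk0]
  have h4 : σ (∑ i ∈ Finset.range n, c i * (σ ^ i) z) ≠ 0 := by
    rw [Ne, EmbeddingLike.map_eq_zero_iff]
    exact hz
  rw [div_eq_iff h4]
  exact hkey.symm

section index

variable {K L}
variable [IsGalois K L]

/-- the permutation of the primes above `S` induced by `σ` -/
noncomputable def permT (S : Set (Pl K)) (σ : Gal(L/K)) : Equiv.Perm (above K L S) where
  toFun w := ⟨σ • w.1, by rw [mem_above_iff, below_smul]; exact w.2⟩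
  invFun w := ⟨σ⁻¹ • w.1, by rw [mem_above_iff, below_smul]; exact w.2⟩
  left_inv w := Subtype.ext (inv_smul_smul σ w.1)
  right_inv w := Subtype.ext (smul_inv_smul σ w.1)

lemma permT_pow (S : Set (Pl K)) (σ : Gal(L/K)) (i : ℕ) (w : above K L S) :
    ((((permT S σ) ^ i) w : above K L S) : Pl L) = σ ^ i • (w : Pl L) := by
  induction i with
  | zero => simp
  | succ i ih =>
    rw [pow_succ', Equiv.Perm.mul_apply, pow_succ', mul_smul, ← ih]
    rfl

lemma ordT_actU (S : Set (Pl K)) (σ : Gal(L/K)) (x : Additive Lˣ) :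
    ordT L (above K L S) (actU σ x) = permE ℤ (permT S σ) (ordT L (above K L S) x) := by
  ext w
  rw [permE_apply, ordT_apply, ordT_apply]
  have h2 := ord_smul K L σ (σ⁻¹ • (w : Pl L)) ((Additive.toMul x : Lˣ) : L)
  rw [smul_inv_smul] at h2
  exact h2

lemma HQ_permT (S : Finset (Pl K)) (σ : Gal(L/K)) (hσ : ∀ τ, τ ∈ Subgroup.zpowers σ) :
    HQ (dlt (permE ℤ (permT (S : Set (Pl K)) σ)))
      (nrm (permE ℤ (permT (S : Set (Pl K)) σ)) (Module.finrank K L))
      (∏ v ∈ S, nloc K L v) 1 := by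
  classical
  have hn0 : 0 < Module.finrank K L := Module.finrank_pos
  have hcard : Nat.card Gal(L/K) = Module.finrank K L := IsGalois.card_aut_eq_finrank K L
  have hfin : Finite (above K L (S : Set (Pl K))) := (above_finite K L S.finite_toSet).to_subtype
  have hp : (permT (S : Set (Pl K)) σ) ^ Module.finrank K L = 1 := by
    ext w
    rw [permT_pow, ← hcard, pow_card_eq_one', one_smul]
    rfl
  have e1 := h1_perm (permT (S : Set (Pl K)) σ) _ hn0 hp
  choose l hl using fun x => perm_exists_period (permT (S : Set (Pl K)) σ) x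
  have e0 := h0_perm_fib (permT (S : Set (Pl K)) σ) _ hn0
    (fun w => (⟨below K L w.1, w.2⟩ : S))
    (by
      rintro ⟨v, hv⟩
      obtain ⟨w, hw⟩ := exists_above K L v
      exact ⟨⟨w, by rw [mem_above_iff, hw]; exact hv⟩, Subtype.ext hw⟩)
    (by
      intro x z
      constructor
      · intro h
        obtain ⟨τ, hτ⟩ := exists_smul_eq K L (congrArg Subtype.val h)
        obtain ⟨k, rfl⟩ := exists_pow_eq_of_generator hσ τ
        exact ⟨(k : ℤ), by
          rw [zpow_natCast]
          exact Subtype.ext (by rw [permT_pow]; exact hτ)⟩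
      · intro h
        obtain ⟨i, rfl⟩ := h.exists_nat_pow_eq
        apply Subtype.ext
        show below K L x.1 = below K L _
        rw [permT_pow, below_smul])
    (fun v => nloc K L v) l hl
    (by
      intro x
      show _ = nloc K L (below K L x.1) * l x
      rw [nloc_eq, ← stabilizer_pl_eq, ← hcard]
      apply card_mul_period σ hσ
      intro i
      rw [← hl x i, MulAction.mem_stabilizer_iff, ← permT_pow, Subtype.ext_iff])
  rw [Finset.prod_coe_sort S (fun v => nloc K L v)] at e0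
  refine ⟨?_, ?_, ?_⟩
  · show h0 _ _ ≠ 0
    rw [e0]
    exact Finset.prod_ne_zero_iff.2 fun v _ => (nloc_pos K L v).ne'
  · show h1 _ _ ≠ 0
    rw [e1]
    exact one_ne_zero
  · show h0 _ _ * 1 = h1 _ _ * _
    rw [e0, e1]
    ring

lemma resE_actU_iterate (S : Set (Pl K)) (σ : Gal(L/K))
    (x : unitA L (above K L S)) :
    ((resE (unitA L (above K L S)) (actU σ) (stable_unitA K L S σ))^[Module.finrank K L]) x = x := by
  apply Subtype.ext
  rw [p2a_resE_iter, actU_iterate, ← IsGalois.card_aut_eq_finrank K L, pow_card_eq_one', actU_one]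

lemma HQ_unitA_cyc [IsTotallyComplex K] (S : Finset (Pl K)) (σ : Gal(L/K))
    (hσ : ∀ τ, τ ∈ Subgroup.zpowers σ) :
    HQ (dlt (resE (unitA L (above K L (S : Set (Pl K)))) (actU σ) (stable_unitA K L S σ)))
      (nrm (resE (unitA L (above K L (S : Set (Pl K)))) (actU σ) (stable_unitA K L S σ))
        (Module.finrank K L))
      (1 * ∏ v ∈ S, nloc K L v) (Module.finrank K L * 1) := by
  have hn0 : 0 < Module.finrank K L := Module.finrank_pos
  have hcard : Nat.card Gal(L/K) = Module.finrank K L := IsGalois.card_aut_eq_finrank K L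
  have hfin : Finite (above K L (S : Set (Pl K))) := (above_finite K L S.finite_toSet).to_subtype
  have hp : (permT (S : Set (Pl K)) σ) ^ Module.finrank K L = 1 := by
    ext w
    rw [permT_pow, ← hcard, pow_card_eq_one', one_smul]
    rfl
  have hφ : ∀ x, ((ordT L (above K L (S : Set (Pl K)))).comp
      (unitA L (above K L (S : Set (Pl K)))).subtype)
      (resE (unitA L (above K L (S : Set (Pl K)))) (actU σ) (stable_unitA K L S σ) x) =
      permE ℤ (permT (S : Set (Pl K)) σ) (((ordT L (above K L (S : Set (Pl K)))).comp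
      (unitA L (above K L (S : Set (Pl K)))).subtype) x) := fun x => ordT_actU _ σ x
  have hst := stable_range _ hφ
  have hs : ∀ x, ((permE ℤ (permT (S : Set (Pl K)) σ))^[Module.finrank K L]) x = x := by
    intro x
    rw [p2a_permE_iter, hp, p2a_permE_one]
  have hΛ : HQ (dlt (resE _ (permE ℤ (permT (S : Set (Pl K)) σ)) hst))
      (nrm (resE _ (permE ℤ (permT (S : Set (Pl K)) σ)) hst) (Module.finrank K L))
      (∏ v ∈ S, nloc K L v) 1 := by
    have : (((ordT L (above K L (S : Set (Pl K)))).comp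
      (unitA L (above K L (S : Set (Pl K)))).subtype).range).FiniteIndex := ⟨ordT_index L _⟩
    have : Finite ((above K L (S : Set (Pl K)) → ℤ) ⧸ ((ordT L (above K L (S : Set (Pl K)))).comp
      (unitA L (above K L (S : Set (Pl K)))).subtype).range) :=
      AddSubgroup.finite_quotient_of_finiteIndex
    exact HQ.of_finite_right (hseq_cyc (s' := resE _ _ hst)
      (s := permE ℤ (permT (S : Set (Pl K)) σ)) (s'' := quoE _ _ hst)
      (i := AddSubgroup.subtype _) (p := QuotientAddGroup.mk' _)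
      (AddSubgroup.subtype_injective _) (QuotientAddGroup.mk'_surjective _)
      (by rw [AddSubgroup.range_subtype, QuotientAddGroup.ker_mk'])
      (fun _ => rfl) (fun _ => rfl) _) (dlt_comp_nrm _ _ hs) (nrm_comp_dlt _ _ hs)
      (HQ_permT S σ hσ)
  have hU : HQ (dlt (resE (unitA L (above K L ∅)) (actU σ) (stable_unitA K L ∅ σ)))
      (nrm (resE (unitA L (above K L ∅)) (actU σ) (stable_unitA K L ∅ σ)) (Module.finrank K L))
      1 (Module.finrank K L) := by
    obtain ⟨b0, b1⟩ := units_herbrand K L σ hσ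
    refine ⟨b0, ?_, ?_⟩
    · show h1 _ _ ≠ 0
      rw [← b1]
      exact Nat.mul_ne_zero b0 hn0.ne'
    · show h0 _ _ * _ = h1 _ _ * 1
      rw [b1, mul_one]
  have hT : ∀ w : Pl L, w ∉ above K L (∅ : Set (Pl K)) := fun w hw => hw
  have hle : unitA L (above K L ∅) ≤ unitA L (above K L (S : Set (Pl K))) := by
    intro x hx
    rw [mem_unitA_iff] at hx ⊢
    exact fun w _ => hx w (hT w)
  refine HQ.mid (hseq_cyc (s' := resE (unitA L (above K L ∅)) (actU σ) (stable_unitA K L ∅ σ))
    (s := resE (unitA L (above K L (S : Set (Pl K)))) (actU σ) (stable_unitA K L S σ))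
    (s'' := resE _ _ hst) (i := AddSubgroup.inclusion hle)
    (p := AddMonoidHom.rangeRestrict _) (AddSubgroup.inclusion_injective hle)
    (AddMonoidHom.rangeRestrict_surjective _) ?_ (fun _ => rfl) (fun x => Subtype.ext (hφ x)) _)
    (dlt_comp_nrm _ _ (resE_actU_iterate _ σ)) (nrm_comp_dlt _ _ (resE_actU_iterate _ σ)) hU hΛ
  ext x
  rw [AddMonoidHom.mem_ker, AddMonoidHom.mem_range]
  constructor
  · rintro ⟨u, rfl⟩
    apply Subtype.ext
    obtain ⟨u', hu'⟩ := exists_incU_eq L hT u.2
    exact (ordT_eq_zero_iff L _ (hle u.2)).2 ⟨u', hu'⟩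
  · intro h
    obtain ⟨u, hu⟩ := (ordT_eq_zero_iff L _ x.2).1 (congrArg Subtype.val h)
    exact ⟨⟨incU L u, incU_mem L _ u⟩, Subtype.ext hu⟩

variable (K L) in
/-- the inclusion `Kˣ → Lˣ` -/
noncomputable def incKL : Additive Kˣ →+ Additive Lˣ :=
  MonoidHom.toAdditive (Units.map ((algebraMap K L : K →+* L) : K →* L))

lemma incKL_apply (a : Additive Kˣ) :
    ((Additive.toMul (incKL K L a) : Lˣ) : L) = algebraMap K L ((Additive.toMul a : Kˣ) : K) := rfl

variable (K L) in
lemma incKL_injective : Function.Injective (incKL K L) := by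
  intro a b h
  have h1 := congrArg (fun x : Additive Lˣ => ((Additive.toMul x : Lˣ) : L)) h
  simp only [incKL_apply] at h1
  exact Additive.toMul.injective (Units.ext ((algebraMap K L).injective h1))

lemma nrm_actU (σ : Gal(L/K)) (hσ : ∀ τ, τ ∈ Subgroup.zpowers σ) (y : Additive Lˣ) :
    nrm (actU σ) (Module.finrank K L) y =
      incKL K L (Additive.ofMul (normU K L (Additive.toMul y))) := by
  classical
  have hord : orderOf σ = Module.finrank K L := by
    rw [orderOf_eq_card_of_forall_mem_zpowers hσ, IsGalois.card_aut_eq_finrank K L]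
  apply Additive.toMul.injective
  apply Units.ext
  rw [incKL_apply]
  show _ = algebraMap K L (Algebra.norm K ((Additive.toMul y : Lˣ) : L))
  rw [Algebra.norm_eq_prod_automorphisms, nrm_apply]
  have h1 : ((Additive.toMul (∑ i ∈ Finset.range (Module.finrank K L), ((actU σ)^[i]) y) : Lˣ) : L)
      = ∏ i ∈ Finset.range (Module.finrank K L), (σ ^ i) ((Additive.toMul y : Lˣ) : L) := by
    rw [toMul_sum, Units.coe_prod]
    refine Finset.prod_congr rfl fun i _ => ?_
    rw [actU_iterate]
    rfl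
  rw [h1, ← hord]
  exact prod_range_pow_eq_prod_univ σ hσ (fun τ => τ ((Additive.toMul y : Lˣ) : L))

lemma h1_unitA [IsCyclic Gal(L/K)] (S : Set (Pl K)) (hram : ∀ v ∉ S, Unram K L v) (hcl : ClS S)
    (σ : Gal(L/K)) (hσ : ∀ τ, τ ∈ Subgroup.zpowers σ) :
    h1 (resE (unitA L (above K L S)) (actU σ) (stable_unitA K L S σ)) (Module.finrank K L) = 1 := by
  unfold h1 hq
  rw [AddSubgroup.relIndex_eq_one]
  intro x hx
  have hx1 : nrm (actU σ) (Module.finrank K L) (x : Additive Lˣ) = 0 := by
    have := congrArg Subtype.val (AddMonoidHom.mem_ker.1 hx)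
    rw [← p2a_resE_nrm] at this
    exact this
  rw [nrm_actU σ hσ] at hx1
  have hx2 : Algebra.norm K ((Additive.toMul (x : Additive Lˣ) : Lˣ) : L) = 1 := by
    have := incKL_injective K L (hx1.trans (map_zero _).symm)
    exact congrArg (fun z : Additive Kˣ => ((Additive.toMul z : Kˣ) : K)) this
  obtain ⟨y, hy⟩ := hilbert90_cyclic σ hσ hx2
  have hb : ∀ w ∉ above K L S, ord w ((Additive.toMul (x : Additive Lˣ) : Lˣ) : L) = 0 :=
    (mem_unitA_iff L _ _).1 x.2
  have hσy : σ (y : L) ≠ 0 := by simp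
  have hinv1 : ∀ w : Pl L, dvS (above K L S) (y : L) (σ • w) = dvS (above K L S) (y : L) w := by
    intro w
    by_cases hw : w ∈ above K L S
    · have hw' : σ • w ∈ above K L S := by
        rw [mem_above_iff, below_smul]
        exact hw
      rw [dvS_apply_of_mem _ _ hw, dvS_apply_of_mem _ _ hw']
    · have hw' : σ • w ∉ above K L S := by
        rw [mem_above_iff, below_smul]
        exact hw
      rw [dvS_apply_of_notMem _ _ hw, dvS_apply_of_notMem _ _ hw']
      have h1 := hb _ hw'
      rw [← hy, ord_div _ y.ne_zero hσy, ord_smul] at h1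
      omega
  have hinv : ∀ (τ : Gal(L/K)) (w : Pl L),
      dvS (above K L S) (y : L) (τ • w) = dvS (above K L S) (y : L) w := by
    intro τ w
    obtain ⟨k, rfl⟩ := exists_pow_eq_of_generator hσ τ
    induction k with
    | zero => simp
    | succ k ih => rw [pow_succ', mul_smul, hinv1, ih]
  obtain ⟨D', hD'⟩ := exists_ext_eq_of_invariant K L (dvS (above K L S) (y : L)) hinv (by
    intro w hw
    apply hram
    intro h
    exact hw (dvS_apply_of_mem _ _ h))
  obtain ⟨a, ha⟩ := hcl D'
  have hz : Additive.ofMul (Units.map ((algebraMap K L : K →+* L) : K →* L) a * y⁻¹) ∈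
      unitA L (above K L S) := by
    rw [mem_unitA_iff]
    intro w hw
    show ord w (algebraMap K L (a : K) * ((y⁻¹ : Lˣ) : L)) = 0
    rw [ord_mul _ (by simp) (by simp), Units.val_inv_eq_inv_val, ord_inv, ord_algebraMap,
      ← ha _ hw, ← ext_apply, hD', dvS_apply_of_notMem _ _ hw]
    ring
  refine ⟨⟨_, hz⟩, ?_⟩
  apply Subtype.ext
  apply Additive.toMul.injective
  apply Units.ext
  rw [← hy]
  show (((Units.map ((σ : L →+* L) : L →* L)
    (Units.map ((algebraMap K L : K →+* L) : K →* L) a * y⁻¹)) /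
    (Units.map ((algebraMap K L : K →+* L) : K →* L) a * y⁻¹) : Lˣ) : L) = _
  rw [Units.val_div_eq_div_val]
  show σ (algebraMap K L (a : K) * ((y⁻¹ : Lˣ) : L)) / (algebraMap K L (a : K) * ((y⁻¹ : Lˣ) : L))
    = _
  have ha0 : algebraMap K L (a : K) ≠ 0 := by simp
  rw [map_mul, AlgEquiv.commutes, Units.val_inv_eq_inv_val, map_inv₀]
  field_simp

lemma h0_unitA (S : Set (Pl K)) (σ : Gal(L/K)) (hσ : ∀ τ, τ ∈ Subgroup.zpowers σ) :
    h0 (resE (unitA L (above K L S)) (actU σ) (stable_unitA K L S σ)) (Module.finrank K L) =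
      (((above K L S).unit L).map (normU K L)).relIndex (S.unit K) := by
  unfold h0 hq
  rw [← Subgroup.relIndex_toAddSubgroup,
    ← AddSubgroup.relIndex_map_map_of_injective _ _ (incKL_injective K L),
    ← AddSubgroup.relIndex_map_map_of_injective (nrm _ _).range (dlt _).ker
      (unitA L (above K L S)).subtype_injective]
  congr 1
  · ext x
    constructor
    · rintro ⟨_, ⟨y, rfl⟩, rfl⟩
      refine ⟨Additive.ofMul (normU K L (Additive.toMul (y : Additive Lˣ))), ⟨_, y.2, rfl⟩, ?_⟩
      rw [← nrm_actU σ hσ, ← p2a_resE_nrm]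
      rfl
    · rintro ⟨_, ⟨y, hy, rfl⟩, rfl⟩
      refine ⟨_, ⟨⟨Additive.ofMul y, hy⟩, rfl⟩, ?_⟩
      rw [← p2a_resE_nrm]
      exact nrm_actU σ hσ _
  · ext x
    constructor
    · rintro ⟨y, hy, rfl⟩
      have h1 : σ ((Additive.toMul (y : Additive Lˣ) : Lˣ) : L) =
          ((Additive.toMul (y : Additive Lˣ) : Lˣ) : L) := by
        have h2 := congrArg Subtype.val (sub_eq_zero.1 (AddMonoidHom.mem_ker.1 hy))
        exact congrArg (fun z : Additive Lˣ => ((Additive.toMul z : Lˣ) : L)) h2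
      have h2 : ∀ τ : Gal(L/K), τ ((Additive.toMul (y : Additive Lˣ) : Lˣ) : L) =
          ((Additive.toMul (y : Additive Lˣ) : Lˣ) : L) := by
        intro τ
        obtain ⟨k, rfl⟩ := exists_pow_eq_of_generator hσ τ
        induction k with
        | zero => simp
        | succ k ih => rw [pow_succ', AlgEquiv.mul_apply, ih, h1]
      obtain ⟨a, ha⟩ := (IsGalois.mem_range_algebraMap_iff_fixed _).2 h2
      have ha0 : a ≠ 0 := by
        rintro rfl
        rw [map_zero] at ha
        exact (Additive.toMul (y : Additive Lˣ) : Lˣ).ne_zero ha.symm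
      refine ⟨Additive.ofMul (Units.mk0 a ha0), ?_, ?_⟩
      · show Units.mk0 a ha0 ∈ S.unit K
        rw [mem_unit_iff]
        intro v hv
        obtain ⟨w, hw⟩ := exists_above K L v
        have h3 := (mem_unitA_iff L _ _).1 y.2 w (by rw [mem_above_iff, hw]; exact hv)
        rw [← ha, ord_algebraMap, hw] at h3
        rcases mul_eq_zero.1 h3 with h4 | h4
        · exact absurd (by exact_mod_cast h4) (eidx_pos K L w).ne'
        · exact h4
      · apply Additive.toMul.injective
        apply Units.ext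
        exact ha
    · rintro ⟨a, ha, rfl⟩
      have hmem : incKL K L a ∈ unitA L (above K L S) := by
        rw [mem_unitA_iff]
        intro w hw
        rw [incKL_apply, ord_algebraMap, (mem_unit_iff S (Additive.toMul a)).1 ha _ hw, mul_zero]
      refine ⟨⟨_, hmem⟩, ?_, rfl⟩
      rw [SetLike.mem_coe, AddMonoidHom.mem_ker, dlt_apply, sub_eq_zero]
      apply Subtype.ext
      apply Additive.toMul.injective
      apply Units.ext
      exact AlgEquiv.commutes σ _

end index

/-- Blueprint 2.9 -/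
theorem unit_index [IsGalois K L] [IsCyclic Gal(L/K)] [IsTotallyComplex K] (S : Finset (Pl K))
    (hram : ∀ v ∉ S, Unram K L v) (hcl : ClS (S : Set (Pl K))) :
    (((above K L (S : Set (Pl K))).unit L).map (normU K L)).relIndex ((S : Set (Pl K)).unit K)
      * Module.finrank K L = ∏ v ∈ S, nloc K L v := by
  obtain ⟨σ, hσ⟩ := IsCyclic.exists_generator (α := Gal(L/K))
  obtain ⟨-, -, h⟩ := HQ_unitA_cyc S σ hσ
  change h0 _ _ * _ = h1 _ _ * _ at h
  rw [h1_unitA _ hram hcl σ hσ, h0_unitA _ σ hσ] at h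
  simpa using h

end Claimed.Agent.R239.CFT
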