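import Claimed.Agent.R239.CFT.I0

/-!
# R239 / CFT : package P3b2 (finite level Hensel), split off `P3a` so that `P3b` can cite it.
Owner helper172.  Contents: `one_add_pow_eq`, `hensel_step`, `powLoc_of_one` (Blueprint 3.1),
`pow_mem_powLoc`, `powLoc_of_residue`, and small facts on `ord v (n : K)`.
-/

set_option autoImplicit false

namespace Claimed.Agent.R239.CFT

open IsDedekindDomain NumberField

variable {K : Type*} [Field K] [NumberField K]

lemma natCast_ne_zero' {n : ℕ} (hn : 0 < n) : (n : K) ≠ 0 := Nat.cast_ne_zero.2 hn.ne'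

lemma val_natCast_le_one (v : Pl K) (n : ℕ) : v.valuation K (n : K) ≤ 1 := by
  have := v.valuation_le_one (K := K) (n : 𝓞 K)
  simpa using this

lemma ord_natCast_nonneg (v : Pl K) (n : ℕ) : 0 ≤ ord v (n : K) := by
  have := ord_nonneg_of_integer v (n : 𝓞 K)
  simpa using this

/-- `(1 + y) ^ n = 1 + n y + y ^ 2 w` with `w` integral at `v` if `y` is. -/
lemma one_add_pow_eq (v : Pl K) {y : K} (hy : v.valuation K y ≤ 1) (n : ℕ) :
    ∃ w : K, v.valuation K w ≤ 1 ∧ (1 + y) ^ n = 1 + n * y + y ^ 2 * w := by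
  induction n with
  | zero => exact ⟨0, by simp, by simp⟩
  | succ n ih =>
    obtain ⟨w, hw, h⟩ := ih
    refine ⟨n + w + w * y, ?_, ?_⟩
    · refine le_trans ((v.valuation K).map_add _ _) (max_le ?_ ?_)
      · exact le_trans ((v.valuation K).map_add _ _) (max_le (val_natCast_le_one v n) hw)
      · rw [map_mul]
        exact mul_le_one' hw hy
    · rw [pow_succ, h]
      push_cast
      ring

/-- one step of the Newton iteration for `X ^ n = u` at finite level -/
lemma hensel_step (n : ℕ) (hn : 0 < n) (v : Pl K) {M : ℕ}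
    (hM : 2 * (ord v (n : K)).toNat + 1 ≤ M) {u : K} (hu : One v M u) :
    ∃ c : Kˣ, One v (M + 1) (u / (c : K) ^ n) := by
  set t := (ord v (n : K)).toNat with ht
  have hn0 : (n : K) ≠ 0 := natCast_ne_zero' hn
  have hvn : v.valuation K (n : K) = WithZero.exp (-(t : ℤ)) := by
    rw [val_eq_exp_neg_ord v hn0, ht, Int.toNat_of_nonneg (ord_natCast_nonneg v n)]
  set x := u - 1 with hx
  set y := x / n with hy
  have hvx : v.valuation K x ≤ WithZero.exp (-(M : ℤ)) := hu
  have hvy : v.valuation K y ≤ WithZero.exp (-(M : ℤ) + t) := by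
    rw [hy, map_div₀, hvn, div_le_iff₀ (WithZero.exp_pos), ← WithZero.exp_add]
    refine le_trans hvx (le_of_eq ?_)
    congr 1
    ring
  have hvy1 : v.valuation K y < 1 := by
    refine lt_of_le_of_lt hvy ?_
    rw [← WithZero.exp_zero, WithZero.exp_lt_exp]
    omega
  obtain ⟨w, hw, hexp⟩ := one_add_pow_eq v hvy1.le n
  have hc1 : v.valuation K (1 + y) = 1 := by
    have := Valuation.map_add_eq_of_lt_left (v.valuation K) (x := 1) (y := y) (by simpa using hvy1)
    simpa using this
  have hc0 : (1 + y) ≠ 0 := by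
    intro h
    rw [h, map_zero] at hc1
    exact zero_ne_one hc1
  refine ⟨Units.mk0 (1 + y) hc0, ?_⟩
  have hny : (n : K) * y = x := by
    rw [hy]
    field_simp
  have e : u / (1 + y) ^ n - 1 = -(y ^ 2 * w) / (1 + y) ^ n := by
    have hu' : u = 1 + x := by rw [hx]; ring
    have hp : (1 + y) ^ n ≠ 0 := pow_ne_zero _ hc0
    rw [div_sub_one hp, hexp, hny, hu']
    congr 1
    ring
  unfold One
  rw [Units.val_mk0, e, map_div₀, map_pow, hc1, one_pow, div_one, Valuation.map_neg, map_mul,
    map_pow]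
  calc v.valuation K y ^ 2 * v.valuation K w ≤ v.valuation K y ^ 2 * 1 := by gcongr
    _ = v.valuation K y ^ 2 := mul_one _
    _ ≤ WithZero.exp (-(M : ℤ) + t) ^ 2 := by gcongr
    _ = WithZero.exp (2 * (-(M : ℤ) + t)) := by
        rw [← WithZero.exp_nsmul]
        simp
    _ ≤ WithZero.exp (-((M + 1 : ℕ) : ℤ)) := by
        rw [WithZero.exp_le_exp]
        push_cast
        omega

/-- Blueprint 3.1 -/
theorem powLoc_of_one (n : ℕ) (hn : 0 < n) (v : Pl K) (a : Kˣ)
    (h : One v (2 * (ord v (n : K)).toNat + 1) (a : K)) : a ∈ PowLoc n v := by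
  have key : ∀ j : ℕ, ∃ b : Kˣ, One v (2 * (ord v (n : K)).toNat + 1 + j) ((a : K) / (b : K) ^ n) := by
    intro j
    induction j with
    | zero => exact ⟨1, by simpa using h⟩
    | succ j ih =>
      obtain ⟨b, hb⟩ := ih
      obtain ⟨c, hc⟩ := hensel_step n hn v (by omega) hb
      refine ⟨b * c, ?_⟩
      have e : (a : K) / ((b * c : Kˣ) : K) ^ n = (a : K) / (b : K) ^ n / (c : K) ^ n := by
        push_cast
        rw [mul_pow, div_div]
      rw [e]
      exact hc
  intro N
  obtain ⟨b, hb⟩ := key N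
  exact ⟨b, hb.mono (by omega)⟩

theorem pow_mem_powLoc (n : ℕ) (v : Pl K) (b : Kˣ) : b ^ n ∈ PowLoc n v := by
  intro N
  refine ⟨b, ?_⟩
  have : ((b ^ n : Kˣ) : K) / (b : K) ^ n = 1 := by
    push_cast
    exact div_self (pow_ne_zero _ b.ne_zero)
  rw [this]
  exact one_one v N

/-- for `v ∤ n`: a `v`-unit that is an `n`-th power modulo `v` is a local `n`-th power -/
theorem powLoc_of_residue (n : ℕ) (hn : 0 < n) (v : Pl K) (hv : ord v (n : K) = 0) (a b : Kˣ)
    (h : One v 1 ((a : K) / (b : K) ^ n)) : a ∈ PowLoc n v := by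
  have h1 : a / b ^ n ∈ PowLoc n v := by
    refine powLoc_of_one n hn v _ ?_
    rw [hv]
    simpa using h
  have h2 := (PowLoc n v).mul_mem h1 (pow_mem_powLoc n v b)
  simpa using h2

end Claimed.Agent.R239.CFT
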