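import Claimed.Agent.R239.CFT.P3b
import Claimed.Agent.R239.CFT.P3b2

/-!
# R239 / CFT : package P3a (finite level Hensel, openness, products over S).  Owner helper172.

Output statements of the package (see `Blueprint.lean`); names and statements are frozen (ask helper97
for changes).  Extras: `one_add_pow_eq`, `hensel_step`, `index_iInf_of_open` (index of a finite
intersection of open subgroups), `ord_natCast_nonneg`, `finrank_pos'`.
-/

set_option autoImplicit false

namespace Claimed.Agent.R239.CFT

open IsDedekindDomain NumberField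

section

variable {K : Type*} [Field K] [NumberField K]

/-- index of a finite intersection of open subgroups of `Kˣ` (weak approximation) -/
theorem index_iInf_of_open (H : Pl K → Subgroup Kˣ)
    (hH : ∀ v, ∃ N : ℕ, ∀ a : Kˣ, One v N (a : K) → a ∈ H v) (S : Finset (Pl K)) :
    (⨅ v ∈ S, H v).index = ∏ v ∈ S, (H v).index := by
  classical
  choose N hN using hH
  induction S using Finset.induction_on with
  | empty => simp
  | insert v S hv ih =>
    rw [Finset.prod_insert hv, ← ih, Finset.iInf_insert]
    set H' := ⨅ w ∈ S, H w with hH'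
    have hsup : H v ⊔ H' = ⊤ := by
      rw [eq_top_iff]
      intro a _
      obtain ⟨c, hc⟩ := weak_approx_units' (insert v S) (fun w => if w = v then a else 1) N
      have h1 : a / c ∈ H v := by
        have := hc v (Finset.mem_insert_self v S)
        rw [if_pos rfl] at this
        have h2 : c / a ∈ H v := hN v _ (by simpa using this)
        have h3 := (H v).inv_mem h2
        simpa using h3
      have h2 : c ∈ H' := by
        rw [hH']
        simp only [Subgroup.mem_iInf]
        intro w hw
        have := hc w (Finset.mem_insert_of_mem hw)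
        rw [if_neg (by rintro rfl; exact hv hw)] at this
        exact hN w _ (by simpa using this)
      have h3 : a = a / c * c := by simp
      rw [h3]
      exact Subgroup.mul_mem_sup h1 h2
    have h1 : (H v ⊓ H').relIndex H' * H'.index = (H v ⊓ H').index :=
      Subgroup.relIndex_mul_index inf_le_right
    rw [← h1, Subgroup.inf_relIndex_right, ← Subgroup.relIndex_sup_left, hsup,
      Subgroup.relIndex_top_right]

/-- Blueprint 3.8 for local powers -/
theorem powLocS_index (n : ℕ) (hn : 0 < n) (S : Finset (Pl K)) :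
    (⨅ v ∈ S, PowLoc n v).index = ∏ v ∈ S, (PowLoc n v).index :=
  index_iInf_of_open _ (fun v => ⟨_, fun a ha => powLoc_of_one n hn v a ha⟩) S

end

variable (K : Type*) [Field K] [NumberField K] (L : Type*) [Field L] [NumberField L] [Algebra K L]

/-- Blueprint 3.2 -/
theorem powLoc_le_nloc (v : Pl K) : PowLoc (Module.finrank K L) v ≤ Nloc K L v := by
  intro a ha N
  obtain ⟨b, hb⟩ := ha N
  refine ⟨Units.map (algebraMap K L : K →* L) b, ?_⟩
  have : Algebra.norm K ((Units.map (algebraMap K L : K →* L) b : Lˣ) : L) =
      (b : K) ^ Module.finrank K L := by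
    simp [Algebra.norm_algebraMap]
  rw [this]
  exact hb

theorem norm_mem_nloc (v : Pl K) (b : Lˣ) : normU K L b ∈ Nloc K L v := by
  intro N
  refine ⟨b, ?_⟩
  have h1 : Algebra.norm K (b : L) ≠ 0 := by simp [Algebra.norm_eq_zero_iff]
  have : ((normU K L b : Kˣ) : K) / Algebra.norm K (b : L) = 1 := by
    simp [normU]
  rw [this]
  exact one_one v N

theorem nloc_open (v : Pl K) : ∃ N : ℕ, ∀ a : Kˣ, One v N (a : K) → a ∈ Nloc K L v :=
  ⟨_, fun a ha => powLoc_le_nloc K L v (powLoc_of_one _ Module.finrank_pos v a ha)⟩

theorem nloc_index_ne_zero (v : Pl K) : (Nloc K L v).index ≠ 0 := by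
  intro h
  have h1 := Subgroup.index_dvd_of_le (powLoc_le_nloc K L v)
  rw [h, zero_dvd_iff] at h1
  exact powLoc_index_ne_zero _ Module.finrank_pos v h1

/-- Blueprint 3.8 -/
theorem nlocS_index (S : Finset (Pl K)) :
    (NlocS K L (S : Set (Pl K))).index = ∏ v ∈ S, (Nloc K L v).index := by
  have := index_iInf_of_open (fun v => Nloc K L v) (fun v => nloc_open K L v) S
  simpa [NlocS] using this

/-- simultaneous approximation by one global norm -/
theorem nlocS_exists_norm [IsGalois K L] (S : Finset (Pl K)) (a : Kˣ)
    (ha : a ∈ NlocS K L (S : Set (Pl K))) (N : ℕ) :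
    ∃ b : Lˣ, ∀ v ∈ S, One v N ((a : K) / Algebra.norm K (b : L)) := by
  have h1 : ∀ v : Pl K, ∃ b : Lˣ, v ∈ S → One v (N + 1) ((a : K) / Algebra.norm K (b : L)) := by
    intro v
    by_cases hv : v ∈ S
    · have h2 : a ∈ Nloc K L v := by
        simp only [NlocS, Subgroup.mem_iInf] at ha
        exact ha v (by simpa using hv)
      obtain ⟨b, hb⟩ := h2 (N + 1)
      exact ⟨b, fun _ => hb⟩
    · exact ⟨1, fun h => absurd h hv⟩
  choose x hx using h1
  obtain ⟨b, hb⟩ := weak_approx_oneL (K := K) S x (N + 1)
  refine ⟨b, fun v hv => ?_⟩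
  have hb0 : Algebra.norm K (b : L) ≠ 0 := by simp [Algebra.norm_eq_zero_iff]
  have hx0 : Algebra.norm K (x v : L) ≠ 0 := by simp [Algebra.norm_eq_zero_iff]
  have h2 := (hb v hv).norm
  have hdiv : Algebra.norm K ((b : L) / (x v : L)) =
      Algebra.norm K (b : L) / Algebra.norm K (x v : L) := by
    rw [eq_div_iff hx0, ← map_mul, div_mul_cancel₀ _ (x v).ne_zero]
  rw [hdiv] at h2
  have h3 := (hx v hv).mul (h2.inv (by omega))
  have e : (a : K) / Algebra.norm K (x v : L) *
      (Algebra.norm K (b : L) / Algebra.norm K (x v : L))⁻¹ = (a : K) / Algebra.norm K (b : L) := by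
    field_simp
  rw [e] at h3
  exact h3.mono (Nat.le_succ N)

end Claimed.Agent.R239.CFT
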