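import Claimed.Agent.R239.CFT.P3b1

/-!
# R239 / CFT : package P3b, part 3 : indices in the unit filtration  (owner helper172)
-/

set_option autoImplicit false

namespace Claimed.Agent.R239.CFT

open IsDedekindDomain NumberField

variable {K : Type*} [Field K] [NumberField K]

/-- a `v`-integral element of `K` is congruent mod `v` to an algebraic integer.
[`HeightOneSpectrum.exists_primeCompl_mul_eq_of_integer`: `x d = m`, `d ∉ v`; `e` with `d e ≡ 1`;
`r = m e`.] -/
theorem exists_integer_val_sub_lt (v : Pl K) {x : K} (hx : v.valuation K x ≤ 1) :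
    ∃ r : 𝓞 K, v.valuation K (x - (r : K)) < 1 := by
  obtain ⟨a, ha⟩ := v.exists_valuation_sub_lt_of_integer hx 1
  refine ⟨a, ?_⟩
  rw [Valuation.map_sub_swap]
  simpa using ha

private lemma p3b3_lt_one_iff (v : Pl K) (y : K) :
    v.valuation K y < 1 ↔ v.valuation K y ≤ WithZero.exp (-((1 : ℕ) : ℤ)) := by
  by_cases hy : y = 0
  · subst hy
    simp
  · rw [← le_ord_iff v hy, ← ord_pos_iff v hy]
    push_cast
    omega

/-- a `v`-integral element is congruent mod `v` to one of the chosen representatives -/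
private lemma p3b3_exists_rep (v : Pl K) {x : K} (hx : v.valuation K x ≤ 1) :
    ∃ a : 𝓞 K ⧸ v.asIdeal, v.valuation K (x - ((Quotient.out a : 𝓞 K) : K))
      ≤ WithZero.exp (-((1 : ℕ) : ℤ)) := by
  obtain ⟨r, hr⟩ := exists_integer_val_sub_lt v hx
  refine ⟨Ideal.Quotient.mk v.asIdeal r, ?_⟩
  set r' : 𝓞 K := Quotient.out (Ideal.Quotient.mk v.asIdeal r) with hr'
  have h1 : r - r' ∈ v.asIdeal := by
    rw [← Ideal.Quotient.eq, hr', Ideal.Quotient.mk_out]
  have h2 : v.valuation K ((r - r' : 𝓞 K) : K) ≤ WithZero.exp (-((1 : ℕ) : ℤ)) := by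
    rw [val_le_exp_iff_mem_pow, pow_one]
    exact h1
  have e : x - (r' : K) = (x - (r : K)) + ((r - r' : 𝓞 K) : K) := by
    push_cast
    ring
  rw [e]
  exact le_trans ((v.valuation K).map_add _ _) (max_le ((p3b3_lt_one_iff v _).1 hr) h2)

private lemma p3b3_rep_inj (v : Pl K) {a b : 𝓞 K ⧸ v.asIdeal}
    (h : v.valuation K (((Quotient.out b : 𝓞 K) : K) - ((Quotient.out a : 𝓞 K) : K))
      ≤ WithZero.exp (-((1 : ℕ) : ℤ))) : a = b := by
  have h1 : v.valuation K (((Quotient.out b : 𝓞 K) - (Quotient.out a : 𝓞 K) : 𝓞 K) : K)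
      ≤ WithZero.exp (-((1 : ℕ) : ℤ)) := by
    push_cast
    exact h
  rw [val_le_exp_iff_mem_pow, pow_one, ← Ideal.Quotient.eq, Ideal.Quotient.mk_out,
    Ideal.Quotient.mk_out] at h1
  exact h1.symm

/-- [`relIndex_ne_zero_of_reps` with `α = 𝓞 K ⧸ v`, `g a` = a representative (or `1`).] -/
theorem ulev_relIndex_one_ne_zero (v : Pl K) : (Ulev v 1).relIndex (Ulev v 0) ≠ 0 := by
  classical
  have : Finite (𝓞 K ⧸ v.asIdeal) := Ideal.finiteQuotientOfFreeOfNeBot _ v.ne_bot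
  refine relIndex_ne_zero_of_reps (Ulev v 1) (Ulev v 0)
    (fun a : 𝓞 K ⧸ v.asIdeal => if h : ((Quotient.out a : 𝓞 K) : K) ≠ 0 then Units.mk0 _ h else 1)
    ?_
  intro x hx
  have hx1 : v.valuation K (x : K) = 1 := (ord_eq_zero_iff v x.ne_zero).1 (mem_ulev_zero.1 hx)
  obtain ⟨a, ha⟩ := p3b3_exists_rep v hx1.le
  refine ⟨a, ?_⟩
  have hlt := (p3b3_lt_one_iff v _).2 ha
  have hr1 : v.valuation K ((Quotient.out a : 𝓞 K) : K) = 1 := by
    have e : ((Quotient.out a : 𝓞 K) : K) = (x : K) - ((x : K) - ((Quotient.out a : 𝓞 K) : K)) := by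
      ring
    rw [e, Valuation.map_sub_eq_of_lt_left _ (by rw [hx1]; exact hlt), hx1]
  have hr0 : ((Quotient.out a : 𝓞 K) : K) ≠ 0 := by
    intro h
    rw [h] at hr1
    simp at hr1
  rw [mem_ulev_of_pos le_rfl]
  simp only [dif_pos hr0]
  have e2 : (((Units.mk0 _ hr0)⁻¹ * x : Kˣ) : K) = (x : K) / ((Quotient.out a : 𝓞 K) : K) := by
    simp [div_eq_inv_mul]
  rw [e2]
  refine one_div_of_val_sub_le v hr0 ?_
  rw [hr1, mul_one]
  exact ha

/-- [`relIndex_eq_card_of_reps` with `α = 𝓞 K ⧸ v`, `g a = 1 + (rep a) π ^ M`.] -/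
theorem ulev_relIndex_succ (v : Pl K) (M : ℕ) (hM : 1 ≤ M) :
    (Ulev v (M + 1)).relIndex (Ulev v M) = Nat.card (𝓞 K ⧸ v.asIdeal) := by
  obtain ⟨π, hπ⟩ := exists_ord_eq_one v
  have hπV : v.valuation K ((π : K) ^ M) = WithZero.exp (-(M : ℤ)) := by
    rw [← ord_eq_iff v (pow_ne_zero _ π.ne_zero), ord_pow, hπ, mul_one]
  have hπ0 : (π : K) ^ M ≠ 0 := pow_ne_zero _ π.ne_zero
  -- the representatives
  have hone : ∀ r : 𝓞 K, One v M (1 + (r : K) * (π : K) ^ M) := by
    intro r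
    unfold One
    rw [add_sub_cancel_left, map_mul, hπV]
    exact mul_le_of_le_one_left' (v.valuation_le_one r)
  have hV1 : ∀ r : 𝓞 K, v.valuation K (1 + (r : K) * (π : K) ^ M) = 1 :=
    fun r => (hone r).val_eq_one hM
  have hne : ∀ r : 𝓞 K, 1 + (r : K) * (π : K) ^ M ≠ 0 := fun r => (hone r).ne_zero hM
  have hexp : WithZero.exp (-((M + 1 : ℕ) : ℤ))
      = WithZero.exp (-((1 : ℕ) : ℤ)) * WithZero.exp (-(M : ℤ)) := by
    rw [← WithZero.exp_add]
    congr 1
    push_cast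
    ring
  refine relIndex_eq_card_of_reps (Ulev v (M + 1)) (Ulev v M)
    (fun a : 𝓞 K ⧸ v.asIdeal => Units.mk0 _ (hne (Quotient.out a))) ?_ ?_ ?_
  · intro a
    rw [mem_ulev_of_pos hM]
    exact hone _
  · intro a b hab
    rw [mem_ulev_of_pos (by omega)] at hab
    refine p3b3_rep_inj v ?_
    have e : (((Units.mk0 _ (hne (Quotient.out a)))⁻¹ * Units.mk0 _ (hne (Quotient.out b)) : Kˣ) : K)
        - 1 = ((((Quotient.out b : 𝓞 K) : K) - ((Quotient.out a : 𝓞 K) : K)) * (π : K) ^ M)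
          / (1 + ((Quotient.out a : 𝓞 K) : K) * (π : K) ^ M) := by
      have := hne (Quotient.out a)
      simp only [Units.val_mul, Units.val_inv_eq_inv_val, Units.val_mk0]
      field_simp
      ring
    unfold One at hab
    rw [e, map_div₀, hV1, div_one, map_mul, hπV, hexp] at hab
    exact le_of_mul_le_mul_right hab WithZero.exp_pos
  · intro x hx
    have hx1 : One v M (x : K) := ((mem_ulev_of_pos hM).1 hx)
    have hy : v.valuation K (((x : K) - 1) / (π : K) ^ M) ≤ 1 := by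
      rw [map_div₀, hπV]
      exact (div_le_one₀ WithZero.exp_pos).2 hx1
    obtain ⟨a, ha⟩ := p3b3_exists_rep v hy
    refine ⟨a, ?_⟩
    rw [mem_ulev_of_pos (by omega)]
    have e2 : (((Units.mk0 _ (hne (Quotient.out a)))⁻¹ * x : Kˣ) : K)
        = (x : K) / (1 + ((Quotient.out a : 𝓞 K) : K) * (π : K) ^ M) := by
      simp [div_eq_inv_mul]
    rw [e2]
    refine one_div_of_val_sub_le v (hne _) ?_
    rw [hV1, mul_one]
    have e3 : (x : K) - (1 + ((Quotient.out a : 𝓞 K) : K) * (π : K) ^ M)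
        = ((((x : K) - 1) / (π : K) ^ M) - ((Quotient.out a : 𝓞 K) : K)) * (π : K) ^ M := by
      field_simp
      ring
    rw [e3, map_mul, hπV, hexp]
    exact mul_le_mul_left ha _

theorem ulev_relIndex_add (v : Pl K) (M k : ℕ) (hM : 1 ≤ M) :
    (Ulev v (M + k)).relIndex (Ulev v M) = Nat.card (𝓞 K ⧸ v.asIdeal) ^ k := by
  induction k with
  | zero => simp
  | succ k ih =>
    rw [← Subgroup.relIndex_mul_relIndex (Ulev v (M + (k + 1))) (Ulev v (M + k)) (Ulev v M)
      (ulev_anti v (by omega)) (ulev_anti v (by omega)), ih, pow_succ, mul_comm]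
    congr 1
    exact ulev_relIndex_succ v (M + k) (by omega)

theorem ulev_relIndex_ne_zero (v : Pl K) (M : ℕ) : (Ulev v M).relIndex (Ulev v 0) ≠ 0 := by
  have hq : Nat.card (𝓞 K ⧸ v.asIdeal) ≠ 0 := by
    have : Finite (𝓞 K ⧸ v.asIdeal) := Ideal.finiteQuotientOfFreeOfNeBot _ v.ne_bot
    exact Nat.card_pos.ne'
  have h1 : (Ulev v (1 + M)).relIndex (Ulev v 0) ≠ 0 := by
    rw [← Subgroup.relIndex_mul_relIndex (Ulev v (1 + M)) (Ulev v 1) (Ulev v 0)
      (ulev_anti v (by omega)) (ulev_anti v (by omega)), ulev_relIndex_add v 1 M le_rfl]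
    exact mul_ne_zero (pow_ne_zero _ hq) (ulev_relIndex_one_ne_zero v)
  intro h
  have := Subgroup.relIndex_dvd_of_le_left (Ulev v 0) (ulev_anti v (show M ≤ 1 + M by omega))
  rw [h, zero_dvd_iff] at this
  exact h1 this

end Claimed.Agent.R239.CFT
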