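import Claimed.Agent.R239.CFT.P3b1
import Claimed.Agent.R239.CFT.P3b2

/-!
# R239 / CFT : package P3b, part 4 : the closest root of unity  (owner helper172)
-/

set_option autoImplicit false

namespace Claimed.Agent.R239.CFT

open IsDedekindDomain NumberField

section general

variable {F Γ : Type*} [Field F] [LinearOrderedCommGroupWithZero Γ] (V : Valuation F Γ)

private lemma p3b4_val_root {n : ℕ} (hn : 0 < n) {μ : F} (h : μ ^ n = 1) : V μ = 1 := by
  have h1 : V μ ^ n = 1 := by rw [← map_pow, h, map_one]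
  exact (pow_eq_one_iff_left hn.ne').1 h1

private lemma p3b4_val_one_sub_le {n : ℕ} (hn : 0 < n) {μ : F} (h : μ ^ n = 1) :
    V (1 - μ) ≤ 1 :=
  le_trans (V.map_sub _ _) (max_le (by simp) (p3b4_val_root V hn h).le)

/-- `val n ≤ val (1 - ζ ^ (k + 1))` for `k + 1 < n` -/
private lemma p3b4_val_le {m : ℕ} {ζ : F} (hζ : IsPrimitiveRoot ζ (m + 1)) {k : ℕ} (hk : k < m) :
    V ((m + 1 : ℕ) : F) ≤ V (1 - ζ ^ (k + 1)) := by
  have h1 := hζ.prod_one_sub_pow_eq_order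
  have h2 : ((m + 1 : ℕ) : F) = ∏ k ∈ Finset.range m, (1 - ζ ^ (k + 1)) := by
    rw [h1]; push_cast; rfl
  rw [h2, map_prod, ← Finset.mul_prod_erase _ _ (Finset.mem_range.2 hk)]
  refine mul_le_of_le_one_right' ?_
  refine Finset.prod_le_one' (fun j _ => ?_)
  refine p3b4_val_one_sub_le V (Nat.succ_pos m) ?_
  rw [← pow_mul, mul_comm, pow_mul, hζ.pow_eq_one, one_pow]

/-- if `1` is a closest root of unity to `x` then `val (x - 1) * val n ≤ val (x ^ n - 1)` -/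
private lemma p3b4_closest {m : ℕ} {ζ x : F} (hζ : IsPrimitiveRoot ζ (m + 1))
    (hx : ∀ j : ℕ, V (x - 1) ≤ V (x - ζ ^ j)) :
    V (x - 1) * V ((m + 1 : ℕ) : F) ≤ V (x ^ (m + 1) - 1) := by
  have h1 := hζ.prod_one_sub_pow_eq_order
  have h2 : ((m + 1 : ℕ) : F) = ∏ k ∈ Finset.range m, (1 - ζ ^ (k + 1)) := by
    rw [h1]; push_cast; rfl
  have h3 : x ^ (m + 1) - 1 = ∏ i ∈ Finset.range (m + 1), (x - ζ ^ i) := by
    have := congrArg (Polynomial.eval x)
      (X_pow_sub_C_eq_prod hζ (Nat.succ_pos m) (one_pow (m + 1)))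
    simpa [Polynomial.eval_prod] using this
  rw [h3, Finset.prod_range_succ', pow_zero, map_mul, mul_comm, h2, map_prod, map_prod]
  refine mul_le_mul_left ?_ _
  refine Finset.prod_le_prod' (fun k _ => ?_)
  have e : 1 - ζ ^ (k + 1) = (x - ζ ^ (k + 1)) - (x - 1) := by ring
  rw [e]
  exact le_trans (V.map_sub _ _) (max_le le_rfl (hx _))

/-- a closest root of unity exists -/
private lemma p3b4_exists_closest {n : ℕ} (hn : 0 < n) {ζ : F} (hζ : ζ ^ n = 1) (x : F) :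
    ∃ i : ℕ, ∀ j : ℕ, V (x - ζ ^ i) ≤ V (x - ζ ^ j) := by
  obtain ⟨i, -, hi⟩ := Finset.exists_min_image (Finset.range n) (fun i => V (x - ζ ^ i))
    ⟨0, Finset.mem_range.2 hn⟩
  refine ⟨i, fun j => ?_⟩
  rw [pow_eq_pow_mod j hζ]
  exact hi _ (Finset.mem_range.2 (Nat.mod_lt _ hn))

end general

variable {K : Type*} [Field K] [NumberField K]

private lemma p3b4_val_natCast (v : Pl K) {n : ℕ} (hn : 0 < n) :
    v.valuation K (n : K) = WithZero.exp (-(((ord v (n : K)).toNat : ℕ) : ℤ)) := by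
  rw [val_eq_exp_neg_ord v (natCast_ne_zero' hn), Int.toNat_of_nonneg (ord_natCast_nonneg v n)]

/-- A root of unity `≠ 1` is not `≡ 1 mod v ^ (t + 1)`, `t = ord v n`.
[`∏_{0 < k < n} (1 - ζ ^ k) = n` (`IsPrimitiveRoot.prod_one_sub_pow_eq_order`), all factors are
`v`-integral.] -/
theorem root_not_close (n : ℕ) (hn : 0 < n) {ζ : K} (hζ : IsPrimitiveRoot ζ n) (v : Pl K) (i : ℕ)
    (h : One v ((ord v (n : K)).toNat + 1) (ζ ^ i)) : ζ ^ i = 1 := by
  by_contra hne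
  obtain ⟨m, rfl⟩ : ∃ m, n = m + 1 := ⟨n - 1, by omega⟩
  rw [pow_eq_pow_mod i hζ.pow_eq_one] at h hne
  have hlt : i % (m + 1) < m + 1 := Nat.mod_lt _ hn
  obtain ⟨k, hk⟩ : ∃ k, i % (m + 1) = k + 1 := by
    rcases Nat.eq_zero_or_pos (i % (m + 1)) with h0 | h0
    · rw [h0, pow_zero] at hne
      exact absurd rfl hne
    · exact ⟨i % (m + 1) - 1, by omega⟩
  rw [hk] at h hlt
  have h1 := p3b4_val_le (v.valuation K) hζ (k := k) (by omega)
  rw [p3b4_val_natCast v hn, Valuation.map_sub_swap] at h1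
  have h2 := le_trans h1 h
  rw [WithZero.exp_le_exp] at h2
  push_cast at h2
  omega

/-- If `x ^ n ≡ 1 mod v ^ (2 t + 1)` then `x ≡ ζ ^ i mod v ^ (t + 1)` for some `i`.
[`x ^ n - 1 = ∏_k (x - ζ ^ k)`; let `ζ ^ i` be a closest root; wlog `i = 0` (replace `x` by
`x / ζ ^ i`); `val (1 - ζ ^ k) ≤ max (val (x - 1)) (val (x - ζ ^ k)) = val (x - ζ ^ k)`, so
`val (x - 1) * val n ≤ val (x ^ n - 1)`.] -/
theorem exists_root_close (n : ℕ) (hn : 0 < n) {ζ : K} (hζ : IsPrimitiveRoot ζ n) (v : Pl K)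
    (x : Kˣ) (h : One v (2 * (ord v (n : K)).toNat + 1) ((x : K) ^ n)) :
    ∃ i : ℕ, One v ((ord v (n : K)).toNat + 1) ((x : K) / ζ ^ i) := by
  obtain ⟨i, hi⟩ := p3b4_exists_closest (v.valuation K) hn hζ.pow_eq_one (x : K)
  refine ⟨i, ?_⟩
  have hζ0 : ζ ^ i ≠ 0 := pow_ne_zero _ (hζ.ne_zero hn.ne')
  have hVi : v.valuation K (ζ ^ i) = 1 := by
    refine p3b4_val_root (v.valuation K) hn ?_
    rw [← pow_mul, mul_comm, pow_mul, hζ.pow_eq_one, one_pow]
  have hscale : ∀ y : K, v.valuation K ((x : K) / ζ ^ i - y) = v.valuation K ((x : K) - y * ζ ^ i) := by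
    intro y
    have e : (x : K) - y * ζ ^ i = ((x : K) / ζ ^ i - y) * ζ ^ i := by
      field_simp
    rw [e, map_mul, hVi, mul_one]
  obtain ⟨m, rfl⟩ : ∃ m, n = m + 1 := ⟨n - 1, by omega⟩
  have h1 := p3b4_closest (v.valuation K) (x := (x : K) / ζ ^ i) hζ (by
    intro j
    rw [hscale, hscale, one_mul, ← pow_add]
    exact hi _)
  have e2 : ((x : K) / ζ ^ i) ^ (m + 1) = (x : K) ^ (m + 1) := by
    rw [div_pow, ← pow_mul, mul_comm, pow_mul, hζ.pow_eq_one, one_pow, div_one]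
  rw [e2, p3b4_val_natCast v hn] at h1
  have h2 := le_trans h1 h
  unfold One
  have e3 : WithZero.exp (-(((2 * (ord v (((m + 1 : ℕ) : K))).toNat + 1 : ℕ)) : ℤ))
      = WithZero.exp (-((((ord v (((m + 1 : ℕ) : K))).toNat + 1 : ℕ)) : ℤ))
        * WithZero.exp (-(((ord v (((m + 1 : ℕ) : K))).toNat : ℕ) : ℤ)) := by
    rw [← WithZero.exp_add]
    congr 1
    push_cast
    ring
  rw [e3] at h2
  exact le_of_mul_le_mul_right h2 WithZero.exp_pos

end Claimed.Agent.R239.CFT
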