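import Claimed.Agent.R239.CFT.P3b1

/-!
# R239 / CFT : package P3b, part 5 : the product formula for `n` (Blueprint 3.4)  (owner helper172)
-/

set_option autoImplicit false

namespace Claimed.Agent.R239.CFT

open IsDedekindDomain NumberField

variable {K : Type*} [Field K] [NumberField K]

/-- Blueprint 3.4.  [`Ideal.absNorm (span {(n : 𝓞 K)}) = n ^ [K:ℚ]` (`Ideal.absNorm_span_singleton`,
`Algebra.norm_algebraMap`, `RingOfIntegers.rank`); factorisation of the ideal
(`Ideal.finprod_heightOneSpectrum_factorization` or `prod_normalizedFactors`), `ord_eq_count`.] -/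
theorem prod_card_pow_ord_aux (n : ℕ) (hn : 0 < n) (S : Finset (Pl K))
    (hS : ∀ v : Pl K, ord v (n : K) ≠ 0 → v ∈ S) :
    ∏ v ∈ S, (Nat.card (𝓞 K ⧸ v.asIdeal)) ^ (ord v (n : K)).toNat = n ^ Module.finrank ℚ K := by
  classical
  have hn0 : (n : 𝓞 K) ≠ 0 := Nat.cast_ne_zero.2 hn.ne'
  have hI : Ideal.span {(n : 𝓞 K)} ≠ 0 := by simpa using hn0
  have hord : ∀ v : Pl K, (ord v (n : K)).toNat
      = (UniqueFactorizationMonoid.normalizedFactors (Ideal.span {(n : 𝓞 K)})).count v.asIdeal := by
    intro v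
    have := ord_eq_count v hn0
    simp only [map_natCast] at this
    rw [this, Int.toNat_natCast]
  have h1 : ∏ v ∈ S, v.maxPowDividing (Ideal.span {(n : 𝓞 K)}) = Ideal.span {(n : 𝓞 K)} := by
    rw [← finprod_eq_prod_of_mulSupport_subset, Ideal.finprod_heightOneSpectrum_factorization hI]
    intro v hv
    refine hS v ?_
    intro h0
    apply hv
    show v.maxPowDividing (Ideal.span {(n : 𝓞 K)}) = 1
    rw [HeightOneSpectrum.maxPowDividing_eq_pow_multiset_count v hI, ← hord v, h0]
    simp
  have h2 := congrArg Ideal.absNorm h1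
  rw [map_prod, Ideal.absNorm_span_natCast, RingOfIntegers.rank] at h2
  rw [← h2]
  refine Finset.prod_congr rfl (fun v _ => ?_)
  rw [HeightOneSpectrum.maxPowDividing_eq_pow_multiset_count v hI, map_pow, ← hord v,
    Ideal.absNorm_apply, Submodule.cardQuot_apply]

end Claimed.Agent.R239.CFT
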