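import Claimed.Agent.R239.CFT.P3b2
import Claimed.Agent.R239.CFT.P3b3
import Claimed.Agent.R239.CFT.P3b4
import Claimed.Agent.R239.CFT.P3b5

/-!
# R239 / CFT : package P3b (local n-th power index)

Output statements of the package (see `Blueprint.lean`).  The owner of the package owns this file and
replaces the `sorry`s in place; names and statements are frozen (ask helper97 for changes).

Assembly (helper96) from the parts `P3b1` (abstract index lemmas, `Ulev`), `P3b2` (Hensel, helper172),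
`P3b3` (indices in the unit filtration), `P3b4` (closest root of unity), `P3b5` (product formula).
-/

set_option autoImplicit false

namespace Claimed.Agent.R239.CFT

open IsDedekindDomain NumberField

variable {K : Type*} [Field K] [NumberField K]

/-- `x ≡ 1 mod v ^ (t + 1)` implies `x ^ n ≡ 1 mod v ^ (2 t + 1)`, `t = ord v n`. -/
lemma one_pow_of_one (n : ℕ) (hn : 0 < n) (v : Pl K) {x : K}
    (h : One v ((ord v (n : K)).toNat + 1) x) : One v (2 * (ord v (n : K)).toNat + 1) (x ^ n) := by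
  set t := (ord v (n : K)).toNat with ht
  have hn0 : (n : K) ≠ 0 := natCast_ne_zero' hn
  have hvn : v.valuation K (n : K) = WithZero.exp (-(t : ℤ)) := by
    rw [val_eq_exp_neg_ord v hn0, ht, Int.toNat_of_nonneg (ord_natCast_nonneg v n)]
  set y := x - 1 with hy
  have hvy : v.valuation K y ≤ WithZero.exp (-((t + 1 : ℕ) : ℤ)) := h
  have hvy1 : v.valuation K y ≤ 1 := le_trans hvy (by
    rw [← WithZero.exp_zero, WithZero.exp_le_exp]
    omega)
  obtain ⟨w, hw, hexp⟩ := one_add_pow_eq v hvy1 n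
  have hx : x = 1 + y := by rw [hy]; ring
  unfold One
  rw [hx, hexp, show 1 + (n : K) * y + y ^ 2 * w - 1 = (n : K) * y + y ^ 2 * w by ring]
  refine le_trans ((v.valuation K).map_add _ _) (max_le ?_ ?_)
  · rw [map_mul, hvn]
    calc WithZero.exp (-(t : ℤ)) * v.valuation K y
        ≤ WithZero.exp (-(t : ℤ)) * WithZero.exp (-((t + 1 : ℕ) : ℤ)) := by gcongr
      _ = WithZero.exp (-((2 * t + 1 : ℕ) : ℤ)) := by
        rw [← WithZero.exp_add]
        congr 1
        push_cast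
        ring
  · rw [map_mul, map_pow]
    calc v.valuation K y ^ 2 * v.valuation K w ≤ v.valuation K y ^ 2 * 1 := by gcongr
      _ = v.valuation K y ^ 2 := mul_one _
      _ ≤ WithZero.exp (-((t + 1 : ℕ) : ℤ)) ^ 2 := by gcongr
      _ = WithZero.exp (2 * (-((t + 1 : ℕ) : ℤ))) := by
        rw [← WithZero.exp_nsmul]
        simp
      _ ≤ WithZero.exp (-((2 * t + 1 : ℕ) : ℤ)) := by
        rw [WithZero.exp_le_exp]
        push_cast
        omega

/-- `a ↦ ord v a mod n` -/
noncomputable def ordMod (n : ℕ) (v : Pl K) : Kˣ →* Multiplicative (ZMod n) where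
  toFun a := Multiplicative.ofAdd ((ord v (a : K) : ℤ) : ZMod n)
  map_one' := by simp [ord_one]
  map_mul' a b := by simp [ord_mul v a.ne_zero b.ne_zero, ofAdd_add]

lemma mem_ker_ordMod {n : ℕ} {v : Pl K} {a : Kˣ} :
    a ∈ (ordMod n v).ker ↔ (n : ℤ) ∣ ord v (a : K) := by
  rw [MonoidHom.mem_ker]
  change Multiplicative.ofAdd ((ord v (a : K) : ℤ) : ZMod n) = 1 ↔ _
  rw [ofAdd_eq_one, ZMod.intCast_zmod_eq_zero_iff_dvd]

lemma ordMod_surjective (n : ℕ) (v : Pl K) : Function.Surjective (ordMod n v) := by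
  intro y
  obtain ⟨k, hk⟩ := ZMod.intCast_surjective (Multiplicative.toAdd y)
  obtain ⟨a, ha⟩ := ord_surjective v k
  refine ⟨a, ?_⟩
  change Multiplicative.ofAdd ((ord v (a : K) : ℤ) : ZMod n) = y
  simp only at ha
  rw [ha, hk]
  rfl

lemma ordMod_ker_index (n : ℕ) (v : Pl K) : (ordMod n v).ker.index = n := by
  rw [Subgroup.index_ker, MonoidHom.range_eq_top.2 (ordMod_surjective n v), Subgroup.card_top,
    Nat.card_congr Multiplicative.toAdd, Nat.card_zmod]

lemma ord_eq_of_one_div_pow {n : ℕ} {v : Pl K} {N : ℕ} (hN : 1 ≤ N) {a b : Kˣ}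
    (h : One v N ((a : K) / (b : K) ^ n)) : ord v (a : K) = n * ord v (b : K) := by
  have h1 := h.ord_eq_zero hN
  rw [ord_div v a.ne_zero (pow_ne_zero _ b.ne_zero), ord_pow] at h1
  omega

lemma powLoc_le_ker (n : ℕ) (v : Pl K) : PowLoc n v ≤ (ordMod n v).ker := by
  intro a ha
  obtain ⟨b, hb⟩ := ha 1
  rw [mem_ker_ordMod, ord_eq_of_one_div_pow le_rfl hb]
  exact dvd_mul_right _ _

lemma ker_ordMod_eq (n : ℕ) (v : Pl K) : (ordMod n v).ker = PowLoc n v ⊔ Ulev v 0 := by
  refine le_antisymm ?_ (sup_le (powLoc_le_ker n v) ?_)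
  · intro a ha
    obtain ⟨k, hk⟩ := mem_ker_ordMod.1 ha
    obtain ⟨π, hπ⟩ := ord_surjective v k
    simp only at hπ
    have e : a = π ^ n * (a / π ^ n) := by simp
    rw [e]
    refine Subgroup.mul_mem_sup (pow_mem_powLoc n v π) (mem_ulev_zero.2 ?_)
    rw [Units.val_div_eq_div_val, Units.val_pow_eq_pow_val,
      ord_div v a.ne_zero (pow_ne_zero _ π.ne_zero), ord_pow, hπ, hk, sub_self]
  · intro a ha
    rw [mem_ker_ordMod, mem_ulev_zero.1 ha]
    exact dvd_zero _

lemma powLoc_index_eq (n : ℕ) (v : Pl K) :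
    (PowLoc n v).index = (PowLoc n v).relIndex (Ulev v 0) * n := by
  rw [← Subgroup.relIndex_mul_index (powLoc_le_ker n v), ordMod_ker_index, ker_ordMod_eq,
    Subgroup.relIndex_sup_left]

lemma ulev_le_powLoc (n : ℕ) (hn : 0 < n) (v : Pl K) :
    Ulev v (2 * (ord v (n : K)).toNat + 1) ≤ PowLoc n v :=
  fun a ha => powLoc_of_one n hn v a ha.2

lemma powLoc_inf_ulev (n : ℕ) (hn : 0 < n) (v : Pl K) :
    PowLoc n v ⊓ Ulev v 0 =
      (Ulev v 0).map (powMonoidHom n) ⊔ Ulev v (2 * (ord v (n : K)).toNat + 1) := by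
  refine le_antisymm ?_ (sup_le ?_ (le_inf (ulev_le_powLoc n hn v) (ulev_anti v (Nat.zero_le _))))
  · rintro a ⟨ha, ha0⟩
    obtain ⟨b, hb⟩ := ha (2 * (ord v (n : K)).toNat + 1)
    have h1 := ord_eq_of_one_div_pow (by omega) hb
    rw [mem_ulev_zero.1 ha0] at h1
    have hb0 : ord v (b : K) = 0 := by
      have hn' : (n : ℤ) ≠ 0 := by exact_mod_cast hn.ne'
      rcases mul_eq_zero.1 h1.symm with h | h
      · exact absurd h hn'
      · exact h
    have e : a = b ^ n * (a / b ^ n) := by simp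
    rw [e]
    refine Subgroup.mul_mem_sup ⟨b, mem_ulev_zero.2 hb0, rfl⟩ ((mem_ulev_of_pos (by omega)).2 ?_)
    simpa using hb
  · rintro _ ⟨b, hb, rfl⟩
    exact ⟨pow_mem_powLoc n v b, (Ulev v 0).pow_mem hb n⟩

/-- finiteness of the index of the local `n`-th powers (no roots of unity needed) -/
theorem powLoc_index_ne_zero (n : ℕ) (hn : 0 < n) (v : Pl K) : (PowLoc n v).index ≠ 0 := by
  rw [powLoc_index_eq]
  refine mul_ne_zero ?_ hn.ne'
  intro h
  have := Subgroup.relIndex_dvd_of_le_left (Ulev v 0) (ulev_le_powLoc n hn v)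
  rw [h, zero_dvd_iff] at this
  exact ulev_relIndex_ne_zero v _ this

lemma ord_root_eq_zero {n : ℕ} (hn : 0 < n) {ζ : K} (hζ : ζ ^ n = 1) (v : Pl K) : ord v ζ = 0 := by
  have h := ord_pow v ζ n
  rw [hζ, ord_one] at h
  have hn' : (n : ℤ) ≠ 0 := by exact_mod_cast hn.ne'
  rcases mul_eq_zero.1 h.symm with h | h
  · exact absurd h hn'
  · exact h

/-- Blueprint 3.3 -/
theorem powLoc_index (n : ℕ) (hn : 0 < n) (hμ : ∃ ζ : K, IsPrimitiveRoot ζ n) (v : Pl K) :
    (PowLoc n v).index = n ^ 2 * (Nat.card (𝓞 K ⧸ v.asIdeal)) ^ (ord v (n : K)).toNat := by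
  obtain ⟨ζ, hζ⟩ := hμ
  set t := (ord v (n : K)).toNat with ht
  have hζ0 : ζ ≠ 0 := hζ.ne_zero hn.ne'
  set z : Kˣ := Units.mk0 ζ hζ0 with hz
  have hzn : z ^ n = 1 := by
    ext
    simpa [hz] using hζ.pow_eq_one
  have hzord : orderOf z = n := by
    have : IsPrimitiveRoot z n := by
      rw [← IsPrimitiveRoot.coe_units_iff]
      simpa [hz] using hζ
    exact this.eq_orderOf.symm
  -- the kernel of the power map
  have hZ : Ulev v 0 ⊓ (Ulev v (2 * t + 1)).comap (powMonoidHom n) =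
      Subgroup.zpowers z ⊔ Ulev v (t + 1) := by
    refine le_antisymm ?_ (sup_le ?_ ?_)
    · rintro x ⟨-, hx⟩
      have hx' : One v (2 * t + 1) ((x : K) ^ n) := by simpa using hx.2
      obtain ⟨i, hi⟩ := exists_root_close n hn hζ v x hx'
      have e : x = z ^ i * (x / z ^ i) := by simp
      rw [e]
      refine Subgroup.mul_mem_sup (Subgroup.pow_mem _ (Subgroup.mem_zpowers z) i)
        ((mem_ulev_of_pos (by omega)).2 ?_)
      simpa [hz] using hi
    · rw [Subgroup.zpowers_le]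
      refine ⟨mem_ulev_zero.2 (ord_root_eq_zero hn hζ.pow_eq_one v), ?_⟩
      change powMonoidHom n z ∈ Ulev v (2 * t + 1)
      simp only [powMonoidHom_apply, hzn]
      exact Subgroup.one_mem _
    · intro x hx
      refine ⟨ulev_anti v (Nat.zero_le _) hx, ?_⟩
      change powMonoidHom n x ∈ Ulev v (2 * t + 1)
      rw [mem_ulev_of_pos (by omega)]
      simpa using one_pow_of_one n hn v hx.2
  have hinf : Ulev v (t + 1) ⊓ Subgroup.zpowers z = ⊥ := by
    rw [eq_bot_iff]
    rintro x ⟨hx, hxz⟩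
    obtain ⟨k, rfl⟩ := Subgroup.mem_zpowers_iff.1 hxz
    obtain ⟨i, hi⟩ : ∃ i : ℕ, z ^ k = z ^ i := by
      refine ⟨(k % (n : ℤ)).toNat, ?_⟩
      have hn' : (n : ℤ) ≠ 0 := by exact_mod_cast hn.ne'
      rw [← zpow_natCast, Int.toNat_of_nonneg (Int.emod_nonneg _ hn'), ← hzord,
        zpow_mod_orderOf]
    rw [hi] at hx ⊢
    have h1 : One v (t + 1) (ζ ^ i) := by simpa [hz] using hx.2
    have h2 := root_not_close n hn hζ v i h1
    rw [Subgroup.mem_bot]
    ext
    simpa [hz] using h2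
  have h1 : (Ulev v (t + 1)).relIndex (Subgroup.zpowers z ⊔ Ulev v (t + 1)) = n := by
    rw [Subgroup.relIndex_sup_right, ← Subgroup.inf_relIndex_right, hinf,
      Subgroup.relIndex_bot_left, Nat.card_zpowers, hzord]
  have h2 : (Ulev v (2 * t + 1)).relIndex (Ulev v (t + 1)) = Nat.card (𝓞 K ⧸ v.asIdeal) ^ t := by
    have := ulev_relIndex_add v (t + 1) t (by omega)
    rwa [show t + 1 + t = 2 * t + 1 by ring] at this
  rw [powLoc_index_eq, ← Subgroup.inf_relIndex_right, powLoc_inf_ulev n hn v,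
    relIndex_pow_ker_coker n _ _ (ulev_anti v (Nat.zero_le _)) (ulev_relIndex_ne_zero v _), hZ,
    ← Subgroup.relIndex_mul_relIndex (Ulev v (2 * t + 1)) (Ulev v (t + 1)) _
      (ulev_anti v (by omega)) le_sup_right, h1, h2]
  ring

/-- Blueprint 3.4 -/
theorem prod_card_pow_ord (n : ℕ) (hn : 0 < n) (S : Finset (Pl K))
    (hS : ∀ v : Pl K, ord v (n : K) ≠ 0 → v ∈ S) :
    ∏ v ∈ S, (Nat.card (𝓞 K ⧸ v.asIdeal)) ^ (ord v (n : K)).toNat = n ^ Module.finrank ℚ K :=
  prod_card_pow_ord_aux n hn S hS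

end Claimed.Agent.R239.CFT
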