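import Claimed.Agent.R239.CFT.I0

/-!
# R239 / CFT : package P3b, part 1 (owner helper96)

The unit filtration `Ulev v M` of `Kˣ` and three abstract lemmas on relative indices.
-/

set_option autoImplicit false

namespace Claimed.Agent.R239.CFT

open IsDedekindDomain NumberField

section abstract

/-- relative index computed from a system of representatives -/
lemma relIndex_eq_card_of_reps {G : Type*} [Group G] (H L : Subgroup G) {α : Type*} (g : α → G)
    (h1 : ∀ a, g a ∈ L) (h2 : ∀ a b, (g a)⁻¹ * g b ∈ H → a = b)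
    (h3 : ∀ x ∈ L, ∃ a, (g a)⁻¹ * x ∈ H) : H.relIndex L = Nat.card α := by
  unfold Subgroup.relIndex Subgroup.index
  symm
  refine Nat.card_eq_of_bijective
    (fun a => (QuotientGroup.mk (⟨g a, h1 a⟩ : L) : L ⧸ H.subgroupOf L)) ⟨?_, ?_⟩
  · intro a b hab
    rw [QuotientGroup.eq] at hab
    exact h2 a b (by simpa [Subgroup.mem_subgroupOf] using hab)
  · intro y
    induction y using QuotientGroup.induction_on with
    | H x =>
      obtain ⟨a, ha⟩ := h3 x x.2
      refine ⟨a, ?_⟩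
      rw [QuotientGroup.eq]
      simpa [Subgroup.mem_subgroupOf] using ha

/-- finiteness of a relative index from a finite covering family -/
lemma relIndex_ne_zero_of_reps {G : Type*} [Group G] (H L : Subgroup G) {α : Type*} [Finite α]
    (g : α → G) (h3 : ∀ x ∈ L, ∃ a, (g a)⁻¹ * x ∈ H) : H.relIndex L ≠ 0 := by
  have : Nonempty α := (h3 1 L.one_mem).nonempty
  choose! f hf using h3
  have : Finite (L ⧸ H.subgroupOf L) := by
    refine Finite.of_injective (fun y : L ⧸ H.subgroupOf L => f (y.out : L)) ?_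
    intro y z hyz
    rw [← QuotientGroup.out_eq' y, ← QuotientGroup.out_eq' z, QuotientGroup.eq,
      Subgroup.mem_subgroupOf]
    have hy := hf _ (y.out : L).2
    have hz := hf _ (z.out : L).2
    simp only at hyz
    rw [hyz] at hy
    have := H.mul_mem (H.inv_mem hy) hz
    simpa [mul_assoc] using this
  unfold Subgroup.relIndex
  exact Subgroup.index_ne_zero_of_finite

/-- kernel and cokernel of the `n`-th power map on the finite group `U / W` have the same order -/
lemma relIndex_pow_ker_coker {G : Type*} [CommGroup G] (n : ℕ) (W U : Subgroup G) (hWU : W ≤ U)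
    (hfin : W.relIndex U ≠ 0) :
    (U.map (powMonoidHom n) ⊔ W).relIndex U = W.relIndex (U ⊓ W.comap (powMonoidHom n)) := by
  set ψ : G →* G := powMonoidHom n with hψ
  set Z := U ⊓ W.comap ψ with hZ
  have hWZ : W ≤ Z := le_inf hWU (fun x hx => by
    simpa [hψ] using W.pow_mem hx n)
  have hZU : Z ≤ U := inf_le_left
  have hIU : U.map ψ ⊔ W ≤ U := sup_le (by
    rintro _ ⟨x, hx, rfl⟩
    simpa [hψ] using U.pow_mem hx n) hWU
  have e1 : W.relIndex Z * Z.relIndex U = W.relIndex U := Subgroup.relIndex_mul_relIndex _ _ _ hWZ hZU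
  have e2 : W.relIndex (U.map ψ ⊔ W) * (U.map ψ ⊔ W).relIndex U = W.relIndex U :=
    Subgroup.relIndex_mul_relIndex _ _ _ le_sup_right hIU
  have e3 : Z.relIndex U = W.relIndex (U.map ψ ⊔ W) := by
    rw [hZ, Subgroup.inf_relIndex_left, Subgroup.relIndex_comap, Subgroup.relIndex_sup_right]
  have h0 : Z.relIndex U ≠ 0 := by
    intro h
    rw [h, mul_zero] at e1
    exact hfin e1.symm
  rw [← e3] at e2
  have : Z.relIndex U * (U.map ψ ⊔ W).relIndex U = Z.relIndex U * W.relIndex Z := by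
    rw [e2, mul_comm, e1]
  exact Nat.eq_of_mul_eq_mul_left (Nat.pos_of_ne_zero h0) this

end abstract

variable {K : Type*} [Field K] [NumberField K]

/-- `Ulev v M`: the `v`-units that are `≡ 1 mod v ^ M` (for `M = 0`: all `v`-units) -/
def Ulev (v : Pl K) (M : ℕ) : Subgroup Kˣ where
  carrier := {a | ord v (a : K) = 0 ∧ One v M (a : K)}
  mul_mem' := by
    rintro a b ⟨ha, ha'⟩ ⟨hb, hb'⟩
    refine ⟨?_, by simpa using ha'.mul hb'⟩
    rw [Units.val_mul, ord_mul v a.ne_zero b.ne_zero, ha, hb, add_zero]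
  one_mem' := ⟨by simpa using ord_one v, by simpa using one_one v M⟩
  inv_mem' := by
    rintro a ⟨ha, ha'⟩
    refine ⟨by rw [Units.val_inv_eq_inv_val, ord_inv, ha, neg_zero], ?_⟩
    rcases Nat.eq_zero_or_pos M with rfl | hM
    · rw [one_zero_iff, Units.val_inv_eq_inv_val, map_inv₀,
        (ord_eq_zero_iff v a.ne_zero).1 ha, inv_one]
    · simpa using ha'.inv hM

lemma mem_ulev {v : Pl K} {M : ℕ} {a : Kˣ} :
    a ∈ Ulev v M ↔ ord v (a : K) = 0 ∧ One v M (a : K) := Iff.rfl

lemma mem_ulev_zero {v : Pl K} {a : Kˣ} : a ∈ Ulev v 0 ↔ ord v (a : K) = 0 := by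
  rw [mem_ulev, one_zero_iff]
  refine ⟨fun h => h.1, fun h => ⟨h, ?_⟩⟩
  rw [(ord_eq_zero_iff v a.ne_zero).1 h]

lemma mem_ulev_of_pos {v : Pl K} {M : ℕ} (hM : 1 ≤ M) {a : Kˣ} :
    a ∈ Ulev v M ↔ One v M (a : K) :=
  ⟨fun h => h.2, fun h => ⟨h.ord_eq_zero hM, h⟩⟩

lemma ulev_anti (v : Pl K) {M N : ℕ} (h : M ≤ N) : Ulev v N ≤ Ulev v M :=
  fun _ ha => ⟨ha.1, ha.2.mono h⟩

end Claimed.Agent.R239.CFT
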