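import Claimed.Agent.R239.CFT.P3c3

/-!
# R239 / CFT : package P3c, part 4 : the step from level `M` to level `M + 1`  (helper96)
-/

set_option autoImplicit false

namespace Claimed.Agent.R239.CFT

open IsDedekindDomain NumberField

/-- `∏ (1 + z t_i) = 1 + z ∑ t_i + O(z ^ 2)`.  [Finset induction.] -/
lemma val_prod_one_add_sub_le {R Γ : Type*} [CommRing R] [LinearOrderedCommGroupWithZero Γ]
    (val : Valuation R Γ) {ι : Type*} (s : Finset ι) (t : ι → R) (ht : ∀ i ∈ s, val (t i) ≤ 1)
    {z : R} (hz : val z ≤ 1) :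
    val (∏ i ∈ s, (1 + z * t i) - 1 - z * ∑ i ∈ s, t i) ≤ val z ^ 2 := by
  classical
  induction s using Finset.induction_on with
  | empty => simp
  | insert a s ha ih =>
    have ih' := ih (fun i hi => ht i (Finset.mem_insert_of_mem hi))
    have hta := ht a (Finset.mem_insert_self a s)
    have hsum : val (∑ i ∈ s, t i) ≤ 1 :=
      Valuation.map_sum_le _ (fun i hi => ht i (Finset.mem_insert_of_mem hi))
    rw [Finset.prod_insert ha, Finset.sum_insert ha]
    have e : (1 + z * t a) * (∏ i ∈ s, (1 + z * t i)) - 1 - z * (t a + ∑ i ∈ s, t i) =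
        (∏ i ∈ s, (1 + z * t i) - 1 - z * ∑ i ∈ s, t i) + z ^ 2 * (t a * ∑ i ∈ s, t i) +
          z * t a * (∏ i ∈ s, (1 + z * t i) - 1 - z * ∑ i ∈ s, t i) := by ring
    rw [e]
    refine le_trans (val.map_add _ _) (max_le (le_trans (val.map_add _ _) (max_le ih' ?_)) ?_)
    · rw [map_mul, map_pow, map_mul]
      calc val z ^ 2 * (val (t a) * val (∑ i ∈ s, t i)) ≤ val z ^ 2 * 1 := by
            gcongr
            exact mul_le_one' hta hsum
        _ = val z ^ 2 := mul_one _
    · rw [map_mul, map_mul]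
      calc val z * val (t a) * val (∏ i ∈ s, (1 + z * t i) - 1 - z * ∑ i ∈ s, t i)
          ≤ 1 * 1 * val z ^ 2 := by gcongr
        _ = val z ^ 2 := by simp

variable (K : Type*) [Field K] [NumberField K] (L : Type*) [Field L] [NumberField L] [Algebra K L]
  [IsGalois K L]

/-- [`θ` of `exists_trace_unit_of_unram`, `u = Tr θ`, `a = 1 + y`, `z = y / u`, `c = 1 + z θ`;
`Norm c = ∏_τ (1 + z τ θ) = 1 + y + R`, `val_w R ≤ val_w z ^ 2` at any `w | v`
(`val_prod_one_add_sub_le`, `val_smul`), `R ∈ K`, `val_algebraMap` with `eidx = 1` (`unram_iff`).] -/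
theorem exists_norm_step_of_unram (v : Pl K) (h : Unram K L v) (M : ℕ) (hM : 1 ≤ M) (a : Kˣ)
    (ha : One v M (a : K)) :
    ∃ c : Lˣ, (∀ w : Pl L, below K L w = v → ord w (c : L) = 0) ∧
      One v (M + 1) ((a : K) / Algebra.norm K (c : L)) := by
  obtain ⟨θ, hθ⟩ := exists_trace_unit_of_unram K L v h
  set u := Algebra.trace K L (θ : L) with hu
  have hu0 : u ≠ 0 := by
    intro h0
    rw [h0, map_zero] at hθ
    exact zero_ne_one hθ
  set y := (a : K) - 1 with hy
  have hvy : v.valuation K y ≤ WithZero.exp (-(M : ℤ)) := ha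
  set z := y / u with hz
  have hvz : v.valuation K z ≤ WithZero.exp (-(M : ℤ)) := by
    rw [hz, map_div₀, hθ, div_one]
    exact hvy
  have hvz1 : v.valuation K z < 1 := lt_of_le_of_lt hvz (by
    rw [← WithZero.exp_zero, WithZero.exp_lt_exp]
    omega)
  have hvw : ∀ w : Pl L, below K L w = v → ∀ x : K,
      w.valuation L (algebraMap K L x) = v.valuation K x := by
    intro w hw x
    rw [val_algebraMap, hw, (unram_iff K L v).1 h w hw, pow_one]
  set c : L := 1 + algebraMap K L z * (θ : L) with hc
  have hcw : ∀ w : Pl L, below K L w = v → w.valuation L c = 1 := by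
    intro w hw
    have h1 : w.valuation L (algebraMap K L z * (θ : L)) < 1 := by
      rw [map_mul, hvw w hw]
      calc v.valuation K z * w.valuation L (θ : L) ≤ v.valuation K z * 1 := by
            gcongr
            exact w.valuation_le_one θ
        _ < 1 := by rwa [mul_one]
    have := Valuation.map_add_eq_of_lt_left (w.valuation L) (x := 1)
      (y := algebraMap K L z * (θ : L)) (by simpa using h1)
    simpa using this
  obtain ⟨w, hw⟩ := exists_above K L v
  have hc0 : c ≠ 0 := by
    intro h0
    have := hcw w hw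
    rw [h0, map_zero] at this
    exact zero_ne_one this
  refine ⟨Units.mk0 c hc0, fun w hw => (ord_eq_zero_iff w hc0).2 (hcw w hw), ?_⟩
  have hN : algebraMap K L (Algebra.norm K c) =
      ∏ τ : Gal(L/K), (1 + algebraMap K L z * τ (θ : L)) := by
    rw [Algebra.norm_eq_prod_automorphisms]
    refine Finset.prod_congr rfl fun τ _ => ?_
    simp [hc]
  have hT : algebraMap K L u = ∑ τ : Gal(L/K), τ (θ : L) := trace_eq_sum_automorphisms (K := K) (θ : L)
  have hR := val_prod_one_add_sub_le (w.valuation L) Finset.univ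
    (fun τ : Gal(L/K) => τ (θ : L)) (fun τ _ => w.valuation_le_one (τ • θ))
    (z := algebraMap K L z) (by rw [hvw w hw]; exact hvz1.le)
  rw [← hN, ← hT, ← map_mul, ← map_one (algebraMap K L), ← map_sub, ← map_sub, hvw w hw,
    hvw w hw] at hR
  have hzu : z * u = y := div_mul_cancel₀ y hu0
  rw [hzu] at hR
  have hsq : v.valuation K z ^ 2 ≤ WithZero.exp (-((M + 1 : ℕ) : ℤ)) := by
    calc v.valuation K z ^ 2 ≤ WithZero.exp (-(M : ℤ)) ^ 2 := by gcongr
      _ = WithZero.exp (2 * (-(M : ℤ))) := by
        rw [← WithZero.exp_nsmul]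
        simp
      _ ≤ WithZero.exp (-((M + 1 : ℕ) : ℤ)) := by
        rw [WithZero.exp_le_exp]
        push_cast
        omega
  have hR' : v.valuation K (Algebra.norm K c - (a : K)) ≤ WithZero.exp (-((M + 1 : ℕ) : ℤ)) := by
    have e : Algebra.norm K c - (a : K) = Algebra.norm K c - 1 - y := by rw [hy]; ring
    rw [e]
    exact le_trans hR hsq
  have hva : v.valuation K (a : K) = 1 := ha.val_eq_one hM
  have hvN : v.valuation K (Algebra.norm K c) = 1 := by
    have hlt : v.valuation K (Algebra.norm K c - (a : K)) < v.valuation K (a : K) := by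
      rw [hva]
      refine lt_of_le_of_lt hR' ?_
      rw [← WithZero.exp_zero, WithZero.exp_lt_exp]
      push_cast
      omega
    have := Valuation.map_add_eq_of_lt_left (v.valuation K) hlt
    rw [add_sub_cancel, hva] at this
    exact this
  have hN0 : Algebra.norm K c ≠ 0 := by
    intro h0
    rw [h0, map_zero] at hvN
    exact zero_ne_one hvN
  refine one_div_of_val_sub_le v hN0 ?_
  rw [Units.val_mk0, hvN, mul_one, ← Valuation.map_neg, neg_sub]
  exact hR'

end Claimed.Agent.R239.CFT
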