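import Claimed.Agent.R239.CFT.P3a
import Claimed.Agent.R239.CFT.P3c4

/-!
# R239 / CFT : package P3c (unramified and split primes)

Output statements of the package (see `Blueprint.lean`).  The owner of the package owns this file and
replaces the `sorry`s in place; names and statements are frozen (ask helper97 for changes).

Assembly (helper96) from `P3c1` (finite fields), `P3c2` (norm and trace mod `w₀`), `P3c3` (level one),
`P3c4` (step).
-/

set_option autoImplicit false

namespace Claimed.Agent.R239.CFT

open IsDedekindDomain NumberField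

variable (K : Type*) [Field K] [NumberField K] (L : Type*) [Field L] [NumberField L] [Algebra K L]

/-- Blueprint 3.5 (the approximating elements can be taken to be units above `v`) -/
theorem nloc_of_unram' [IsGalois K L] (v : Pl K) (h : Unram K L v) (a : Kˣ) (ha : ord v (a : K) = 0)
    (N : ℕ) : ∃ b : Lˣ, (∀ w : Pl L, below K L w = v → ord w (b : L) = 0) ∧
      One v N ((a : K) / Algebra.norm K (b : L)) := by
  have key : ∀ N : ℕ, ∃ b : Lˣ, (∀ w : Pl L, below K L w = v → ord w (b : L) = 0) ∧
      One v (N + 1) ((a : K) / Algebra.norm K (b : L)) := by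
    intro N
    induction N with
    | zero => exact exists_norm_one_of_unram K L v h a ha
    | succ N ih =>
      obtain ⟨b, hb, hb1⟩ := ih
      obtain ⟨c, hc, hc1⟩ := exists_norm_step_of_unram K L v h (N + 1) (by omega)
        (a / normU K L b) (by simpa using hb1)
      refine ⟨b * c, fun w hw => ?_, ?_⟩
      · rw [Units.val_mul, ord_mul w b.ne_zero c.ne_zero, hb w hw, hc w hw, add_zero]
      · have e : (a : K) / Algebra.norm K ((b * c : Lˣ) : L) =
            ((a / normU K L b : Kˣ) : K) / Algebra.norm K (c : L) := by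
          simp [div_div]
        rw [e]
        exact hc1
  obtain ⟨b, hb, hb1⟩ := key N
  exact ⟨b, hb, hb1.mono (Nat.le_succ N)⟩

/-- Blueprint 3.5 -/
theorem nloc_of_unram [IsGalois K L] (v : Pl K) (h : Unram K L v) (a : Kˣ) (ha : ord v (a : K) = 0) :
    a ∈ Nloc K L v := fun N => (nloc_of_unram' K L v h a ha N).imp fun _ hb => hb.2

/-- Blueprint 3.7 -/
theorem nloc_of_split [IsGalois K L] (v : Pl K) (h : Split K L v) : Nloc K L v = ⊤ := by
  classical
  rw [eq_top_iff]
  intro a _
  obtain ⟨w₀, hw₀⟩ := exists_above K L v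
  have key : ∀ N : ℕ, ∃ b : Lˣ, One v (N + 1) ((a : K) / Algebra.norm K (b : L)) := by
    intro N
    set N' := (N + 1) * eidx K L w₀ with hN'
    obtain ⟨b, hb⟩ := weak_approx_above (K := K) {v}
      (fun w => if w = w₀ then Units.map (algebraMap K L).toMonoidHom a else 1) N'
    refine ⟨b, ?_⟩
    have h0 : One w₀ N' ((b : L) / algebraMap K L a) := by
      simpa using hb w₀ (by simp [hw₀])
    have h1 : ∀ τ : Gal(L/K), τ ≠ 1 → One w₀ N' (τ (b : L)) := by
      intro τ hτ
      have hne : τ⁻¹ • w₀ ≠ w₀ := by
        intro he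
        have h2 : τ⁻¹ ∈ MulAction.stabilizer Gal(L/K) w₀ := he
        rw [stabilizer_pl_eq, h w₀ hw₀, Subgroup.mem_bot, inv_eq_one] at h2
        exact hτ h2
      have h2 := hb (τ⁻¹ • w₀) (by simp [below_smul, hw₀])
      rw [if_neg hne] at h2
      have h3 : One (τ⁻¹ • w₀) N' (b : L) := by simpa using h2
      have h4 := One.smul K L h3 τ
      simpa using h4
    have h2 : One w₀ N' (algebraMap K L (Algebra.norm K (b : L) / a)) := by
      rw [map_div₀, Algebra.norm_eq_prod_automorphisms,
        ← Finset.mul_prod_erase Finset.univ _ (Finset.mem_univ (1 : Gal(L/K)))]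
      have e : (1 : Gal(L/K)) (b : L) * (∏ τ ∈ Finset.univ.erase (1 : Gal(L/K)), τ (b : L)) /
          algebraMap K L a =
          ((b : L) / algebraMap K L a) * ∏ τ ∈ Finset.univ.erase (1 : Gal(L/K)), τ (b : L) := by
        rw [AlgEquiv.one_apply]
        ring
      rw [e]
      exact h0.mul (One.prod _ _ fun τ hτ => h1 τ (Finset.ne_of_mem_erase hτ))
    rw [hN', one_algebraMap_iff, hw₀] at h2
    have h3 := h2.inv (by omega)
    simpa using h3
  intro N
  obtain ⟨b, hb⟩ := key N
  exact ⟨b, hb.mono (Nat.le_succ N)⟩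

end Claimed.Agent.R239.CFT
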