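import Mathlib

/-!
# R239 / CFT : package P3c, part 1 : two facts on finite fields (norm and trace are not degenerate)
-/

set_option autoImplicit false

namespace Claimed.Agent.R239.CFT

/-- surjectivity of the norm `F → F_q` in elementary form.
[`Fˣ` is cyclic of order `q^f - 1 = (q - 1) m`, `m = ∑_{j<f} q^j` (`Nat.geomSum_eq` /
`Nat.pred_mul_geom_sum_le`, `geom_sum_mul`); `a = g^k`, `a^(q-1) = 1` so `(q-1) m ∣ k (q-1)`, `m ∣ k`,
`β = g^(k/m)`.] -/
lemma ff_exists_pow_geomSum_eq {F : Type*} [Field F] [Finite F] {q f : ℕ} (hq : 2 ≤ q) (hf : 0 < f)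
    (hcard : Nat.card F = q ^ f) {a : F} (ha0 : a ≠ 0) (ha : a ^ q = a) :
    ∃ β : F, β ≠ 0 ∧ β ^ (∑ j ∈ Finset.range f, q ^ j) = a := by
  classical
  have := Fintype.ofFinite F
  obtain ⟨g, hg⟩ := IsCyclic.exists_generator (α := Fˣ)
  set m := ∑ j ∈ Finset.range f, q ^ j with hm
  have hgeo : m * (q - 1) + 1 = q ^ f := by
    have h := geom_sum_mul_add (q - 1) f
    rwa [Nat.sub_add_cancel (by omega : 1 ≤ q)] at h
  have hord : orderOf g = m * (q - 1) := by
    rw [orderOf_eq_card_of_forall_mem_zpowers hg, Nat.card_eq_fintype_card, Fintype.card_units,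
      ← Nat.card_eq_fintype_card, hcard, ← hgeo, Nat.add_sub_cancel]
  obtain ⟨k, hk⟩ := (mem_powers_iff_mem_zpowers (x := g)).2 (hg (Units.mk0 a ha0))
  have hk' : g ^ k = Units.mk0 a ha0 := hk
  have h1 : (Units.mk0 a ha0) ^ (q - 1) = 1 := by
    apply Units.ext
    rw [Units.val_pow_eq_pow_val, Units.val_mk0, Units.val_one]
    have h2 : a ^ (q - 1) * a = 1 * a := by
      rw [← pow_succ, Nat.sub_add_cancel (by omega : 1 ≤ q), ha, one_mul]
    exact mul_right_cancel₀ ha0 h2
  rw [← hk', ← pow_mul] at h1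
  have hdvd : m * (q - 1) ∣ k * (q - 1) := hord ▸ orderOf_dvd_of_pow_eq_one h1
  have hmk : m ∣ k := Nat.dvd_of_mul_dvd_mul_right (by omega) hdvd
  obtain ⟨c, rfl⟩ := hmk
  refine ⟨((g ^ c : Fˣ) : F), Units.ne_zero _, ?_⟩
  rw [← Units.val_pow_eq_pow_val, ← pow_mul, mul_comm c m, hk', Units.val_mk0]

/-- the trace `F → F_q` is not zero, in elementary form.
[the polynomial `∑_{j<f} X^(q^j)` is nonzero of degree `q^(f-1) < q^f = card F`.] -/
lemma ff_exists_sum_pow_ne_zero {F : Type*} [Field F] [Finite F] {q f : ℕ} (hq : 2 ≤ q) (hf : 0 < f)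
    (hcard : Nat.card F = q ^ f) : ∃ θ : F, ∑ j ∈ Finset.range f, θ ^ (q ^ j) ≠ 0 := by
  classical
  have := Fintype.ofFinite F
  by_contra hcon
  push Not at hcon
  set P : Polynomial F := ∑ j ∈ Finset.range f, Polynomial.X ^ (q ^ j) with hP
  have hdeg : P.natDegree ≤ q ^ (f - 1) := by
    apply Polynomial.natDegree_sum_le_of_forall_le
    intro j hj
    rw [Polynomial.natDegree_X_pow]
    exact Nat.pow_le_pow_right (by omega) (by have := Finset.mem_range.1 hj; omega)
  have hlt : q ^ (f - 1) < q ^ f := Nat.pow_lt_pow_right (by omega) (by omega)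
  have hzero : P = 0 := by
    apply Polynomial.eq_zero_of_natDegree_lt_card_of_eval_eq_zero' P Finset.univ
    · intro θ _
      rw [hP, Polynomial.eval_finsetSum]
      simpa using hcon θ
    · rw [Finset.card_univ, ← Nat.card_eq_fintype_card, hcard]
      omega
  have hcoef : P.coeff (q ^ (f - 1)) = 1 := by
    rw [hP, Polynomial.finsetSum_coeff]
    rw [Finset.sum_eq_single (f - 1)]
    · simp
    · intro j _ hj
      rw [Polynomial.coeff_X_pow, if_neg]
      intro h
      exact hj (Nat.pow_right_injective hq h).symm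
    · intro h
      exact absurd (Finset.mem_range.2 (by omega)) h
  rw [hzero] at hcoef
  simp at hcoef

end Claimed.Agent.R239.CFT
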