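import Claimed.Agent.R239.CFT.I0

/-!
# R239 / CFT : package P3c, part 2 : global norm and trace modulo an unramified prime `w₀`

`G = Gal(L/K)`, `w₀` a prime of `L` over the unramified prime `v`, `σ` a Frobenius element at `w₀`
(`exists_isArithFrobAt`), `D = stabilizer w₀ = zpowers σ` (`stabilizer_eq_zpowers`), of order
`f = fdeg w₀` (`card_stabilizer`, `unram_iff`), so `D = {σ^j : j < f}`; `IsArithFrobAt_pow_mk`:
`mk (σ^j • x) = (mk x)^(q^j)`.  For `τ ∉ D`: `w := τ⁻¹ • w₀ ≠ w₀` lies over `v`, and `x ∈ w` gives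
`τ • x ∈ w₀`.   (helper96; sorry-free)
-/

set_option autoImplicit false

namespace Claimed.Agent.R239.CFT

open IsDedekindDomain NumberField

lemma prod_univ_eq_prod_range_orderOf {G M : Type*} [Group G] [Fintype G] [CommMonoid M] (σ : G)
    (g : G → M) (hg : ∀ τ, τ ∉ Subgroup.zpowers σ → g τ = 1) :
    ∏ τ : G, g τ = ∏ j ∈ Finset.range (orderOf σ), g (σ ^ j) := by
  classical
  rw [← Finset.prod_image (s := Finset.range (orderOf σ)) (g := fun j => σ ^ j) (f := g)]
  · symm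
    apply Finset.prod_subset (Finset.subset_univ _)
    intro τ _ hτ
    apply hg
    rwa [mem_zpowers_iff_mem_range_orderOf]
  · intro i hi j hj hij
    exact pow_injOn_Iio_orderOf (by simpa using hi) (by simpa using hj) hij

lemma sum_univ_eq_sum_range_orderOf {G M : Type*} [Group G] [Fintype G] [AddCommMonoid M] (σ : G)
    (g : G → M) (hg : ∀ τ, τ ∉ Subgroup.zpowers σ → g τ = 0) :
    ∑ τ : G, g τ = ∑ j ∈ Finset.range (orderOf σ), g (σ ^ j) := by
  classical
  rw [← Finset.sum_image (s := Finset.range (orderOf σ)) (g := fun j => σ ^ j) (f := g)]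
  · symm
    apply Finset.sum_subset (Finset.subset_univ _)
    intro τ _ hτ
    apply hg
    rwa [mem_zpowers_iff_mem_range_orderOf]
  · intro i hi j hj hij
    exact pow_injOn_Iio_orderOf (by simpa using hi) (by simpa using hj) hij

variable (K : Type*) [Field K] [NumberField K] (L : Type*) [Field L] [NumberField L] [Algebra K L]
  [IsGalois K L]

open Pointwise in
/-- an element of the other primes over `v` is moved into `w₀` by `τ ∉ D` -/
lemma smul_mem_of_notMem_stabilizer {w₀ : Pl L} {τ : Gal(L/K)}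
    (hτ : τ ∉ MulAction.stabilizer Gal(L/K) w₀.asIdeal) (x : 𝓞 L)
    (hx : ∀ w : Pl L, below K L w = below K L w₀ → w ≠ w₀ → x ∈ w.asIdeal) :
    τ • x ∈ w₀.asIdeal := by
  have hne : τ⁻¹ • w₀ ≠ w₀ := by
    intro he
    have h2 : τ⁻¹ ∈ MulAction.stabilizer Gal(L/K) w₀ := he
    rw [stabilizer_pl_eq] at h2
    exact hτ (by simpa using Subgroup.inv_mem _ h2)
  have h1 := hx (τ⁻¹ • w₀) (below_smul K L _ _) hne
  rwa [smul_asIdeal, Ideal.mem_inv_pointwise_smul_iff] at h1

lemma orderOf_frob_of_unram {w₀ : Pl L} (hur : Unram K L (below K L w₀)) {σ : Gal(L/K)}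
    (hσ : IsArithFrobAt (𝓞 K) σ w₀.asIdeal) : orderOf σ = fdeg K L w₀ := by
  have := card_stabilizer K L w₀
  rwa [stabilizer_eq_zpowers K L hur hσ, Nat.card_zpowers, (unram_iff K L _).1 hur w₀ rfl,
    one_mul] at this

theorem mk_prod_smul_of_unram {w₀ : Pl L} (hur : Unram K L (below K L w₀)) (b : 𝓞 L)
    (hb : ∀ w : Pl L, below K L w = below K L w₀ → w ≠ w₀ → b - 1 ∈ w.asIdeal) :
    Ideal.Quotient.mk w₀.asIdeal (∏ τ : Gal(L/K), τ • b) =
      (Ideal.Quotient.mk w₀.asIdeal b) ^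
        (∑ j ∈ Finset.range (fdeg K L w₀), Nat.card (𝓞 K ⧸ (below K L w₀).asIdeal) ^ j) := by
  classical
  obtain ⟨σ, hσ⟩ := exists_isArithFrobAt K L w₀
  rw [map_prod, prod_univ_eq_prod_range_orderOf σ, orderOf_frob_of_unram K L hur hσ]
  · rw [← Finset.prod_pow_eq_pow_sum]
    exact Finset.prod_congr rfl fun j _ => IsArithFrobAt_pow_mk hσ j b
  · intro τ hτ
    rw [← stabilizer_eq_zpowers K L hur hσ] at hτ
    have h1 := smul_mem_of_notMem_stabilizer K L hτ (b - 1) hb
    rw [smul_sub, smul_one] at h1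
    rw [← map_one (Ideal.Quotient.mk w₀.asIdeal), Ideal.Quotient.eq]
    exact h1

theorem mk_sum_smul_of_unram {w₀ : Pl L} (hur : Unram K L (below K L w₀)) (θ : 𝓞 L)
    (hθ : ∀ w : Pl L, below K L w = below K L w₀ → w ≠ w₀ → θ ∈ w.asIdeal) :
    Ideal.Quotient.mk w₀.asIdeal (∑ τ : Gal(L/K), τ • θ) =
      ∑ j ∈ Finset.range (fdeg K L w₀),
        (Ideal.Quotient.mk w₀.asIdeal θ) ^ (Nat.card (𝓞 K ⧸ (below K L w₀).asIdeal) ^ j) := by
  classical
  obtain ⟨σ, hσ⟩ := exists_isArithFrobAt K L w₀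
  rw [map_sum, sum_univ_eq_sum_range_orderOf σ, orderOf_frob_of_unram K L hur hσ]
  · exact Finset.sum_congr rfl fun j _ => IsArithFrobAt_pow_mk hσ j θ
  · intro τ hτ
    rw [← stabilizer_eq_zpowers K L hur hσ] at hτ
    exact Ideal.Quotient.eq_zero_iff_mem.2 (smul_mem_of_notMem_stabilizer K L hτ θ hθ)

end Claimed.Agent.R239.CFT
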