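import Claimed.Agent.R239.CFT.P3c1
import Claimed.Agent.R239.CFT.P3c2
import Claimed.Agent.R239.CFT.P3b3

/-!
# R239 / CFT : package P3c, part 3 : level one (residue norm onto, trace of a local integer a unit)
-/

set_option autoImplicit false

namespace Claimed.Agent.R239.CFT

open IsDedekindDomain NumberField

section aux

variable {K : Type*} [Field K] [NumberField K]

lemma p3c3_lt_one_iff (v : Pl K) (y : K) :
    v.valuation K y < 1 ↔ v.valuation K y ≤ WithZero.exp (-((1 : ℕ) : ℤ)) := by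
  by_cases hy : y = 0
  · subst hy
    simp
  · rw [← le_ord_iff v hy, ← ord_pos_iff v hy]
    push_cast
    omega

lemma p3c3_val_lt_one_iff_mem (v : Pl K) (x : 𝓞 K) :
    v.valuation K (x : K) < 1 ↔ x ∈ v.asIdeal := by
  rw [p3c3_lt_one_iff, val_le_exp_iff_mem_pow, pow_one]

lemma p3c3_val_eq_one_of_notMem (v : Pl K) (x : 𝓞 K) (hx : x ∉ v.asIdeal) :
    v.valuation K (x : K) = 1 :=
  le_antisymm (v.valuation_le_one x) (not_lt.1 (mt (p3c3_val_lt_one_iff_mem v x).1 hx))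

lemma p3c3_finite_quot (v : Pl K) : Finite (𝓞 K ⧸ v.asIdeal) :=
  Ideal.finiteQuotientOfFreeOfNeBot v.asIdeal v.ne_bot

lemma p3c3_two_le_card (v : Pl K) : 2 ≤ Nat.card (𝓞 K ⧸ v.asIdeal) := by
  have := p3c3_finite_quot v
  have : Nontrivial (𝓞 K ⧸ v.asIdeal) := Ideal.Quotient.nontrivial_iff.2 v.isPrime.ne_top
  exact Finite.one_lt_card

lemma p3c3_pow_card_sub_mem (v : Pl K) (x : 𝓞 K) :
    x ^ Nat.card (𝓞 K ⧸ v.asIdeal) - x ∈ v.asIdeal := by
  have := p3c3_finite_quot v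
  have := v.isMaximal
  let := Ideal.Quotient.field v.asIdeal
  let := Fintype.ofFinite (𝓞 K ⧸ v.asIdeal)
  rw [← Ideal.Quotient.eq, map_pow, Nat.card_eq_fintype_card]
  exact FiniteField.pow_card _

end aux

variable (K : Type*) [Field K] [NumberField K] (L : Type*) [Field L] [NumberField L] [Algebra K L]
  [IsGalois K L]

omit [IsGalois K L] in
/-- CRT over the primes above `below w₀` -/
lemma p3c3_crt (w₀ : Pl L) (x₀ c : 𝓞 L) : ∃ b : 𝓞 L, b - x₀ ∈ w₀.asIdeal ∧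
    ∀ w : Pl L, below K L w = below K L w₀ → w ≠ w₀ → b - c ∈ w.asIdeal := by
  classical
  obtain ⟨y, hy⟩ := IsDedekindDomain.exists_forall_sub_mem_ideal
    (s := (finite_above K L (below K L w₀)).toFinset) (fun w : Pl L => w.asIdeal) (fun _ => 1)
    (fun w _ => w.prime) (fun w _ w' _ hne he => hne (HeightOneSpectrum.ext he))
    (fun w => if w.1 = w₀ then x₀ else c)
  refine ⟨y, ?_, fun w hw hne => ?_⟩
  · have := hy w₀ ((mem_toFinset_above K L).2 rfl)
    simpa using this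
  · have := hy w ((mem_toFinset_above K L).2 hw)
    simpa [hne] using this

omit [IsGalois K L] in
lemma p3c3_algebraMap_mem_iff (w : Pl L) (x : 𝓞 K) :
    algebraMap (𝓞 K) (𝓞 L) x ∈ w.asIdeal ↔ x ∈ (below K L w).asIdeal := Iff.rfl

/-- [`w₀ | v`; `a₀ : 𝓞 K` with `val (a - a₀) < 1` (`exists_integer_val_sub_lt`); its class in
`F = 𝓞 L ⧸ w₀` satisfies `x^q = x`, `x ≠ 0`; `ff_exists_pow_geomSum_eq` (`card_quot_pow_fdeg`) gives
`β₀ : 𝓞 L`; CRT (`IsDedekindDomain.exists_forall_sub_mem_ideal` over `(finite_above K L v).toFinset`):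
`b ≡ β₀ mod w₀`, `b ≡ 1 mod w` for the other `w | v`; `mk_prod_smul_of_unram`:
`∏ τ • b ≡ a₀ mod w₀`; `Algebra.norm_eq_prod_automorphisms`; `val_algebraMap`.] -/
theorem exists_norm_one_of_unram (v : Pl K) (h : Unram K L v) (a : Kˣ) (ha : ord v (a : K) = 0) :
    ∃ b : Lˣ, (∀ w : Pl L, below K L w = v → ord w (b : L) = 0) ∧
      One v 1 ((a : K) / Algebra.norm K (b : L)) := by
  classical
  obtain ⟨w₀, rfl⟩ := exists_above K L v
  set v := below K L w₀ with hv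
  have hva : v.valuation K (a : K) = 1 := (ord_eq_zero_iff v a.ne_zero).1 ha
  obtain ⟨a₀, ha₀⟩ := exists_integer_val_sub_lt v (le_of_eq hva)
  -- `a₀` is a unit at `v`
  have ha₀v : a₀ ∉ v.asIdeal := by
    intro hmem
    have h1 := (p3c3_val_lt_one_iff_mem v a₀).2 hmem
    have h2 : v.valuation K (a : K) < 1 := by
      have e : (a : K) = ((a : K) - (a₀ : K)) + (a₀ : K) := by ring
      rw [e]
      exact lt_of_le_of_lt ((v.valuation K).map_add _ _) (max_lt ha₀ h1)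
    rw [hva] at h2
    exact lt_irrefl _ h2
  -- the residue field
  have := w₀.isMaximal
  let := Ideal.Quotient.field w₀.asIdeal
  have := p3c3_finite_quot w₀
  set q := Nat.card (𝓞 K ⧸ v.asIdeal) with hq
  have hx0 : Ideal.Quotient.mk w₀.asIdeal (algebraMap (𝓞 K) (𝓞 L) a₀) ≠ 0 := by
    rw [Ne, Ideal.Quotient.eq_zero_iff_mem]
    exact ha₀v
  have hxq : (Ideal.Quotient.mk w₀.asIdeal (algebraMap (𝓞 K) (𝓞 L) a₀)) ^ q
      = Ideal.Quotient.mk w₀.asIdeal (algebraMap (𝓞 K) (𝓞 L) a₀) := by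
    rw [← map_pow, ← map_pow, Ideal.Quotient.eq, ← map_sub]
    exact p3c3_pow_card_sub_mem v a₀
  obtain ⟨β', hβ0, hβ⟩ := ff_exists_pow_geomSum_eq (p3c3_two_le_card v) (fdeg_pos K L w₀)
    (card_quot_pow_fdeg K L w₀).symm hx0 hxq
  obtain ⟨β₀, rfl⟩ := Ideal.Quotient.mk_surjective β'
  obtain ⟨b₁, hb₀, hb₁⟩ := p3c3_crt K L w₀ β₀ 1
  have hmk : Ideal.Quotient.mk w₀.asIdeal b₁ = Ideal.Quotient.mk w₀.asIdeal β₀ :=
    Ideal.Quotient.eq.2 hb₀
  have hprod := mk_prod_smul_of_unram K L h b₁ hb₁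
  rw [hmk, hβ, Ideal.Quotient.eq] at hprod
  -- `b₁` is a unit at all primes above `v`
  have hnot : ∀ w : Pl L, below K L w = v → b₁ ∉ w.asIdeal := by
    intro w hw hmem
    by_cases hww : w = w₀
    · subst hww
      apply hβ0
      rw [← hmk]
      exact Ideal.Quotient.eq_zero_iff_mem.2 hmem
    · have h1 := hb₁ w hw hww
      have h2 : (1 : 𝓞 L) ∈ w.asIdeal := by
        have := w.asIdeal.sub_mem hmem h1
        simpa using this
      exact w.isPrime.ne_top ((Ideal.eq_top_iff_one _).2 h2)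
  have hb10 : b₁ ≠ 0 := fun h0 => hnot w₀ rfl (by rw [h0]; exact w₀.asIdeal.zero_mem)
  have hb10' : (b₁ : L) ≠ 0 := by
    intro h0
    exact hb10 (RingOfIntegers.coe_injective (by simpa using h0))
  have hord : ∀ w : Pl L, below K L w = v → ord w (b₁ : L) = 0 := by
    intro w hw
    exact (ord_eq_zero_iff w hb10').2 (p3c3_val_eq_one_of_notMem w b₁ (hnot w hw))
  refine ⟨Units.mk0 (b₁ : L) hb10', hord, ?_⟩
  rw [Units.val_mk0]
  have hN0 : Algebra.norm K (b₁ : L) ≠ 0 := by simpa [Algebra.norm_eq_zero_iff] using hb10'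
  have hNv : v.valuation K (Algebra.norm K (b₁ : L)) = 1 := by
    rw [← ord_eq_zero_iff v hN0, ord_norm K L v hb10']
    apply Finset.sum_eq_zero
    intro w hw
    rw [hord w ((mem_toFinset_above K L).1 hw), mul_zero]
  apply one_div_of_val_sub_le v hN0
  rw [hNv, mul_one, ← p3c3_lt_one_iff]
  have e : (a : K) - Algebra.norm K (b₁ : L)
      = ((a : K) - (a₀ : K)) + ((a₀ : K) - Algebra.norm K (b₁ : L)) := by ring
  rw [e]
  refine lt_of_le_of_lt ((v.valuation K).map_add _ _) (max_lt ha₀ ?_)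
  have h3 := val_algebraMap K L w₀ ((a₀ : K) - Algebra.norm K (b₁ : L))
  rw [(unram_iff K L v).1 h w₀ rfl, pow_one] at h3
  rw [← h3, map_sub, Algebra.norm_eq_prod_automorphisms]
  have e2 : algebraMap K L (a₀ : K) - ∏ σ : Gal(L/K), σ (b₁ : L)
      = ((-(∏ τ : Gal(L/K), τ • b₁ - algebraMap (𝓞 K) (𝓞 L) a₀) : 𝓞 L) : L) := by
    push_cast
    simp only [AlgEquiv.smul_def]
    rw [neg_sub]
    rfl
  rw [e2, p3c3_val_lt_one_iff_mem]
  exact w₀.asIdeal.neg_mem hprod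

/-- [`ff_exists_sum_pow_ne_zero` gives `θ₀`; CRT: `θ ≡ θ₀ mod w₀`, `θ ≡ 0 mod w` for the other
`w | v`; `mk_sum_smul_of_unram`; `trace_eq_sum_automorphisms`.] -/
theorem exists_trace_unit_of_unram (v : Pl K) (h : Unram K L v) :
    ∃ θ : 𝓞 L, v.valuation K (Algebra.trace K L (θ : L)) = 1 := by
  classical
  obtain ⟨w₀, rfl⟩ := exists_above K L v
  set v := below K L w₀ with hv
  have := w₀.isMaximal
  let := Ideal.Quotient.field w₀.asIdeal
  have := p3c3_finite_quot w₀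
  obtain ⟨θ', hθ'⟩ := ff_exists_sum_pow_ne_zero (F := 𝓞 L ⧸ w₀.asIdeal) (p3c3_two_le_card v)
    (fdeg_pos K L w₀) (card_quot_pow_fdeg K L w₀).symm
  obtain ⟨θ₀, rfl⟩ := Ideal.Quotient.mk_surjective θ'
  obtain ⟨θ, hθ₀, hθ₁⟩ := p3c3_crt K L w₀ θ₀ 0
  have hmk : Ideal.Quotient.mk w₀.asIdeal θ = Ideal.Quotient.mk w₀.asIdeal θ₀ :=
    Ideal.Quotient.eq.2 hθ₀
  have hsum := mk_sum_smul_of_unram K L h θ (fun w hw hne => by simpa using hθ₁ w hw hne)
  rw [hmk] at hsum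
  have hnot : (∑ τ : Gal(L/K), τ • θ) ∉ w₀.asIdeal := by
    intro hmem
    apply hθ'
    rw [← hsum]
    exact Ideal.Quotient.eq_zero_iff_mem.2 hmem
  refine ⟨θ, ?_⟩
  have h3 := val_algebraMap K L w₀ (Algebra.trace K L (θ : L))
  rw [(unram_iff K L v).1 h w₀ rfl, pow_one] at h3
  rw [← h3, trace_eq_sum_automorphisms]
  have e2 : ∑ σ : Gal(L/K), σ (θ : L) = ((∑ τ : Gal(L/K), τ • θ : 𝓞 L) : L) := by
    push_cast
    rfl
  rw [e2]
  exact p3c3_val_eq_one_of_notMem w₀ _ hnot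

end Claimed.Agent.R239.CFT
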