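import Claimed.Agent.R239.CFT.I0

/-!
# R239 / CFT : package P3d, part 1 (normal basis lattices at a prime `v`)

`Iv v m = π^m O_v ⊆ K`, `IL v m = π^m B ⊆ L` (`B` the semilocal ring of `L` at `v`),
`Lam bs v m` = the `π^m O_v`-span of a normal basis.
-/

set_option autoImplicit false

namespace Claimed.Agent.R239.CFT

open IsDedekindDomain NumberField

namespace P3d

section base

variable {K : Type*} [Field K] [NumberField K]

/-- `π^m O_v` -/
def Iv (v : Pl K) (m : ℤ) : AddSubgroup K where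
  carrier := {x | v.valuation K x ≤ WithZero.exp (-m)}
  add_mem' := fun {a b} ha hb => le_trans ((v.valuation K).map_add a b) (max_le ha hb)
  zero_mem' := by simp
  neg_mem' := fun {a} ha => by simpa [Valuation.map_neg] using ha

lemma mem_Iv {v : Pl K} {m : ℤ} {x : K} : x ∈ Iv v m ↔ v.valuation K x ≤ WithZero.exp (-m) :=
  Iff.rfl

lemma Iv_anti (v : Pl K) {m m' : ℤ} (h : m ≤ m') : Iv v m' ≤ Iv v m := fun x hx =>
  mem_Iv.2 (le_trans (mem_Iv.1 hx) (by rw [WithZero.exp_le_exp]; omega))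

lemma mul_mem_Iv {v : Pl K} {j k : ℤ} {a b : K} (ha : a ∈ Iv v j) (hb : b ∈ Iv v k) :
    a * b ∈ Iv v (j + k) := by
  rw [mem_Iv] at *
  rw [map_mul, neg_add, WithZero.exp_add]
  exact mul_le_mul' ha hb

lemma mem_Iv_of_ord {v : Pl K} {m : ℤ} {x : K} (h : m ≤ ord v x) (hx : x ≠ 0) : x ∈ Iv v m :=
  (le_ord_iff v hx m).1 h

lemma exists_mem_Iv (v : Pl K) (x : K) : ∃ d : ℕ, x ∈ Iv v (-(d : ℤ)) := by
  by_cases hx : x = 0
  · exact ⟨0, by simp [hx, (Iv v _).zero_mem]⟩
  · refine ⟨(-ord v x).toNat, mem_Iv_of_ord ?_ hx⟩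
    omega

/-- finitely many residues: `π^j O_v / π^k O_v` is finite -/
theorem exists_finite_reps (v : Pl K) (j k : ℤ) :
    ∃ F : Set K, F.Finite ∧ ∀ x ∈ Iv v j, ∃ z ∈ F, x - z ∈ Iv v k := by
  obtain ⟨π, hπ⟩ := exists_ord_eq_one v
  have hπv : ∀ i : ℤ, v.valuation K ((π : K) ^ i) = WithZero.exp (-i) := by
    intro i
    rw [val_eq_exp_neg_ord v (zpow_ne_zero _ π.ne_zero), ord_zpow, hπ, mul_one]
  set N : ℕ := (k - j).toNat with hN
  have hne : v.asIdeal ^ N ≠ ⊥ := pow_ne_zero _ v.ne_bot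
  have : Finite (𝓞 K ⧸ v.asIdeal ^ N) := Ideal.finiteQuotientOfFreeOfNeBot _ hne
  refine ⟨Set.range fun q : 𝓞 K ⧸ v.asIdeal ^ N => (π : K) ^ j * ((Quotient.out q : 𝓞 K) : K),
    Set.finite_range _, ?_⟩
  intro x hx
  have hx' : v.valuation K ((π : K) ^ (-j) * x) ≤ 1 := by
    rw [map_mul, hπv]
    calc WithZero.exp (- -j) * v.valuation K x ≤ WithZero.exp (- -j) * WithZero.exp (-j) :=
          mul_le_mul' le_rfl hx
      _ = 1 := by rw [← WithZero.exp_add]; simp
  obtain ⟨a, ha⟩ := v.exists_valuation_sub_lt_of_integer hx'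
    (Units.mk0 (WithZero.exp (-(N : ℤ))) WithZero.exp_ne_zero)
  rw [Units.val_mk0] at ha
  refine ⟨_, ⟨Ideal.Quotient.mk _ a, rfl⟩, ?_⟩
  set z : 𝓞 K := Quotient.out (Ideal.Quotient.mk (v.asIdeal ^ N) a) with hz
  have h1 : a - z ∈ v.asIdeal ^ N := by
    rw [← Ideal.Quotient.eq]
    exact (Quotient.out_eq _).symm
  have h2 : v.valuation K ((a : K) - (z : K)) ≤ WithZero.exp (-(N : ℤ)) := by
    have := (val_le_exp_iff_mem_pow v (a - z) N).2 h1
    simpa using this
  have h3 : v.valuation K ((π : K) ^ (-j) * x - (z : K)) ≤ WithZero.exp (-(N : ℤ)) := by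
    have e : (π : K) ^ (-j) * x - (z : K) = -((a : K) - (π : K) ^ (-j) * x) + ((a : K) - (z : K)) := by
      ring
    rw [e]
    refine le_trans ((v.valuation K).map_add _ _) (max_le ?_ h2)
    rw [Valuation.map_neg]
    exact ha.le
  have e : x - (π : K) ^ j * (z : K) = (π : K) ^ j * ((π : K) ^ (-j) * x - (z : K)) := by
    rw [mul_sub, ← mul_assoc, ← zpow_add₀ π.ne_zero]
    simp
  rw [mem_Iv, e, map_mul, hπv]
  calc WithZero.exp (-j) * v.valuation K ((π : K) ^ (-j) * x - (z : K))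
      ≤ WithZero.exp (-j) * WithZero.exp (-(N : ℤ)) := mul_le_mul' le_rfl h3
    _ = WithZero.exp (-j + -(N : ℤ)) := (WithZero.exp_add _ _).symm
    _ ≤ WithZero.exp (-k) := by
      rw [WithZero.exp_le_exp]
      omega

end base

section rel

variable (K : Type*) [Field K] [NumberField K] (L : Type*) [Field L] [NumberField L] [Algebra K L]

/-- `π^m B`, `B` the semilocal ring of `L` at `v` -/
def IL (v : Pl K) (m : ℤ) : AddSubgroup L where
  carrier := {x | ∀ w : Pl L, below K L w = v → x ∈ Iv w (m * eidx K L w)}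
  add_mem' := fun ha hb w hw => (Iv w _).add_mem (ha w hw) (hb w hw)
  zero_mem' := fun w _ => (Iv w _).zero_mem
  neg_mem' := fun ha w hw => (Iv w _).neg_mem (ha w hw)

variable {K L}

lemma mem_IL {v : Pl K} {m : ℤ} {x : L} :
    x ∈ IL K L v m ↔ ∀ w : Pl L, below K L w = v → x ∈ Iv w (m * eidx K L w) := Iff.rfl

lemma IL_anti (v : Pl K) {m m' : ℤ} (h : m ≤ m') : IL K L v m' ≤ IL K L v m := fun _ hx w hw =>
  Iv_anti w (mul_le_mul_of_nonneg_right h (by positivity)) (hx w hw)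

lemma mul_mem_IL {v : Pl K} {j k : ℤ} {a b : L} (ha : a ∈ IL K L v j) (hb : b ∈ IL K L v k) :
    a * b ∈ IL K L v (j + k) := fun w hw => by
  rw [add_mul]
  exact mul_mem_Iv (ha w hw) (hb w hw)

lemma algebraMap_mem_Iv_iff (w : Pl L) (m : ℤ) (a : K) :
    algebraMap K L a ∈ Iv w (m * eidx K L w) ↔ a ∈ Iv (below K L w) m := by
  have he := (eidx_pos K L w).ne'
  rw [mem_Iv, mem_Iv, val_algebraMap]
  have : WithZero.exp (-(m * (eidx K L w : ℤ))) = WithZero.exp (-m) ^ eidx K L w := by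
    rw [← WithZero.exp_nsmul]
    congr 1
    simp only [nsmul_eq_mul]
    ring
  rw [this]
  exact pow_le_pow_iff_left₀ zero_le zero_le he

lemma algebraMap_mem_IL_iff (v : Pl K) (m : ℤ) (a : K) :
    algebraMap K L a ∈ IL K L v m ↔ a ∈ Iv v m := by
  constructor
  · intro h
    obtain ⟨w, rfl⟩ := exists_above K L v
    exact (algebraMap_mem_Iv_iff w m a).1 (h w rfl)
  · rintro h w rfl
    exact (algebraMap_mem_Iv_iff w m a).2 h

lemma smul_mem_IL {v : Pl K} {j k : ℤ} {a : K} {b : L} (ha : a ∈ Iv v j) (hb : b ∈ IL K L v k) :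
    a • b ∈ IL K L v (j + k) := by
  rw [Algebra.smul_def]
  exact mul_mem_IL ((algebraMap_mem_IL_iff v j a).2 ha) hb

lemma exists_mem_IL (v : Pl K) (x : L) : ∃ d : ℕ, x ∈ IL K L v (-(d : ℤ)) := by
  choose d hd using fun w : Pl L => exists_mem_Iv w x
  refine ⟨∑ w ∈ (finite_above K L v).toFinset, d w, fun w hw => ?_⟩
  refine Iv_anti w ?_ (hd w)
  have h1 : d w ≤ ∑ w ∈ (finite_above K L v).toFinset, d w :=
    Finset.single_le_sum (f := d) (fun _ _ => Nat.zero_le _) ((mem_toFinset_above K L).2 hw)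
  have h2 : 1 ≤ (eidx K L w : ℤ) := by exact_mod_cast eidx_pos K L w
  have h3 : (d w : ℤ) ≤ ((∑ w ∈ (finite_above K L v).toFinset, d w : ℕ) : ℤ) := by exact_mod_cast h1
  nlinarith

lemma exists_mem_IL_forall {ι : Type*} [Finite ι] (v : Pl K) (x : ι → L) :
    ∃ d : ℕ, ∀ i, x i ∈ IL K L v (-(d : ℤ)) := by
  have := Fintype.ofFinite ι
  choose d hd using fun i => exists_mem_IL (K := K) v (x i)
  refine ⟨∑ i, d i, fun i => IL_anti v ?_ (hd i)⟩
  have h1 : d i ≤ ∑ i, d i := Finset.single_le_sum (f := d) (fun _ _ => Nat.zero_le _) (Finset.mem_univ i)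
  have h3 : (d i : ℤ) ≤ ((∑ i, d i : ℕ) : ℤ) := by exact_mod_cast h1
  omega

/-- elements of `1 + π B` are units at all primes above `v` -/
lemma val_eq_one_of_sub_mem {v : Pl K} {m : ℤ} (hm : 1 ≤ m) {b : L} (hb : b - 1 ∈ IL K L v m)
    (w : Pl L) (hw : below K L w = v) : w.valuation L b = 1 := by
  have h1 : w.valuation L (b - 1) < 1 := lt_of_le_of_lt (hb w hw) (by
    rw [← WithZero.exp_zero, WithZero.exp_lt_exp]
    have h2 : 1 ≤ (eidx K L w : ℤ) := by exact_mod_cast eidx_pos K L w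
    nlinarith)
  have := Valuation.map_add_eq_of_lt_left (w.valuation L) (x := 1) (y := b - 1) (by simpa using h1)
  simpa using this

lemma mem_IL_zero_iff {v : Pl K} {x : L} :
    x ∈ IL K L v 0 ↔ ∀ w : Pl L, below K L w = v → w.valuation L x ≤ 1 := by
  simp [mem_IL, mem_Iv]

section galois

variable [IsGalois K L]

lemma map_mem_IL {v : Pl K} {m : ℤ} {x : L} (hx : x ∈ IL K L v m) (σ : Gal(L/K)) :
    σ x ∈ IL K L v m := by
  intro w hw
  have h1 : below K L (σ⁻¹ • w) = v := by rw [below_smul, hw]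
  have h2 := hx _ h1
  rw [mem_Iv, eidx_smul, ← val_smul K L σ, smul_inv_smul] at h2
  exact h2

lemma trace_mem_Iv {v : Pl K} {m : ℤ} {x : L} (hx : x ∈ IL K L v m) :
    Algebra.trace K L x ∈ Iv v m := by
  rw [← algebraMap_mem_IL_iff (L := L), trace_eq_sum_automorphisms]
  exact (IL K L v m).sum_mem fun σ _ => map_mem_IL hx σ

end galois

omit [NumberField L]

/-- the `π^m O_v`-span of a basis -/
def Lam {ι : Type*} (bs : Module.Basis ι K L) (v : Pl K) (m : ℤ) : AddSubgroup L where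
  carrier := {x | ∀ i, bs.repr x i ∈ Iv v m}
  add_mem' := fun ha hb i => by
    rw [map_add, Finsupp.add_apply]
    exact (Iv v m).add_mem (ha i) (hb i)
  zero_mem' := fun i => by
    rw [map_zero, Finsupp.zero_apply]
    exact (Iv v m).zero_mem
  neg_mem' := fun ha i => by
    rw [map_neg, Finsupp.neg_apply]
    exact (Iv v m).neg_mem (ha i)

lemma mem_Lam {ι : Type*} {bs : Module.Basis ι K L} {v : Pl K} {m : ℤ} {x : L} :
    x ∈ Lam bs v m ↔ ∀ i, bs.repr x i ∈ Iv v m := Iff.rfl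

lemma Lam_anti {ι : Type*} (bs : Module.Basis ι K L) (v : Pl K) {m m' : ℤ} (h : m ≤ m') :
    Lam bs v m' ≤ Lam bs v m := fun _ hx i => Iv_anti v h (hx i)

lemma smul_mem_Lam {ι : Type*} {bs : Module.Basis ι K L} {v : Pl K} {j k : ℤ} {a : K} {x : L}
    (ha : a ∈ Iv v j) (hx : x ∈ Lam bs v k) : a • x ∈ Lam bs v (j + k) := fun i => by
  rw [map_smul, Finsupp.smul_apply, smul_eq_mul]
  exact mul_mem_Iv ha (hx i)

lemma sum_smul_mem_Lam {ι : Type*} [Fintype ι] (bs : Module.Basis ι K L) {v : Pl K} {m : ℤ}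
    (c : ι → K) (hc : ∀ i, c i ∈ Iv v m) : ∑ i, c i • bs i ∈ Lam bs v m := fun i => by
  rw [bs.repr_sum_self]
  exact hc i

end rel

lemma gal_smul {K L : Type*} [Field K] [Field L] [Algebra K L] (σ : Gal(L/K)) (c : K) (x : L) :
    σ (c • x) = c • σ x := map_smul σ c x

/-- a normal basis adapted to `v` -/
structure LatData (K : Type*) [Field K] [NumberField K] (L : Type*) [Field L] [NumberField L]
    [Algebra K L] (v : Pl K) where
  /-- the basis -/
  bs : Module.Basis Gal(L/K) K L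
  /-- the conductor exponent -/
  d : ℕ
  act : ∀ σ τ : Gal(L/K), σ (bs τ) = bs (σ * τ)
  int : ∀ σ, bs σ ∈ IL K L v 0
  le : ∀ m : ℤ, IL K L v (m + d) ≤ Lam bs v m

section exist

variable {K : Type*} [Field K] [NumberField K] {L : Type*} [Field L] [NumberField L] [Algebra K L]
  [IsGalois K L]

theorem exists_latData (v : Pl K) : Nonempty (LatData K L v) := by
  classical
  obtain ⟨π, hπ⟩ := exists_ord_eq_one v
  set nb := IsGalois.normalBasis K L with hnb
  obtain ⟨d₁, hd₁⟩ := exists_mem_IL_forall (K := K) v (fun σ => nb σ)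
  have hπd : ((π ^ d₁ : Kˣ) : K) ∈ Iv v (d₁ : ℤ) := by
    refine mem_Iv_of_ord ?_ (Units.ne_zero _)
    rw [Units.val_pow_eq_pow_val, ord_pow, hπ, mul_one]
  set bs : Module.Basis Gal(L/K) K L := nb.unitsSMul (fun _ => π ^ d₁) with hbs
  have hbs_apply : ∀ σ, bs σ = ((π ^ d₁ : Kˣ) : K) • nb σ := fun σ => by
    rw [hbs, Module.Basis.unitsSMul_apply]
    rfl
  obtain ⟨d, hd⟩ := exists_mem_IL_forall (K := K) v (fun σ => bs.traceDual σ)
  refine ⟨⟨bs, d, ?_, ?_, ?_⟩⟩
  · intro σ τ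
    rw [hbs_apply, hbs_apply, gal_smul, IsGalois.normalBasis_apply τ,
      IsGalois.normalBasis_apply (σ * τ)]
    rfl
  · intro σ
    rw [hbs_apply]
    have := smul_mem_IL hπd (hd₁ σ)
    simpa using this
  · intro m x hx σ
    have e : bs.repr x σ = Algebra.trace K L (x * bs.traceDual σ) := by
      conv_lhs => rw [← bs.traceDual_traceDual]
      rw [Module.Basis.traceDual_repr_apply, Algebra.traceForm_apply]
    rw [e]
    have := mul_mem_IL hx (hd σ)
    rw [add_neg_cancel_right] at this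
    exact trace_mem_Iv this

end exist

end P3d

end Claimed.Agent.R239.CFT
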