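import Claimed.Agent.R239.CFT.P3a
import Claimed.Agent.R239.CFT.I1
import Claimed.Agent.R239.CFT.P3dLat

/-!
# R239 / CFT : package P3d (local norm index, lower bound)

Output statements of the package (see `Blueprint.lean`).  The owner of the package owns this file and
replaces the `sorry`s in place; names and statements are frozen (ask helper97 for changes).
-/

set_option autoImplicit false

namespace Claimed.Agent.R239.CFT

open IsDedekindDomain NumberField Herb

namespace P3d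

/-! ## the groups `V_k = 1 + Λ_{d+1+k}` -/

section grp

variable {K : Type*} [Field K] [NumberField K] {L : Type*} [Field L] [NumberField L] [Algebra K L]
  {v : Pl K} (D : LatData K L v)

namespace LatData

lemma lam_le_IL [IsGalois K L] (m : ℤ) : Lam D.bs v m ≤ IL K L v m := by
  intro x hx
  rw [← D.bs.sum_repr x]
  refine (IL K L v m).sum_mem fun σ _ => ?_
  have := smul_mem_IL (hx σ) (D.int σ)
  rwa [add_zero] at this

lemma mul_mem_lam [IsGalois K L] {j k m : ℤ} {x y : L} (hx : x ∈ IL K L v j) (hy : y ∈ IL K L v k)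
    (h : m + D.d ≤ j + k) : x * y ∈ Lam D.bs v m :=
  D.le m (IL_anti v h (mul_mem_IL hx hy))

lemma repr_map [IsGalois K L] (σ τ : Gal(L/K)) (x : L) :
    D.bs.repr (σ x) τ = D.bs.repr x (σ⁻¹ * τ) := by
  classical
  conv_lhs => rw [← D.bs.sum_repr x]
  rw [map_sum, map_sum, Finset.sum_apply']
  simp_rw [gal_smul, D.act, map_smul, Finsupp.smul_apply, Module.Basis.repr_self,
    Finsupp.single_apply, smul_eq_mul, mul_ite, mul_one, mul_zero]
  rw [Finset.sum_eq_single (σ⁻¹ * τ)]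
  · simp
  · intro ρ _ hρ
    rw [if_neg]
    rintro rfl
    simp at hρ
  · simp

lemma map_mem_lam [IsGalois K L] {m : ℤ} {x : L} (hx : x ∈ Lam D.bs v m) (σ : Gal(L/K)) :
    σ x ∈ Lam D.bs v m := fun τ => by
  rw [D.repr_map]
  exact hx _

/-- the level `d + 1 + k` -/
def lev (k : ℕ) : ℤ := D.d + 1 + k

lemma lev_mono {k k' : ℕ} (h : k ≤ k') : D.lev k ≤ D.lev k' := by
  unfold lev
  omega

lemma one_le_lev (k : ℕ) : 1 ≤ D.lev k := by
  unfold lev
  omega

/-- `Λ_j Λ_k ⊆ Λ_{j+k+1}` in the shifted numbering -/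
lemma mul_mem_lev [IsGalois K L] {j k : ℕ} {x y : L} (hx : x ∈ Lam D.bs v (D.lev j))
    (hy : y ∈ Lam D.bs v (D.lev k)) : x * y ∈ Lam D.bs v (D.lev (j + k + 1)) :=
  D.mul_mem_lam (D.lam_le_IL _ hx) (D.lam_le_IL _ hy) (by unfold lev; push_cast; omega)

/-- `V_k = 1 + Λ_{d+1+k}` -/
def V [IsGalois K L] (k : ℕ) : Subgroup Lˣ where
  carrier := {b | (b : L) - 1 ∈ Lam D.bs v (D.lev k)}
  mul_mem' := by
    intro a b ha hb
    have e : ((a * b : Lˣ) : L) - 1 = ((a : L) - 1) * ((b : L) - 1) + ((a : L) - 1) + ((b : L) - 1) := by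
      push_cast
      ring
    show ((a * b : Lˣ) : L) - 1 ∈ Lam D.bs v (D.lev k)
    rw [e]
    refine add_mem (add_mem ?_ ha) hb
    exact Lam_anti _ _ (D.lev_mono (by omega)) (D.mul_mem_lev ha hb)
  one_mem' := by
    show ((1 : Lˣ) : L) - 1 ∈ Lam D.bs v (D.lev k)
    simp
  inv_mem' := by
    intro b hb
    show ((b⁻¹ : Lˣ) : L) - 1 ∈ Lam D.bs v (D.lev k)
    have hb' : (b : L) - 1 ∈ Lam D.bs v (D.lev k) := hb
    have e : ((b⁻¹ : Lˣ) : L) - 1 =
        -((b : L) - 1) + ((b : L) - 1) * ((b : L) - 1) * ((b⁻¹ : Lˣ) : L) := by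
      have : (b : L) ≠ 0 := b.ne_zero
      push_cast
      field_simp
      ring
    rw [e]
    refine add_mem (neg_mem hb') ?_
    have h1 := D.lam_le_IL _ hb'
    have h2 : ((b⁻¹ : Lˣ) : L) ∈ IL K L v 0 := by
      rw [mem_IL_zero_iff]
      intro w hw
      rw [Units.val_inv_eq_inv_val, map_inv₀, val_eq_one_of_sub_mem (D.one_le_lev k) h1 w hw, inv_one]
    refine D.mul_mem_lam (mul_mem_IL h1 h1) h2 ?_
    unfold lev
    omega

variable [IsGalois K L]

lemma mem_V {k : ℕ} {b : Lˣ} : b ∈ D.V k ↔ (b : L) - 1 ∈ Lam D.bs v (D.lev k) := Iff.rfl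

lemma V_anti {k k' : ℕ} (h : k ≤ k') : D.V k' ≤ D.V k := fun _ hb =>
  D.mem_V.2 (Lam_anti _ _ (D.lev_mono h) (D.mem_V.1 hb))

/-- `Λ_m` is stable under multiplication by `V_k` -/
lemma mul_mem_of_mem_V {m : ℤ} {k : ℕ} {u : L} {b : Lˣ} (hu : u ∈ Lam D.bs v m) (hb : b ∈ D.V k) :
    u * (b : L) ∈ Lam D.bs v m := by
  have e : u * (b : L) = u + u * ((b : L) - 1) := by ring
  rw [e]
  refine add_mem hu (D.mul_mem_lam (D.lam_le_IL _ hu) (D.lam_le_IL _ hb) ?_)
  unfold lev
  omega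

lemma map_mem_V {k : ℕ} {b : Lˣ} (hb : b ∈ D.V k) (σ : Gal(L/K)) :
    Units.map ((σ : L →+* L) : L →* L) b ∈ D.V k := by
  have := D.map_mem_lam hb σ
  rw [map_sub, map_one] at this
  exact this

/-- a criterion for `b / b' ∈ V_k` -/
lemma div_mem_V {j k : ℕ} {b b' : Lˣ} (hb' : b' ∈ D.V j)
    (h : (b : L) - (b' : L) ∈ Lam D.bs v (D.lev k)) : b / b' ∈ D.V k := by
  rw [mem_V]
  have e : ((b / b' : Lˣ) : L) - 1 = ((b : L) - (b' : L)) * ((b'⁻¹ : Lˣ) : L) := by
    have : (b' : L) ≠ 0 := b'.ne_zero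
    push_cast
    field_simp
  rw [e]
  exact D.mul_mem_of_mem_V h ((D.V j).inv_mem hb')

/-- units above `v` that are congruent modulo `Λ_{lev k + d}` are congruent modulo `V_k` -/
lemma div_mem_V_of_unit {k : ℕ} {b b' : Lˣ}
    (hb' : ∀ w : Pl L, below K L w = v → w.valuation L (b' : L) = 1)
    (h : (b : L) - (b' : L) ∈ Lam D.bs v (D.lev k + D.d)) : b / b' ∈ D.V k := by
  rw [mem_V]
  have e : ((b / b' : Lˣ) : L) - 1 = ((b : L) - (b' : L)) * ((b'⁻¹ : Lˣ) : L) := by
    have : (b' : L) ≠ 0 := b'.ne_zero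
    push_cast
    field_simp
  rw [e]
  have h2 : ((b'⁻¹ : Lˣ) : L) ∈ IL K L v 0 := by
    rw [mem_IL_zero_iff]
    intro w hw
    rw [Units.val_inv_eq_inv_val, map_inv₀, hb' w hw, inv_one]
  exact D.mul_mem_lam (D.lam_le_IL _ h) h2 (by omega)

lemma val_eq_one_of_mem_V {k : ℕ} {b : Lˣ} (hb : b ∈ D.V k) (w : Pl L) (hw : below K L w = v) :
    w.valuation L (b : L) = 1 :=
  val_eq_one_of_sub_mem (D.one_le_lev k) (D.lam_le_IL _ hb) w hw

/-- `∏ (1 + y_t) ≡ 1 + ∑ y_t` modulo `Λ_{k+1}` -/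
lemma prod_one_add_sub {ι : Type*} (s : Finset ι) {k : ℕ} (y : ι → L)
    (hy : ∀ i ∈ s, y i ∈ Lam D.bs v (D.lev k)) :
    ∏ i ∈ s, (1 + y i) - 1 - ∑ i ∈ s, y i ∈ Lam D.bs v (D.lev (k + 1)) := by
  classical
  induction s using Finset.induction_on with
  | empty => simp
  | insert a s ha ih =>
    have ih' := ih fun i hi => hy i (Finset.mem_insert_of_mem hi)
    have hya := hy a (Finset.mem_insert_self _ _)
    have hsum : ∑ i ∈ s, y i ∈ Lam D.bs v (D.lev k) :=
      sum_mem fun i hi => hy i (Finset.mem_insert_of_mem hi)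
    rw [Finset.prod_insert ha, Finset.sum_insert ha]
    have e : (1 + y a) * ∏ i ∈ s, (1 + y i) - 1 - (y a + ∑ i ∈ s, y i) =
        (∏ i ∈ s, (1 + y i) - 1 - ∑ i ∈ s, y i) + y a * (∑ i ∈ s, y i)
          + y a * (∏ i ∈ s, (1 + y i) - 1 - ∑ i ∈ s, y i) := by ring
    rw [e]
    refine add_mem (add_mem ih' ?_) ?_
    · exact Lam_anti _ _ (D.lev_mono (by omega)) (D.mul_mem_lev hya hsum)
    · exact Lam_anti _ _ (D.lev_mono (by omega)) (D.mul_mem_lev hya ih')

end LatData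


end grp

/-! ## approximate vanishing of `H^{-1}(V_k)`, the trace trick, finiteness of `U / V_k` -/

section coh

/-- products over a cyclic group -/
lemma prod_range_pow {G M : Type*} [Group G] [Fintype G] [CommMonoid M] (s : G)
    (hs : ∀ τ : G, τ ∈ Subgroup.zpowers s) (F : G → M) :
    ∏ i ∈ Finset.range (Nat.card G), F (s ^ i) = ∏ σ, F σ := by
  classical
  rw [← IsCyclic.image_range_card hs, Finset.prod_image]
  intro i hi j hj h
  rw [← orderOf_eq_card_of_forall_mem_zpowers hs] at hi hj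
  exact pow_injOn_Iio_orderOf (by simpa using hi) (by simpa using hj) h

lemma sum_range_pow {G M : Type*} [Group G] [Fintype G] [AddCommMonoid M] (s : G)
    (hs : ∀ τ : G, τ ∈ Subgroup.zpowers s) (F : G → M) :
    ∑ i ∈ Finset.range (Nat.card G), F (s ^ i) = ∑ σ, F σ :=
  prod_range_pow (M := Multiplicative M) s hs F

lemma exists_pow_eq {G : Type*} [Group G] [Finite G] (s : G)
    (hs : ∀ τ : G, τ ∈ Subgroup.zpowers s) (τ : G) : ∃ i : ℕ, s ^ i = τ :=
  (mem_powers_iff_mem_zpowers).2 (hs τ)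

/-- vanishing of `H^{-1}` for the regular representation with arbitrary coefficients -/
lemma exists_dlt_eq {G T : Type*} [Group G] [Fintype G] [AddCommGroup T] (s : G)
    (hs : ∀ τ : G, τ ∈ Subgroup.zpowers s) (φ : G → T) (hφ : ∑ σ, φ σ = 0) :
    ∃ ψ : G → T, ∀ σ, ψ (s⁻¹ * σ) - ψ σ = φ σ := by
  have hn : 0 < Nat.card G := Nat.card_pos
  have hord := orderOf_eq_card_of_forall_mem_zpowers hs
  have hct := ct_perm_free T (Equiv.mulLeft s) (Nat.card G) hn
    (by rw [Equiv.pow_mulLeft, ← hord, pow_orderOf_eq_one]; ext; simp)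
    (by
      intro x i h
      rw [Equiv.pow_mulLeft, Equiv.coe_mulLeft, mul_eq_right] at h
      rw [← hord]
      exact orderOf_dvd_of_pow_eq_one h)
  obtain ⟨ψ, hψ⟩ := hct.2 φ (by
    funext τ
    rw [nrm_permE_apply]
    simp_rw [Equiv.inv_mulLeft, Equiv.pow_mulLeft, Equiv.coe_mulLeft, inv_pow]
    rw [sum_range_pow s hs (fun σ => φ (σ⁻¹ * τ)), Pi.zero_apply, ← hφ]
    exact Fintype.sum_equiv ((Equiv.inv G).trans (Equiv.mulRight τ)) _ _ fun σ => rfl)
  refine ⟨ψ, fun σ => ?_⟩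
  have := congrFun hψ σ
  rw [dlt_apply, Pi.sub_apply, permE_apply, Equiv.mulLeft_symm] at this
  exact this

set_option linter.unusedSectionVars false

variable {K : Type*} [Field K] [NumberField K] {L : Type*} [Field L] [NumberField L] [Algebra K L]
  [IsGalois K L] {v : Pl K} (D : LatData K L v)

/-- the action of the Galois group on `Lˣ` -/
abbrev gU (σ : Gal(L/K)) : Lˣ →* Lˣ := Units.map ((σ : L →+* L) : L →* L)

/-- the inclusion `Kˣ → Lˣ` -/
abbrev iU (K L : Type*) [Field K] [Field L] [Algebra K L] : Kˣ →* Lˣ :=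
  Units.map ((algebraMap K L : K →+* L) : K →* L)

lemma gU_coe (σ : Gal(L/K)) (b : Lˣ) : ((gU σ b : Lˣ) : L) = σ (b : L) := rfl

lemma gU_mul (σ τ : Gal(L/K)) (b : Lˣ) : gU (σ * τ) b = gU σ (gU τ b) := Units.ext rfl

lemma gU_one (b : Lˣ) : gU (1 : Gal(L/K)) b = b := Units.ext rfl

lemma normU_gU (σ : Gal(L/K)) (b : Lˣ) : normU K L (gU σ b) = normU K L b :=
  Units.ext (Algebra.norm_eq_of_algEquiv σ _)

namespace LatData

lemma bs_mem_lam (σ : Gal(L/K)) : D.bs σ ∈ Lam D.bs v 0 := fun τ => by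
  classical
  rw [Module.Basis.repr_self, Finsupp.single_apply, mem_Iv]
  split_ifs <;> simp

lemma ne_zero_of_sub_mem {k : ℕ} {u : L} (hu : u - 1 ∈ Lam D.bs v (D.lev k)) : u ≠ 0 := by
  obtain ⟨w, hw⟩ := exists_above K L v
  have := val_eq_one_of_sub_mem (D.one_le_lev k) (D.lam_le_IL _ hu) w hw
  rintro rfl
  simp at this

variable (s : Gal(L/K)) (hs : ∀ τ : Gal(L/K), τ ∈ Subgroup.zpowers s)

include hs

/-- one step of the approximation: `H^{-1}(V_k / V_{k+1}) = 0` -/
lemma step (k : ℕ) (b : Lˣ) (hb : b ∈ D.V k) (hN' : normU K L b = 1) :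
    ∃ c ∈ D.V k, b * c / gU s c ∈ D.V (k + 1) := by
  classical
  have hN : Algebra.norm K (b : L) = 1 := congrArg Units.val hN'
  set x : L := (b : L) - 1 with hx
  have hxm : x ∈ Lam D.bs v (D.lev k) := hb
  -- the trace of `x` is small
  have h1 := D.prod_one_add_sub Finset.univ (fun σ : Gal(L/K) => σ x)
    (fun σ _ => D.map_mem_lam hxm σ)
  have h2 : ∏ σ : Gal(L/K), (1 + σ x) = 1 := by
    have : ∀ σ : Gal(L/K), 1 + σ x = σ (b : L) := fun σ => by
      rw [hx, map_sub, map_one]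
      ring
    simp_rw [this]
    rw [← Algebra.norm_eq_prod_automorphisms, hN, map_one]
  rw [h2, sub_self, zero_sub] at h1
  have h3 : ∑ σ : Gal(L/K), σ x ∈ Lam D.bs v (D.lev (k + 1)) := by
    simpa using neg_mem h1
  set ε : K := ∑ ρ, D.bs.repr x ρ with hε
  have hεm : ε ∈ Iv v (D.lev (k + 1)) := by
    have := h3 1
    rw [map_sum, Finset.sum_apply'] at this
    simp_rw [D.repr_map, mul_one] at this
    rwa [Fintype.sum_equiv (Equiv.inv Gal(L/K)) (fun σ => D.bs.repr x σ⁻¹)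
      (fun σ => D.bs.repr x σ) (fun σ => rfl)] at this
  have hεm' : ε ∈ Iv v (D.lev k) := Iv_anti v (D.lev_mono (Nat.le_succ k)) hεm
  -- the coordinates of `x`, corrected to have sum zero
  let φ : Gal(L/K) → Iv v (D.lev k) := fun σ =>
    ⟨D.bs.repr x σ - (if σ = 1 then ε else 0), sub_mem (hxm σ) (by split_ifs; exacts [hεm', zero_mem _])⟩
  have hφ : ∑ σ, φ σ = 0 := by
    apply Subtype.ext
    rw [AddSubgroup.val_finsetSum]
    simp only [φ, Finset.sum_sub_distrib, Finset.sum_ite_eq', Finset.mem_univ, if_true]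
    simp [hε]
  obtain ⟨ψ, hψ⟩ := exists_dlt_eq s hs φ hφ
  set y : L := ∑ σ, (ψ σ : K) • D.bs σ with hy
  have hym : y ∈ Lam D.bs v (D.lev k) := sum_smul_mem_Lam D.bs _ fun σ => (ψ σ).2
  have hyr : ∀ σ, D.bs.repr y σ = ψ σ := fun σ => by rw [hy, D.bs.repr_sum_self]
  have hsy : s y - y = x - ε • D.bs 1 := by
    apply D.bs.repr.injective
    ext σ
    rw [map_sub, map_sub, Finsupp.sub_apply, Finsupp.sub_apply, D.repr_map, hyr, hyr, map_smul,
      Finsupp.smul_apply, Module.Basis.repr_self, Finsupp.single_apply, smul_eq_mul]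
    have := congrArg Subtype.val (hψ σ)
    simp only [φ, AddSubgroup.coe_sub] at this
    rw [this]
    by_cases h : σ = 1
    · simp [h]
    · simp [h, Ne.symm h]
  have hc0 : (1 + y) - 1 ∈ Lam D.bs v (D.lev k) := by simpa using hym
  set c : Lˣ := Units.mk0 (1 + y) (D.ne_zero_of_sub_mem hc0) with hc
  have hcm : c ∈ D.V k := hc0
  refine ⟨c, hcm, D.div_mem_V (D.map_mem_V hcm s) ?_⟩
  have e : ((b * c : Lˣ) : L) - ((gU s c : Lˣ) : L) = x * y + ε • D.bs 1 := by
    rw [gU_coe, Units.val_mul, hc, Units.val_mk0, map_add, map_one]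
    have hb' : (b : L) = 1 + x := by rw [hx]; ring
    have hsy' : s y = y + (x - ε • D.bs 1) := by rw [← hsy]; ring
    rw [hb', hsy']
    ring
  rw [e]
  refine add_mem (Lam_anti _ _ (D.lev_mono (by omega)) (D.mul_mem_lev hxm hym)) ?_
  have := smul_mem_Lam hεm (D.bs_mem_lam 1)
  rwa [add_zero] at this

/-- approximate vanishing of `H^{-1}(V_k)` -/
lemma approx (k j : ℕ) (b : Lˣ) (hb : b ∈ D.V k) (hN : normU K L b = 1) :
    ∃ c ∈ D.V k, b * c / gU s c ∈ D.V (k + j) := by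
  induction j with
  | zero => exact ⟨1, one_mem _, by simpa using hb⟩
  | succ j ih =>
    obtain ⟨c₀, hc₀, h₀⟩ := ih
    have hN₀ : normU K L (b * c₀ / gU s c₀) = 1 := by
      rw [map_div, map_mul, normU_gU, hN, one_mul, div_self']
    obtain ⟨c₁, hc₁, h₁⟩ := D.step s hs (k + j) _ h₀ hN₀
    refine ⟨c₀ * c₁, mul_mem hc₀ (D.V_anti (Nat.le_add_right k j) hc₁), ?_⟩
    have e : b * (c₀ * c₁) / gU s (c₀ * c₁) = b * c₀ / gU s c₀ * c₁ / gU s c₁ := by
      rw [map_mul, ← mul_assoc, mul_div_mul_comm, mul_div_assoc (b * c₀ / gU s c₀)]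
    rw [e]
    exact h₁

/-- the trace trick: a class of `Lˣ / V_k` fixed by `s` is represented by an element of `Kˣ` -/
lemma exists_base (k : ℕ) (b : Lˣ) (hb : gU s b / b ∈ D.V k) :
    ∃ a : Kˣ, iU K L a / b ∈ D.V k := by
  classical
  have hn0 : ((Nat.card Gal(L/K) : ℕ) : K) ≠ 0 := Nat.cast_ne_zero.2 Nat.card_pos.ne'
  set n : K := ((Nat.card Gal(L/K) : ℕ) : K) with hn
  set t : ℕ := (ord v n).toNat with ht
  have hN : normU K L (gU s b / b) = 1 := by rw [map_div, normU_gU, div_self']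
  obtain ⟨c, hc, hr⟩ := D.approx s hs k t _ hb hN
  obtain ⟨b', hb'⟩ : ∃ b' : Lˣ, b' = b / c := ⟨_, rfl⟩
  have hr' : gU s b' / b' ∈ D.V (k + t) := by
    have e : gU s b' / b' = gU s b / b * c / gU s c := by
      rw [hb', map_div, div_div_div_comm, mul_div_assoc, div_eq_mul_inv (gU s b / b), inv_div]
    rw [e]
    exact hr
  have hpow : ∀ i : ℕ, gU (s ^ i) b' / b' ∈ D.V (k + t) := by
    intro i
    induction i with
    | zero => simp [gU_one]
    | succ i ih =>
      have e : gU (s ^ (i + 1)) b' / b' = gU s (gU (s ^ i) b' / b') * (gU s b' / b') := by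
        rw [pow_succ', gU_mul, map_div (gU s), div_mul_div_cancel]
      rw [e]
      exact mul_mem (D.map_mem_V ih s) hr'
  have hall : ∀ τ : Gal(L/K), gU τ b' / b' ∈ D.V (k + t) := fun τ => by
    obtain ⟨i, rfl⟩ := exists_pow_eq s hs τ
    exact hpow i
  set z : L := ∑ τ : Gal(L/K), (((gU τ b' / b' : Lˣ) : L) - 1) with hz
  have hzm : z ∈ Lam D.bs v (D.lev (k + t)) := sum_mem fun τ _ => hall τ
  have hninv : n⁻¹ ∈ Iv v (-(t : ℤ)) := by
    refine mem_Iv_of_ord ?_ (inv_ne_zero hn0)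
    rw [ord_inv]
    omega
  have hzm' : n⁻¹ • z ∈ Lam D.bs v (D.lev k) := by
    have := smul_mem_Lam hninv hzm
    have e : -(t : ℤ) + D.lev (k + t) = D.lev k := by
      unfold lev
      push_cast
      ring
    rwa [e] at this
  have hu0 : (1 + n⁻¹ • z) - 1 ∈ Lam D.bs v (D.lev k) := by simpa using hzm'
  set u : Lˣ := Units.mk0 (1 + n⁻¹ • z) (D.ne_zero_of_sub_mem hu0) with hu
  have hum : u ∈ D.V k := hu0
  have key : algebraMap K L (n⁻¹ * Algebra.trace K L (b' : L)) = (b' : L) * (u : L) := by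
    have hb0 : (b' : L) ≠ 0 := b'.ne_zero
    have h1 : z = (∑ τ : Gal(L/K), τ (b' : L)) / (b' : L) - algebraMap K L n := by
      rw [hz, Finset.sum_sub_distrib, Finset.sum_div]
      congr 1
      · exact Finset.sum_congr rfl fun τ _ => by rw [Units.val_div_eq_div_val, gU_coe]
      · rw [Finset.sum_const, Finset.card_univ, hn, map_natCast, nsmul_eq_mul, mul_one,
          Nat.card_eq_fintype_card]
    have hn0' : algebraMap K L n ≠ 0 := by simpa using hn0
    rw [map_mul, trace_eq_sum_automorphisms, hu, Units.val_mk0, Algebra.smul_def, h1, map_inv₀]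
    field_simp
    ring
  have ha0 : n⁻¹ * Algebra.trace K L (b' : L) ≠ 0 := by
    intro h
    rw [h, map_zero] at key
    exact mul_ne_zero b'.ne_zero u.ne_zero key.symm
  refine ⟨Units.mk0 _ ha0, ?_⟩
  have e : iU K L (Units.mk0 _ ha0) = b' * u := Units.ext key
  rw [e, hb', div_mul_eq_mul_div, div_div, mul_comm c b, mul_div_mul_left_eq_div]
  exact div_mem hum hc

omit hs

/-- local norms are norms modulo `V_k` -/
lemma exists_norm_of_nloc (k : ℕ) (a : Kˣ) (ha : a ∈ Nloc K L v) :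
    ∃ b : Lˣ, iU K L (a / normU K L b) ∈ D.V k := by
  obtain ⟨b, hb⟩ := ha (D.lev k + D.d).toNat
  refine ⟨b, ?_⟩
  have h1 : (a : K) / Algebra.norm K (b : L) - 1 ∈ Iv v (D.lev k + D.d) := by
    have h0 : 0 ≤ D.lev k + D.d := by
      unfold lev
      omega
    have : (a : K) / Algebra.norm K (b : L) - 1 ∈ Iv v (((D.lev k + D.d).toNat : ℕ) : ℤ) := hb
    rwa [Int.toNat_of_nonneg h0] at this
  have h2 := D.le _ ((algebraMap_mem_IL_iff (L := L) v _ _).2 h1)
  rw [map_sub, map_one] at h2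
  rw [mem_V]
  have e : ((iU K L (a / normU K L b) : Lˣ) : L) =
      algebraMap K L ((a : K) / Algebra.norm K (b : L)) := by
    rw [Units.coe_map, Units.val_div_eq_div_val]
    rfl
  rw [e]
  exact h2

/-- `U / V_k` is finite (`U` the group of units above `v`) -/
theorem finite_of_sep {X : Type*} (k : ℕ) (c : X → Lˣ)
    (hU : ∀ (x : X) (w : Pl L), below K L w = v → w.valuation L (c x : L) = 1)
    (hsep : ∀ x y, c x / c y ∈ D.V k → x = y) : Finite X := by
  obtain ⟨F, hF, hrep⟩ := exists_finite_reps v (-(D.d : ℤ)) (D.lev k + D.d)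
  have hmem : ∀ x σ, D.bs.repr (c x : L) σ ∈ Iv v (-(D.d : ℤ)) := by
    intro x
    refine D.le _ ?_
    rw [neg_add_cancel, mem_IL_zero_iff]
    exact fun w hw => (hU x w hw).le
  choose ρ hρF hρ using fun x σ => hrep _ (hmem x σ)
  have := hF.to_subtype
  refine Finite.of_injective (fun x σ => (⟨ρ x σ, hρF x σ⟩ : F)) ?_
  intro x y hxy
  refine hsep x y (D.div_mem_V_of_unit (hU y) fun σ => ?_)
  have h1 : ρ x σ = ρ y σ := congrArg Subtype.val (congrFun hxy σ)
  have e : D.bs.repr ((c x : L) - (c y : L)) σ =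
      (D.bs.repr (c x : L) σ - ρ x σ) - (D.bs.repr (c y : L) σ - ρ y σ) := by
    rw [map_sub, Finsupp.sub_apply, h1]
    ring
  rw [e]
  exact sub_mem (hρ x σ) (hρ y σ)

end LatData


end coh

/-! ## the Herbrand quotient of `Lˣ / V_k` -/

section general

variable {A B : Type*} [AddCommGroup A] [AddCommGroup B] (P : A →+ B) (s : A →+ A) (t : B →+ B)
  (h : ∀ x, P (s x) = t (P x))

include h

lemma dlt_semiconj (x : A) : P (dlt s x) = dlt t (P x) := by
  rw [dlt_apply, dlt_apply, map_sub, h]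

lemma iter_semiconj (i : ℕ) (x : A) : P ((s^[i]) x) = (t^[i]) (P x) :=
  (Function.Semiconj.iterate_right (f := P) (ga := s) (gb := t) h i) x

lemma nrm_semiconj (n : ℕ) (x : A) : P (nrm s n x) = nrm t n (P x) := by
  rw [nrm_apply, nrm_apply, map_sum]
  exact Finset.sum_congr rfl fun i _ => iter_semiconj P s t h i x

end general

/-- the Herbrand quotient of an extension of a permutation module by a finite module -/
lemma le_h0_of_seq {A X : Type*} [AddCommGroup A] (S : A →+ A) (n : ℕ)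
    (hS : ∀ x, (S^[n]) x = x) (p : Equiv.Perm X) (P : A →+ (X → ℤ)) (hP : Function.Surjective P)
    (hPS : ∀ x, P (S x) = permE ℤ p (P x)) (hfin : Finite P.ker) (m : ℕ)
    (e0 : h0 (permE ℤ p) n = m) (e2 : h1 (permE ℤ p) n = 1) (hm : 0 < m) : m ≤ h0 S n := by
  have hfg := comp_eq_zero_of (dlt_nrm S n hS)
  have hgf := comp_eq_zero_of (nrm_dlt S n hS)
  have hPf := dlt_semiconj P S (permE ℤ p) hPS
  have hPg := nrm_semiconj P S (permE ℤ p) hPS n
  have st1 : Stable P.ker (dlt S) := fun x hx => by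
    rw [AddMonoidHom.mem_ker] at hx ⊢
    rw [hPf, hx, map_zero]
  have st2 : Stable P.ker (nrm S n) := fun x hx => by
    rw [AddMonoidHom.mem_ker] at hx ⊢
    rw [hPg, hx, map_zero]
  have hseq : HSeq (resE _ _ st1) (resE _ _ st2) (dlt S) (nrm S n)
      (dlt (permE ℤ p)) (nrm (permE ℤ p) n) P.ker.subtype P :=
    { inj := AddSubgroup.subtype_injective _
      surj := hP
      exact := AddSubgroup.range_subtype _
      i_f := fun _ => rfl
      i_g := fun _ => rfl
      p_f := hPf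
      p_g := hPg }
  have e1 := hq_of_finite_left hseq hfg hgf
  have e0' : hq (dlt (permE ℤ p)) (nrm (permE ℤ p) n) = m := e0
  have e2' : hq (nrm (permE ℤ p) n) (dlt (permE ℤ p)) = 1 := e2
  have hne := (hq_ne_zero_iff_of_finite_left hseq hfg hgf).2
    ⟨by rw [e0']; exact hm.ne', by rw [e2']; exact one_ne_zero⟩
  rw [e0', e2', mul_one] at e1
  show _ ≤ hq _ _
  rw [e1]
  exact Nat.le_mul_of_pos_left _ (Nat.pos_of_ne_zero hne.2)

/-- an index comparison -/
lemma relIndex_le_index {H A : Type*} [AddCommGroup H] [AddCommGroup A] (Φ : H →+ A)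
    (N : AddSubgroup H) (R Z : AddSubgroup A) (hN : N.index ≠ 0) (hZ : Z ≤ Φ.range)
    (hNR : N ≤ R.comap Φ) : R.relIndex Z ≤ N.index := by
  have h1 : (R.comap Φ).index ∣ N.index := AddSubgroup.index_dvd_of_le hNR
  have h2 : (R.comap Φ).index ≠ 0 := fun h0 => hN (by simpa [h0] using h1)
  have h3 : R.relIndex Φ.range ≠ 0 := by rwa [← AddSubgroup.index_comap]
  calc R.relIndex Z ≤ R.relIndex Φ.range := AddSubgroup.relIndex_le_of_le_right hZ h3
    _ = (R.comap Φ).index := (AddSubgroup.index_comap R Φ).symm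
    _ ≤ N.index := Nat.le_of_dvd (Nat.pos_of_ne_zero hN) h1

/-- powers of a generator lying in a subgroup of a finite cyclic group -/
lemma pow_mem_iff {G : Type*} [Group G] [Finite G] (s : G) (hs : ∀ τ : G, τ ∈ Subgroup.zpowers s)
    (H : Subgroup G) (i : ℕ) : s ^ i ∈ H ↔ (Nat.card G / Nat.card H) ∣ i := by
  have hcomm : ∀ a b : G, a * b = b * a := by
    intro a b
    obtain ⟨j, rfl⟩ := hs a
    obtain ⟨k, rfl⟩ := hs b
    exact (Commute.zpow_zpow_self s j k).eq
  have : H.Normal := ⟨fun x hx g => by rw [hcomm g x, mul_assoc, mul_inv_cancel, mul_one]; exact hx⟩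
  have h1 : orderOf (QuotientGroup.mk s : G ⧸ H) = Nat.card (G ⧸ H) := by
    apply orderOf_eq_card_of_forall_mem_zpowers
    intro x
    obtain ⟨y, rfl⟩ := QuotientGroup.mk_surjective x
    obtain ⟨j, rfl⟩ := hs y
    exact ⟨j, rfl⟩
  have h2 : Nat.card (G ⧸ H) = Nat.card G / Nat.card H := by
    rw [← H.card_mul_index, ← Subgroup.index_eq_card, Nat.mul_div_cancel_left _ Nat.card_pos]
  rw [← h2, ← h1, orderOf_dvd_iff_pow_eq_one, ← QuotientGroup.mk_pow, QuotientGroup.eq_one_iff]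

section modules

set_option linter.unusedSectionVars false

variable {K : Type*} [Field K] [NumberField K] {L : Type*} [Field L] [NumberField L] [Algebra K L]
  [IsGalois K L] {v : Pl K} (D : LatData K L v)

/-- the endomorphism of `Additive Lˣ` induced by `σ` -/
noncomputable def sg (σ : Gal(L/K)) : Additive Lˣ →+ Additive Lˣ := MonoidHom.toAdditive (gU σ)

lemma sg_ofMul (σ : Gal(L/K)) (b : Lˣ) : sg σ (Additive.ofMul b) = Additive.ofMul (gU σ b) := rfl

lemma sg_iter (σ : Gal(L/K)) (i : ℕ) (b : Lˣ) :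
    ((sg σ)^[i]) (Additive.ofMul b) = Additive.ofMul (gU (σ ^ i) b) := by
  induction i with
  | zero => simp [gU_one]
  | succ i ih => rw [Function.iterate_succ_apply', ih, sg_ofMul, pow_succ', gU_mul]

lemma nrm_sg (s : Gal(L/K)) (hs : ∀ τ : Gal(L/K), τ ∈ Subgroup.zpowers s) (b : Lˣ) :
    nrm (sg s) (Nat.card Gal(L/K)) (Additive.ofMul b) = Additive.ofMul (iU K L (normU K L b)) := by
  classical
  rw [nrm_apply]
  simp_rw [sg_iter]
  rw [← ofMul_prod, prod_range_pow s hs (fun σ => gU σ b)]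
  congr 1
  apply Units.ext
  rw [Units.coe_prod]
  simp_rw [gU_coe]
  exact (Algebra.norm_eq_prod_automorphisms K (b : L)).symm

/-- `V_k` additively -/
noncomputable abbrev VA (k : ℕ) : AddSubgroup (Additive Lˣ) := Subgroup.toAddSubgroup (D.V k)

lemma stable_VA (k : ℕ) (σ : Gal(L/K)) : Stable (VA D k) (sg σ) := fun x hx =>
  D.map_mem_V (b := Additive.toMul x) hx σ

/-- the primes above `v` -/
abbrev Wv (K : Type*) [Field K] [NumberField K] (L : Type*) [Field L] [NumberField L] [Algebra K L]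
    (v : Pl K) : Type _ := {w : Pl L // below K L w = v}

/-- the permutation of the primes above `v` induced by `σ` -/
noncomputable def pW (v : Pl K) (σ : Gal(L/K)) : Equiv.Perm (Wv K L v) where
  toFun w := ⟨σ • w.1, by rw [below_smul]; exact w.2⟩
  invFun w := ⟨σ⁻¹ • w.1, by rw [below_smul]; exact w.2⟩
  left_inv w := Subtype.ext (inv_smul_smul σ w.1)
  right_inv w := Subtype.ext (smul_inv_smul σ w.1)

lemma pW_pow (σ : Gal(L/K)) (i : ℕ) (w : Wv K L v) : (((pW v σ) ^ i) w).1 = σ ^ i • w.1 := by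
  induction i with
  | zero => simp
  | succ i ih =>
    rw [pow_succ', Equiv.Perm.mul_apply, pow_succ', mul_smul, ← ih]
    rfl

/-- the orders at the primes above `v` -/
noncomputable def ordW (v : Pl K) : Additive Lˣ →+ (Wv K L v → ℤ) where
  toFun x := fun w => ord w.1 ((Additive.toMul x : Lˣ) : L)
  map_zero' := by
    funext w
    simp [ord_one]
  map_add' x y := by
    funext w
    simp only [toMul_add, Units.val_mul, Pi.add_apply]
    exact ord_mul _ (Units.ne_zero _) (Units.ne_zero _)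

lemma ordW_sg (σ : Gal(L/K)) (x : Additive Lˣ) :
    ordW v (sg σ x) = permE ℤ (pW v σ) (ordW v x) := by
  funext w
  rw [permE_apply]
  show ord w.1 (σ ((Additive.toMul x : Lˣ) : L)) = ord (σ⁻¹ • w.1) ((Additive.toMul x : Lˣ) : L)
  rw [← ord_smul K L σ (σ⁻¹ • w.1), smul_inv_smul]

lemma VA_le_ker (k : ℕ) : VA D k ≤ (ordW v).ker := by
  intro x hx
  rw [AddMonoidHom.mem_ker]
  funext w
  exact (ord_eq_zero_iff w.1 (Units.ne_zero _)).2
    (D.val_eq_one_of_mem_V (b := Additive.toMul x) hx w.1 w.2)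

/-- `Lˣ / V_k` -/
def AQ (k : ℕ) : Type _ := Additive Lˣ ⧸ VA D k

noncomputable instance instAddCommGroupAQ (k : ℕ) : AddCommGroup (AQ D k) :=
  inferInstanceAs (AddCommGroup (Additive Lˣ ⧸ VA D k))

/-- the projection -/
noncomputable def mkQ (k : ℕ) : Additive Lˣ →+ AQ D k := QuotientAddGroup.mk' (VA D k)

lemma mkQ_surjective (k : ℕ) : Function.Surjective (mkQ D k) :=
  QuotientAddGroup.mk'_surjective (VA D k)

lemma mkQ_eq_iff (k : ℕ) (b b' : Lˣ) :
    mkQ D k (Additive.ofMul b) = mkQ D k (Additive.ofMul b') ↔ b / b' ∈ D.V k := by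
  have h1 : mkQ D k (Additive.ofMul b) = mkQ D k (Additive.ofMul b') ↔
      -Additive.ofMul b' + Additive.ofMul b ∈ VA D k := by
    rw [eq_comm]
    exact QuotientAddGroup.eq
  rw [h1]
  have : -Additive.ofMul b' + Additive.ofMul b = Additive.ofMul (b / b') := by
    rw [← ofMul_inv, ← ofMul_mul, div_eq_mul_inv, mul_comm]
  rw [this]
  rfl

/-- the orders, on `Lˣ / V_k` -/
noncomputable def PW (k : ℕ) : AQ D k →+ (Wv K L v → ℤ) :=
  QuotientAddGroup.lift (VA D k) (ordW v) (VA_le_ker D k)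

lemma PW_mk (k : ℕ) (x : Additive Lˣ) : PW D k (mkQ D k x) = ordW v x := rfl

lemma PW_surjective (k : ℕ) : Function.Surjective (PW D k) := by
  classical
  intro φ
  obtain ⟨a, ha⟩ := exists_ord_eq (finite_above K L v).toFinset
    (fun w => if h : below K L w = v then φ ⟨w, h⟩ else 0)
  refine ⟨mkQ D k (Additive.ofMul a), ?_⟩
  rw [PW_mk]
  funext w
  have := ha w.1 ((mem_toFinset_above K L).2 w.2)
  rw [dif_pos w.2] at this
  exact this

/-- the action of `σ` on `Lˣ / V_k` -/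
noncomputable def SQ (k : ℕ) (σ : Gal(L/K)) : AQ D k →+ AQ D k :=
  quoE (VA D k) (sg σ) (stable_VA D k σ)

lemma SQ_mk (k : ℕ) (σ : Gal(L/K)) (x : Additive Lˣ) :
    mkQ D k (sg σ x) = SQ D k σ (mkQ D k x) := rfl

lemma PW_SQ (k : ℕ) (σ : Gal(L/K)) (x : AQ D k) :
    PW D k (SQ D k σ x) = permE ℤ (pW v σ) (PW D k x) := by
  obtain ⟨y, rfl⟩ := mkQ_surjective D k x
  rw [← SQ_mk, PW_mk, PW_mk, ordW_sg]

lemma finite_ker_PW (k : ℕ) : Finite (PW D k).ker := by
  choose r hr using mkQ_surjective D k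
  refine D.finite_of_sep k (fun x : (PW D k).ker => Additive.toMul (r x.1)) ?_ ?_
  · intro x w hw
    have h1 : PW D k x.1 = 0 := x.2
    rw [← hr x.1, PW_mk] at h1
    have h2 := congrFun h1 ⟨w, hw⟩
    exact (ord_eq_zero_iff w (Units.ne_zero _)).1 h2
  · intro x y h
    have := (mkQ_eq_iff D k _ _).2 h
    apply Subtype.ext
    rw [← hr x.1, ← hr y.1]
    exact this

variable (s : Gal(L/K)) (hs : ∀ τ : Gal(L/K), τ ∈ Subgroup.zpowers s)

include hs

lemma SQ_iter (k : ℕ) (x : AQ D k) : ((SQ D k s)^[Nat.card Gal(L/K)]) x = x := by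
  obtain ⟨y, rfl⟩ := mkQ_surjective D k x
  rw [← iter_semiconj (mkQ D k) (sg s) (SQ D k s) (SQ_mk D k s)]
  have : ((sg s)^[Nat.card Gal(L/K)]) y = y := by
    have := sg_iter s (Nat.card Gal(L/K)) (Additive.toMul y)
    rw [pow_card_eq_one', gU_one] at this
    exact this
  rw [this]

lemma nrm_SQ_mk (k : ℕ) (b : Lˣ) :
    nrm (SQ D k s) (Nat.card Gal(L/K)) (mkQ D k (Additive.ofMul b)) =
      mkQ D k (Additive.ofMul (iU K L (normU K L b))) := by
  rw [← nrm_sg s hs b]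
  exact (nrm_semiconj (mkQ D k) (sg s) (SQ D k s) (SQ_mk D k s) _ _).symm

/-- Herbrand quotient of the permutation module on the primes above `v` -/
lemma h0_W : h0 (permE ℤ (pW v s)) (Nat.card Gal(L/K)) = nloc K L v := by
  obtain ⟨w₀, hw₀⟩ := exists_above K L v
  have hfin : Finite (Wv K L v) := (finite_above K L v).to_subtype
  have hm : ∀ w : Wv K L v, Nat.card (MulAction.stabilizer Gal(L/K) w.1) = nloc K L v := by
    intro w
    rw [stabilizer_pl_eq, ← nloc_eq, w.2]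
  have hdvd : nloc K L v ∣ Nat.card Gal(L/K) := by
    rw [← hm ⟨w₀, hw₀⟩]
    exact Subgroup.card_subgroup_dvd_card _
  have h := h0_perm (pW v s) (Nat.card Gal(L/K)) (nloc K L v) 1 Nat.card_pos ?_ ?_ hdvd
    (nloc_pos K L v) ?_
  · rw [h, pow_one]
  · ext w
    rw [pW_pow, pow_card_eq_one', one_smul]
    rfl
  · intro w i
    rw [← hm w, ← pow_mem_iff s hs, MulAction.mem_stabilizer_iff, ← pW_pow, Subtype.ext_iff]
  · rw [one_mul, ← hm ⟨w₀, hw₀⟩, ← Subgroup.card_mul_index (MulAction.stabilizer Gal(L/K) w₀),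
      mul_comm, MulAction.index_stabilizer]
    congr 1
    rw [← Nat.card_coe_set_eq]
    refine Nat.card_congr (Equiv.subtypeEquivRight fun w => ?_)
    constructor
    · intro hw
      obtain ⟨σ, hσ⟩ := exists_smul_eq K L (hw₀.trans hw.symm)
      exact ⟨σ, hσ⟩
    · rintro ⟨σ, rfl⟩
      show below K L (σ • w₀) = v
      rw [below_smul, hw₀]

lemma h1_W : h1 (permE ℤ (pW v s)) (Nat.card Gal(L/K)) = 1 := by
  have hfin : Finite (Wv K L v) := (finite_above K L v).to_subtype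
  refine h1_perm (pW v s) _ Nat.card_pos ?_
  ext w
  rw [pW_pow, pow_card_eq_one', one_smul]
  rfl

/-- `nloc v ≤ h0 (Lˣ / V_k)` -/
lemma nloc_le_h0 (k : ℕ) : nloc K L v ≤ h0 (SQ D k s) (Nat.card Gal(L/K)) :=
  le_h0_of_seq (SQ D k s) (Nat.card Gal(L/K)) (SQ_iter D s hs k)
    (pW v s) (PW D k) (PW_surjective D k) (PW_SQ D k s) (finite_ker_PW D k) (nloc K L v)
    (h0_W s hs) (h1_W s hs) (nloc_pos K L v)

/-- `h0 (Lˣ / V_k) ≤ (Kˣ : Nloc)` -/
lemma h0_le_index (k : ℕ) : h0 (SQ D k s) (Nat.card Gal(L/K)) ≤ (Nloc K L v).index := by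
  rw [← Subgroup.index_toAddSubgroup]
  refine relIndex_le_index ((mkQ D k).comp (MonoidHom.toAdditive (iU K L))) _ _ _ ?_ ?_ ?_
  · rw [Subgroup.index_toAddSubgroup]
    exact nloc_index_ne_zero K L v
  · intro x hx
    obtain ⟨y, rfl⟩ := mkQ_surjective D k x
    obtain ⟨b, rfl⟩ := Additive.ofMul.surjective y
    rw [AddMonoidHom.mem_ker, dlt_apply, ← SQ_mk, sg_ofMul, sub_eq_zero, mkQ_eq_iff] at hx
    obtain ⟨a, ha⟩ := D.exists_base s hs k b hx
    exact ⟨Additive.ofMul a, (mkQ_eq_iff D k _ _).2 ha⟩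
  · intro x hx
    obtain ⟨a, rfl⟩ := Additive.ofMul.surjective x
    obtain ⟨b, hb⟩ := D.exists_norm_of_nloc k a hx
    refine ⟨mkQ D k (Additive.ofMul b), ?_⟩
    rw [nrm_SQ_mk D s hs]
    refine ((mkQ_eq_iff D k _ _).2 ?_).symm
    rwa [← map_div]

end modules

end P3d

variable (K : Type*) [Field K] [NumberField K] (L : Type*) [Field L] [NumberField L] [Algebra K L]

/-- Blueprint 3.6 -/
theorem nloc_le_index [IsGalois K L] [IsCyclic Gal(L/K)] (v : Pl K) :
    nloc K L v ≤ (Nloc K L v).index := by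
  obtain ⟨s, hs⟩ := IsCyclic.exists_generator (α := Gal(L/K))
  obtain ⟨D⟩ := P3d.exists_latData (L := L) v
  exact (P3d.nloc_le_h0 D s hs 0).trans (P3d.h0_le_index D s hs 0)

end Claimed.Agent.R239.CFT
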