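import Claimed.Agent.R239.CFT.I0

/-!
# R239 / CFT : package P8a (Frobenius elements, functoriality of the Artin map, cyclotomic extensions)

Output statements of the package (see `Blueprint.lean`, 8.1-8.3).  Owner helper278.  No sorry in this file.
Names and statements of helper97's skeleton are kept verbatim.  Extras: `exists_isFrob`,
`algebraMap_restrict_smul`, `isArithFrobAt_restrict`, `algebraMap_resBC_smul`, `resBC_mem_inertia`,
section `cycaux` (prefix `cyc_`; product formula `abs_norm_eq_prod`, `norm_nonneg_of_isTotallyComplex`,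
`cyc_coprime_card`, `cyc_exists_clear_denom`, ...), `isArithFrobAt_apply_root`, `eq_one_of_apply_root`,
`autToPow_frob`, `autToPow_art_integer`, `art_fix_primitiveRoot`.
-/

set_option autoImplicit false
set_option linter.unusedSectionVars false
set_option linter.unusedVariables false

namespace Claimed.Agent.R239.CFT

open IsDedekindDomain NumberField

section basic

variable (K : Type*) [Field K] [NumberField K] (L : Type*) [Field L] [NumberField L] [Algebra K L]
  [IsAbelianGalois K L]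

/-- in an abelian extension a Frobenius at one prime above `v` is a Frobenius at all of them -/
theorem isFrob_of_isArithFrobAt {σ : Gal(L/K)} (w : Pl L) (h : IsArithFrobAt (𝓞 K) σ w.asIdeal) :
    IsFrob K L σ (below K L w) := by
  intro w' hw'
  obtain ⟨τ, rfl⟩ := exists_smul_eq K L hw'.symm
  have h1 := h.conj τ
  have h2 : τ * σ * τ⁻¹ = σ := by
    rw [mul_comm' τ σ, mul_assoc, mul_inv_cancel, mul_one]
  rw [h2] at h1
  exact h1

theorem exists_isFrob (v : Pl K) : ∃ σ : Gal(L/K), IsFrob K L σ v := by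
  obtain ⟨w, rfl⟩ := exists_above K L v
  obtain ⟨σ, hσ⟩ := exists_isArithFrobAt K L w
  exact ⟨σ, isFrob_of_isArithFrobAt K L w hσ⟩

/-- Blueprint 8.1 -/
theorem frob_spec (v : Pl K) : IsFrob K L (frob K L v) v := by
  unfold frob
  rw [dif_pos (exists_isFrob K L v)]
  exact (exists_isFrob K L v).choose_spec

theorem isFrob_unique {v : Pl K} (h : Unram K L v) {σ τ : Gal(L/K)} (hσ : IsFrob K L σ v)
    (hτ : IsFrob K L τ v) : σ = τ := by
  obtain ⟨w, hw⟩ := exists_above K L v
  have h1 := IsArithFrobAt.mul_inv_mem_inertia (hσ w hw) (hτ w hw)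
  rw [h w hw, Subgroup.mem_bot] at h1
  exact mul_inv_eq_one.1 h1

theorem frob_eq_one_iff {v : Pl K} (h : Unram K L v) : frob K L v = 1 ↔ Split K L v := by
  constructor
  · intro h1 w hw
    subst hw
    rw [stabilizer_eq_zpowers K L h (frob_spec K L _ w rfl), h1, Subgroup.zpowers_one_eq_bot]
  · intro h1
    obtain ⟨w, hw⟩ := exists_above K L v
    have h2 := (frob_spec K L v w hw).mem_stabilizer
    rw [h1 w hw, Subgroup.mem_bot] at h2
    exact h2

theorem orderOf_frob (w : Pl L) (h : Unram K L (below K L w)) :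
    orderOf (frob K L (below K L w)) = fdeg K L w := by
  have h1 := card_stabilizer K L w
  rw [stabilizer_eq_zpowers K L h (frob_spec K L _ w rfl), Nat.card_zpowers,
    (unram_iff K L _).1 h w rfl, one_mul] at h1
  exact h1

theorem art_single (v : Pl K) (n : ℤ) :
    art K L (Finsupp.single v n) = n • Additive.ofMul (frob K L v) := by
  simp [art]

/-- Blueprint 8.2 (c) -/
theorem art_Nm (S : Set (Pl K)) (hS : ∀ v ∉ S, Unram K L v) (D : Div L) (hD : D ∈ IS (above K L S)) :
    art K L (Nm K L D) = 0 := by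
  open scoped IsMulCommutative in
  classical
  rw [← Finsupp.sum_single D, Finsupp.sum, map_sum, map_sum]
  refine Finset.sum_eq_zero fun w hw => ?_
  have hw' : below K L w ∉ S := fun h => (Finsupp.mem_support_iff.1 hw) (hD w h)
  rw [Nm_single, art_single]
  have h1 := orderOf_frob K L w (hS _ hw')
  have h2 : (fdeg K L w : ℤ) • Additive.ofMul (frob K L (below K L w)) = 0 := by
    rw [← h1, natCast_zsmul, ← ofMul_pow, pow_orderOf_eq_one]
    rfl
  rw [mul_comm, mul_smul, h2, smul_zero]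

end basic

section tower

variable (K : Type*) [Field K] [NumberField K] (E : Type*) [Field E] [NumberField E] [Algebra K E]
  (L : Type*) [Field L] [NumberField L] [Algebra K L] [Algebra E L] [IsScalarTower K E L]

theorem below_below (w : Pl L) : below K E (below E L w) = below K L w := by
  apply HeightOneSpectrum.ext
  exact Ideal.under_under (A := 𝓞 K) (B := 𝓞 E) w.asIdeal

theorem fdeg_tower (w : Pl L) : fdeg K L w = fdeg K E (below E L w) * fdeg E L w := by
  exact Ideal.inertiaDeg_tower (R := 𝓞 K) (below E L w).asIdeal w.asIdeal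

theorem eidx_tower (w : Pl L) : eidx K L w = eidx K E (below E L w) * eidx E L w := by
  exact Ideal.ramificationIdx_tower (R := 𝓞 K) (below E L w).asIdeal w.asIdeal

theorem Nm_Nm (D : Div L) : Nm K E (Nm E L D) = Nm K L D := by
  classical
  rw [← Finsupp.sum_single D, Finsupp.sum, map_sum, map_sum, map_sum]
  refine Finset.sum_congr rfl fun w _ => ?_
  rw [Nm_single, Nm_single, Nm_single, below_below, fdeg_tower K E L w]
  push_cast
  rw [mul_assoc]

theorem unram_tower_bot [IsGalois K L] [IsGalois K E] {v : Pl K} (h : Unram K L v) : Unram K E v := by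
  rw [unram_iff] at h ⊢
  intro u hu
  obtain ⟨w, hw⟩ := exists_above E L u
  have h1 := h w (by rw [← below_below K E L, hw, hu])
  rw [eidx_tower K E L, hw] at h1
  exact Nat.eq_one_of_mul_eq_one_right h1

theorem unram_tower_top [IsGalois K L] [IsGalois E L] {u : Pl E} (h : Unram K L (below K E u)) :
    Unram E L u := by
  rw [unram_iff] at h ⊢
  intro w hw
  have h1 := h w (by rw [← below_below K E L, hw])
  rw [eidx_tower K E L, hw] at h1
  exact Nat.eq_one_of_mul_eq_one_left h1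

theorem split_tower_bot [IsGalois K L] [IsGalois K E] {v : Pl K} (h : Split K L v) : Split K E v := by
  rw [split_iff] at h ⊢
  intro u hu
  obtain ⟨w, hw⟩ := exists_above E L u
  have h1 := h w (by rw [← below_below K E L, hw, hu])
  rw [eidx_tower K E L, fdeg_tower K E L, hw] at h1
  exact ⟨Nat.eq_one_of_mul_eq_one_right h1.1, Nat.eq_one_of_mul_eq_one_right h1.2⟩

theorem algebraMap_restrict_smul [Normal K E] (σ : Gal(L/K)) (x : 𝓞 E) :
    algebraMap (𝓞 E) (𝓞 L) (AlgEquiv.restrictNormalHom E σ • x) = σ • algebraMap (𝓞 E) (𝓞 L) x := by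
  apply RingOfIntegers.ext
  exact AlgEquiv.restrictNormal_commutes σ E (x : E)

theorem isArithFrobAt_restrict [IsGalois K L] [IsGalois K E] {σ : Gal(L/K)} {w : Pl L}
    (h : IsArithFrobAt (𝓞 K) σ w.asIdeal) :
    IsArithFrobAt (𝓞 K) (AlgEquiv.restrictNormalHom E σ) (below E L w).asIdeal := by
  intro x
  have h1 := h (algebraMap (𝓞 E) (𝓞 L) x)
  have h2 : ((below E L w).asIdeal.under (𝓞 K)) = w.asIdeal.under (𝓞 K) :=
    Ideal.under_under (A := 𝓞 K) (B := 𝓞 E) w.asIdeal
  rw [h2]
  change algebraMap (𝓞 E) (𝓞 L) _ ∈ w.asIdeal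
  rw [map_sub, map_pow]
  change algebraMap (𝓞 E) (𝓞 L) (AlgEquiv.restrictNormalHom E σ • x) - _ ∈ _
  rw [algebraMap_restrict_smul]
  exact h1

/-- Blueprint 8.2 (a) -/
theorem restrict_frob [IsAbelianGalois K L] [IsAbelianGalois K E] {v : Pl K} (h : Unram K L v) :
    AlgEquiv.restrictNormalHom E (frob K L v) = frob K E v := by
  refine isFrob_unique K E (unram_tower_bot K E L h) ?_ (frob_spec K E v)
  intro u hu
  obtain ⟨w, rfl⟩ := exists_above E L u
  exact isArithFrobAt_restrict K E L (frob_spec K L v w (by rw [← below_below K E L, hu]))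

theorem restrict_art [IsAbelianGalois K L] [IsAbelianGalois K E] (S : Set (Pl K))
    (hS : ∀ v ∉ S, Unram K L v) (D : Div K) (hD : D ∈ IS S) :
    (AlgEquiv.restrictNormalHom (F := K) (K₁ := L) E).toAdditive (art K L D) = art K E D := by
  open scoped IsMulCommutative in
  classical
  rw [← Finsupp.sum_single D, Finsupp.sum, map_sum, map_sum, map_sum]
  refine Finset.sum_congr rfl fun v hv => ?_
  have hv' : v ∉ S := fun h => (Finsupp.mem_support_iff.1 hv) (hD v h)
  rw [art_single, art_single, map_zsmul, ← restrict_frob K E L (hS v hv')]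
  rfl

end tower

section basechange

/-! the square `K ⊆ K' ⊆ L'`, `K ⊆ L ⊆ L'` -/

variable (K : Type*) [Field K] [NumberField K] (K' : Type*) [Field K'] [NumberField K'] [Algebra K K']
  (L : Type*) [Field L] [NumberField L] [Algebra K L]
  (L' : Type*) [Field L'] [NumberField L'] [Algebra K L'] [Algebra K' L'] [Algebra L L']
  [IsScalarTower K K' L'] [IsScalarTower K L L']

/-- restriction `Gal(L'/K') → Gal(L/K)` -/
noncomputable def resBC [Normal K L] : Gal(L'/K') →* Gal(L/K) :=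
  (AlgEquiv.restrictNormalHom (F := K) (K₁ := L') L).comp (AlgEquiv.restrictScalarsHom K)

theorem resBC_apply [Normal K L] (σ : Gal(L'/K')) (x : L) :
    algebraMap L L' (resBC K K' L L' σ x) = σ (algebraMap L L' x) :=
  AlgEquiv.restrictNormal_commutes (AlgEquiv.restrictScalarsHom K σ) L x

/-- `resBC` is injective if `L' = L K'` -/
theorem resBC_injective [Normal K L]
    (hgen : IntermediateField.adjoin K' (Set.range (algebraMap L L')) = ⊤) :
    Function.Injective (resBC K K' L L') := by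
  rw [injective_iff_map_eq_one]
  intro σ hσ
  have h1 : ∀ x ∈ Set.range (algebraMap L L'), σ x = x := by
    rintro _ ⟨x, rfl⟩
    rw [← resBC_apply K K' L L' σ x, hσ]
    rfl
  have h2 : IntermediateField.adjoin K' (Set.range (algebraMap L L')) ≤
      IntermediateField.fixedField (Subgroup.zpowers σ) := by
    rw [IntermediateField.adjoin_le_iff]
    intro x hx
    rw [SetLike.mem_coe, IntermediateField.mem_fixedField_iff]
    intro τ hτ
    obtain ⟨k, rfl⟩ := Subgroup.mem_zpowers_iff.1 hτ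
    have h3 : σ ∈ MulAction.stabilizer Gal(L'/K') x := h1 x hx
    exact (Subgroup.zpow_mem _ h3 k)
  rw [hgen] at h2
  ext x
  have h4 := h2 (IntermediateField.mem_top (x := x))
  rw [IntermediateField.mem_fixedField_iff] at h4
  exact h4 σ (Subgroup.mem_zpowers σ)

theorem algebraMap_resBC_smul [Normal K L] (σ : Gal(L'/K')) (x : 𝓞 L) :
    algebraMap (𝓞 L) (𝓞 L') (resBC K K' L L' σ • x) = σ • algebraMap (𝓞 L) (𝓞 L') x := by
  apply RingOfIntegers.ext
  exact resBC_apply K K' L L' σ (x : L)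

theorem resBC_mem_inertia [IsGalois K L] [IsGalois K' L'] (w' : Pl L') (σ : Gal(L'/K'))
    (hσ : σ ∈ w'.asIdeal.inertia Gal(L'/K')) :
    resBC K K' L L' σ ∈ (below L L' w').asIdeal.inertia Gal(L/K) := by
  intro x
  change algebraMap (𝓞 L) (𝓞 L') _ ∈ w'.asIdeal
  rw [map_sub, algebraMap_resBC_smul]
  exact hσ _

/-- a prime unramified in `L/K` is unramified in `L K' / K'` -/
theorem unram_basechange [IsGalois K L] [IsGalois K' L']
    (hgen : IntermediateField.adjoin K' (Set.range (algebraMap L L')) = ⊤) (u : Pl K')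
    (h : Unram K L (below K K' u)) : Unram K' L' u := by
  intro w' hw'
  rw [eq_bot_iff]
  intro σ hσ
  have h1 := resBC_mem_inertia K K' L L' w' σ hσ
  rw [h (below L L' w') (by rw [below_below K L L', ← below_below K K' L', hw']),
    Subgroup.mem_bot] at h1
  rw [Subgroup.mem_bot]
  exact resBC_injective K K' L L' hgen (by rw [h1, map_one])

/-- Blueprint 8.2 (b) -/
theorem resBC_frob [IsAbelianGalois K L] [IsAbelianGalois K' L'] (u : Pl K') (h' : Unram K' L' u)
    (h : Unram K L (below K K' u)) :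
    resBC K K' L L' (frob K' L' u) = frob K L (below K K' u) ^ fdeg K K' u := by
  obtain ⟨w', rfl⟩ := exists_above K' L' u
  have hw : below K L (below L L' w') = below K K' (below K' L' w') := by
    rw [below_below K L L', ← below_below K K' L']
  have h1 := frob_spec K' L' _ w' rfl
  have h2 := frob_spec K L _ (below L L' w') hw
  have h3 : resBC K K' L L' (frob K' L' (below K' L' w')) *
      (frob K L (below K K' (below K' L' w')) ^ fdeg K K' (below K' L' w'))⁻¹ ∈
      (below L L' w').asIdeal.inertia Gal(L/K) := by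
    intro x
    generalize frob K' L' (below K' L' w') = σ' at h1
    generalize frob K L (below K K' (below K' L' w')) = σ at h2
    set ρ := σ ^ fdeg K K' (below K' L' w') with hρ
    set y := ρ⁻¹ • x with hy
    have hx : x = ρ • y := by rw [hy, smul_inv_smul]
    rw [mul_smul, ← hy, hx]
    change _ - _ ∈ (below L L' w').asIdeal
    have e1 : resBC K K' L L' σ' • y - y ^ Nat.card (𝓞 K' ⧸ (below K' L' w').asIdeal) ∈
        (below L L' w').asIdeal := by
      change algebraMap (𝓞 L) (𝓞 L') _ ∈ w'.asIdeal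
      rw [map_sub, algebraMap_resBC_smul, map_pow]
      exact h1 _
    have e2 : ρ • y - y ^ Nat.card (𝓞 K' ⧸ (below K' L' w').asIdeal) ∈
        (below L L' w').asIdeal := by
      rw [← Ideal.Quotient.eq, IsArithFrobAt_pow_mk h2, hw, card_quot_pow_fdeg, map_pow]
    have e3 := sub_mem e1 e2
    rwa [sub_sub_sub_cancel_right] at e3
  rw [h _ hw, Subgroup.mem_bot] at h3
  exact mul_inv_eq_one.1 h3

theorem resBC_art [IsAbelianGalois K L] [IsAbelianGalois K' L'] (S : Set (Pl K))
    (hS : ∀ v ∉ S, Unram K L v) (hS' : ∀ u : Pl K', below K K' u ∉ S → Unram K' L' u) (D : Div K')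
    (hD : D ∈ IS (above K K' S)) :
    (resBC K K' L L').toAdditive (art K' L' D) = art K L (Nm K K' D) := by
  open scoped IsMulCommutative in
  classical
  rw [← Finsupp.sum_single D, Finsupp.sum, map_sum, map_sum, map_sum, map_sum]
  refine Finset.sum_congr rfl fun u hu => ?_
  have hu' : below K K' u ∉ S := fun h => (Finsupp.mem_support_iff.1 hu) (hD u h)
  rw [art_single, Nm_single, art_single, map_zsmul, mul_comm, mul_smul]
  congr 1
  rw [natCast_zsmul, ← ofMul_pow, ← resBC_frob K K' L L' u (hS' u hu') (hS _ hu')]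
  rfl

end basechange

section cycaux

open scoped nonZeroDivisors

variable {K : Type*} [Field K] [NumberField K]

lemma cyc_natCast_notMem (m : ℕ) [NeZero m] (v : Pl K) (hv : ord v (m : K) = 0) :
    (m : 𝓞 K) ∉ v.asIdeal := by
  intro h
  have h0 : (m : 𝓞 K) ≠ 0 := Nat.cast_ne_zero.2 (NeZero.ne m)
  have h1 := (ord_pos_iff_mem v h0).2 h
  have h2 : (((m : 𝓞 K) : 𝓞 K) : K) = (m : K) := by simp
  rw [h2, hv] at h1
  exact lt_irrefl _ h1

lemma cyc_coprime_card (m : ℕ) [NeZero m] (v : Pl K) (hv : ord v (m : K) = 0) :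
    Nat.Coprime (Nat.card (𝓞 K ⧸ v.asIdeal)) m := by
  classical
  let _ : Field (𝓞 K ⧸ v.asIdeal) := Ideal.Quotient.field v.asIdeal
  have := Fintype.ofFinite (𝓞 K ⧸ v.asIdeal)
  obtain ⟨p, hp⟩ := CharP.exists (𝓞 K ⧸ v.asIdeal)
  obtain ⟨n, hpp, hn⟩ := FiniteField.card (𝓞 K ⧸ v.asIdeal) p
  rw [Nat.card_eq_fintype_card, hn]
  apply Nat.Coprime.pow_left
  rw [Nat.Prime.coprime_iff_not_dvd hpp]
  intro hdvd
  have h1 := (CharP.cast_eq_zero_iff (𝓞 K ⧸ v.asIdeal) p m).2 hdvd
  apply cyc_natCast_notMem m v hv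
  rw [← Ideal.Quotient.eq_zero_iff_mem, map_natCast]
  exact h1

/-- the product formula -/
lemma abs_norm_eq_prod {x : K} (hx : x ≠ 0) :
    |Algebra.norm ℚ x| = ∏ v ∈ (dv x).support, (Nat.card (𝓞 K ⧸ v.asIdeal) : ℚ) ^ (ord v x) := by
  have hI : FractionalIdeal.spanSingleton (𝓞 K)⁰ x ≠ 0 := by
    simpa [FractionalIdeal.spanSingleton_eq_zero_iff] using hx
  have h1 := FractionalIdeal.finprod_heightOneSpectrum_factorization' K hI
  have h2 := congrArg FractionalIdeal.absNorm h1
  rw [FractionalIdeal.absNorm_span_singleton] at h2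
  rw [← h2]
  have hsub : Function.mulSupport (fun v : Pl K => (v.asIdeal : FractionalIdeal (𝓞 K)⁰ K) ^
      (FractionalIdeal.count K v (FractionalIdeal.spanSingleton (𝓞 K)⁰ x))) ⊆
      ((dv x).support : Set (Pl K)) := by
    intro v hv
    rw [Function.mem_mulSupport] at hv
    rw [Finset.mem_coe, Finsupp.mem_support_iff, dv_apply]
    intro h0
    apply hv
    rw [count_spanSingleton v hx, h0, zpow_zero]
  rw [finprod_eq_prod_of_mulSupport_subset _ hsub, map_prod]
  refine Finset.prod_congr rfl fun v _ => ?_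
  rw [map_zpow₀, count_spanSingleton v hx, FractionalIdeal.coeIdeal_absNorm]
  rfl

lemma cyc_natAbs_norm_eq_prod {β : 𝓞 K} (hβ : β ≠ 0) :
    (Algebra.norm ℤ β).natAbs =
      ∏ v ∈ (dv (β : K)).support, Nat.card (𝓞 K ⧸ v.asIdeal) ^ (ord v (β : K)).toNat := by
  have hβ' : (β : K) ≠ 0 := by simpa using hβ
  have h1 := abs_norm_eq_prod hβ'
  have h2 : Algebra.norm ℚ (β : K) = ((Algebra.norm ℤ β : ℤ) : ℚ) :=
    (Algebra.coe_norm_int β).symm
  apply Nat.cast_injective (R := ℚ)
  rw [Nat.cast_natAbs, Int.cast_abs, ← h2, h1]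
  push_cast
  refine Finset.prod_congr rfl fun v _ => ?_
  rw [← zpow_natCast, Int.toNat_of_nonneg (ord_nonneg_of_integer v β)]

/-- norms from a totally complex field are nonnegative -/
lemma norm_nonneg_of_isTotallyComplex [IsTotallyComplex K] (x : K) : 0 ≤ Algebra.norm ℚ x := by
  classical
  have h1 := Algebra.norm_eq_prod_embeddings ℚ ℂ x
  rw [← Fintype.prod_equiv (RingHom.equivRatAlgHom K ℂ) (fun f => f x)
      (fun φ => φ x) fun _ => by simp [RingHom.equivRatAlgHom_apply]] at h1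
  rw [← Finset.prod_fiberwise Finset.univ InfinitePlace.mk (fun φ => φ x)] at h1
  have h2 : ∀ w : InfinitePlace K, ∏ φ : K →+* ℂ with InfinitePlace.mk φ = w, φ x
      = ((Complex.normSq (w.embedding x) : ℝ) : ℂ) := by
    intro w
    have hw : w.IsComplex := IsTotallyComplex.isComplex w
    have e : ({φ : K →+* ℂ | InfinitePlace.mk φ = w} : Finset _)
        = {w.embedding, ComplexEmbedding.conjugate w.embedding} := by
      ext φ
      simp only [Finset.mem_filter, Finset.mem_univ, true_and, Finset.mem_insert,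
        Finset.mem_singleton]
      conv_lhs => rw [← InfinitePlace.mk_embedding w, InfinitePlace.mk_eq_iff]
      constructor
      · rintro (h | h)
        · exact Or.inl h
        · right
          rw [← h, ComplexEmbedding.conjugate, ComplexEmbedding.conjugate, star_star]
      · rintro (h | h)
        · exact Or.inl h
        · right
          rw [h, ComplexEmbedding.conjugate, ComplexEmbedding.conjugate, star_star]
    have hne : w.embedding ≠ ComplexEmbedding.conjugate w.embedding := by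
      intro h
      have : ComplexEmbedding.IsReal w.embedding := ComplexEmbedding.isReal_iff.2 h.symm
      exact (InfinitePlace.not_isReal_iff_isComplex.2 hw) (InfinitePlace.isReal_iff.2 this)
    rw [e, Finset.prod_pair hne, ComplexEmbedding.conjugate_coe_eq, Complex.mul_conj]
  simp_rw [h2] at h1
  rw [← Complex.ofReal_prod, eq_ratCast, ← Complex.ofReal_ratCast, Complex.ofReal_inj] at h1
  have h3 : (0 : ℝ) ≤ ((Algebra.norm ℚ x : ℚ) : ℝ) := by
    rw [h1]
    exact Finset.prod_nonneg fun w _ => Complex.normSq_nonneg _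
  exact_mod_cast h3

lemma cyc_norm_int_pos [IsTotallyComplex K] {β : 𝓞 K} (hβ : β ≠ 0) :
    0 < Algebra.norm ℤ β := by
  have h1 := norm_nonneg_of_isTotallyComplex (β : K)
  rw [← Algebra.coe_norm_int β] at h1
  have h2 : (0 : ℤ) ≤ Algebra.norm ℤ β := by exact_mod_cast h1
  exact lt_of_le_of_ne h2 (Ne.symm (Algebra.norm_ne_zero_iff.2 hβ))

/-- the norm is compatible with congruences modulo a rational integer -/
lemma cyc_norm_int_congr (m : ℕ) (x y γ : 𝓞 K) (h : x = y + (m : 𝓞 K) * γ) :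
    ((Algebra.norm ℤ x : ℤ) : ZMod m) = ((Algebra.norm ℤ y : ℤ) : ZMod m) := by
  classical
  let b := RingOfIntegers.basis K
  rw [Algebra.norm_eq_matrix_det b, Algebra.norm_eq_matrix_det b]
  have e : ∀ M : Matrix (Module.Free.ChooseBasisIndex ℤ (𝓞 K)) (Module.Free.ChooseBasisIndex ℤ (𝓞 K)) ℤ,
      ((M.det : ℤ) : ZMod m) = ((Int.castRingHom (ZMod m)).mapMatrix M).det :=
    fun M => RingHom.map_det (Int.castRingHom (ZMod m)) M
  rw [e, e, h, map_add, map_mul, map_natCast, map_add, map_mul, map_natCast]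
  simp

lemma cyc_one_le_ord_card (v : Pl K) : 1 ≤ ord v ((Nat.card (𝓞 K ⧸ v.asIdeal) : ℕ) : K) := by
  have h1 : ((Nat.card (𝓞 K ⧸ v.asIdeal) : ℕ) : 𝓞 K) ∈ v.asIdeal := Ideal.absNorm_mem v.asIdeal
  have h0 : ((Nat.card (𝓞 K ⧸ v.asIdeal) : ℕ) : 𝓞 K) ≠ 0 :=
    Nat.cast_ne_zero.2 Nat.card_pos.ne'
  have h2 := (ord_pos_iff_mem v h0).2 h1
  have h3 : ((((Nat.card (𝓞 K ⧸ v.asIdeal) : ℕ) : 𝓞 K) : 𝓞 K) : K)
      = ((Nat.card (𝓞 K ⧸ v.asIdeal) : ℕ) : K) := by simp
  rw [h3] at h2
  omega

lemma cyc_ord_natCast_nonneg (v : Pl K) (n : ℕ) : 0 ≤ ord v (n : K) := by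
  have := ord_nonneg_of_integer v (n : 𝓞 K)
  simpa using this

/-- clearing denominators prime to `m` -/
lemma cyc_exists_clear_denom (m : ℕ) [NeZero m] (b : K) (hb : ∀ v : Pl K, ord v (m : K) ≠ 0 → 0 ≤ ord v b) :
    ∃ (s : ℕ) (γ : 𝓞 K), 0 < s ∧ Nat.Coprime s m ∧ (s : K) * b = (γ : K) := by
  classical
  by_cases hb0 : b = 0
  · exact ⟨1, 0, one_pos, Nat.coprime_one_left m, by simp [hb0]⟩
  set T := (dv b).support.filter (fun v => ord v b < 0) with hT
  set s : ℕ := ∏ v ∈ T, Nat.card (𝓞 K ⧸ v.asIdeal) ^ (-ord v b).toNat with hs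
  have hs0 : 0 < s := Finset.prod_pos fun v _ => pow_pos Nat.card_pos _
  have hsK : (s : K) ≠ 0 := Nat.cast_ne_zero.2 hs0.ne'
  have hcop : Nat.Coprime s m := by
    apply Nat.Coprime.prod_left
    intro v hv
    apply Nat.Coprime.pow_left
    apply cyc_coprime_card
    by_contra h
    have := hb v h
    have h2 := (Finset.mem_filter.1 hv).2
    omega
  have hint : ∀ v : Pl K, 0 ≤ ord v ((s : K) * b) := by
    intro v
    rw [ord_mul v hsK hb0]
    by_cases hv : ord v b < 0
    · have hvT : v ∈ T := by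
        rw [hT, Finset.mem_filter, Finsupp.mem_support_iff, dv_apply]
        exact ⟨by omega, hv⟩
      have h1 : ord v (s : K) = ∑ u ∈ T, ((-ord u b).toNat : ℤ) *
          ord v ((Nat.card (𝓞 K ⧸ u.asIdeal) : ℕ) : K) := by
        rw [hs, Nat.cast_prod, ord_prod]
        · refine Finset.sum_congr rfl fun u _ => ?_
          rw [Nat.cast_pow, ord_pow]
        · intro u _
          rw [Nat.cast_pow]
          exact pow_ne_zero _ (Nat.cast_ne_zero.2 Nat.card_pos.ne')
      have h2 : ((-ord v b).toNat : ℤ) * ord v ((Nat.card (𝓞 K ⧸ v.asIdeal) : ℕ) : K) ≤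
          ord v (s : K) := by
        rw [h1]
        exact Finset.single_le_sum (f := fun u => ((-ord u b).toNat : ℤ) *
          ord v ((Nat.card (𝓞 K ⧸ u.asIdeal) : ℕ) : K))
          (fun u _ => mul_nonneg (Int.natCast_nonneg _) (cyc_ord_natCast_nonneg v _)) hvT
      have h3 := cyc_one_le_ord_card v
      have h4 : ((-ord v b).toNat : ℤ) = -ord v b := Int.toNat_of_nonneg (by omega)
      rw [h4] at h2
      nlinarith
    · have := cyc_ord_natCast_nonneg v s
      omega
  obtain ⟨γ, hγ⟩ := exists_integer_of_ord_nonneg _ hint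
  exact ⟨s, γ, hs0, hcop, hγ.symm⟩

lemma cyc_ord_natCast_of_coprime (m : ℕ) [NeZero m] {s : ℕ} (hs : Nat.Coprime s m) (v : Pl K)
    (hv : ord v (m : K) ≠ 0) : ord v (s : K) = 0 := by
  by_contra h
  have hs0 : s ≠ 0 := by
    rintro rfl
    simp [ord_zero] at h
  have h1 : 0 < ord v (s : K) := lt_of_le_of_ne (cyc_ord_natCast_nonneg v s) (Ne.symm h)
  have h2 : 0 < ord v (m : K) := lt_of_le_of_ne (cyc_ord_natCast_nonneg v m) (Ne.symm hv)
  have c1 : (((s : 𝓞 K) : 𝓞 K) : K) = (s : K) := by simp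
  have c2 : (((m : 𝓞 K) : 𝓞 K) : K) = (m : K) := by simp
  rw [← c1, ord_pos_iff_mem v (Nat.cast_ne_zero.2 hs0)] at h1
  rw [← c2, ord_pos_iff_mem v (Nat.cast_ne_zero.2 (NeZero.ne m))] at h2
  obtain ⟨x, y, hxy⟩ := (Nat.isCoprime_iff_coprime.2 hs)
  have h3 : (1 : 𝓞 K) ∈ v.asIdeal := by
    have : ((x * s + y * m : ℤ) : 𝓞 K) = 1 := by rw [hxy]; simp
    rw [← this]
    push_cast
    exact add_mem (Ideal.mul_mem_left _ _ h1) (Ideal.mul_mem_left _ _ h2)
  exact v.isPrime.ne_top ((Ideal.eq_top_iff_one _).2 h3)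

end cycaux

section cyclotomic

variable (m : ℕ) [NeZero m] (K : Type*) [Field K] [NumberField K] (L : Type*) [Field L] [NumberField L]
  [Algebra K L]

theorem isAbelianGalois_cyclotomic [IsCyclotomicExtension {m} K L] : IsAbelianGalois K L :=
  IsCyclotomicExtension.isAbelianGalois {m} K L

lemma natCast_notMem_above (w : Pl L) (hv : ord (below K L w) (m : K) = 0) :
    (m : 𝓞 L) ∉ w.asIdeal := by
  intro h
  apply cyc_natCast_notMem m _ hv
  change algebraMap (𝓞 K) (𝓞 L) (m : 𝓞 K) ∈ w.asIdeal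
  rwa [map_natCast]

lemma isArithFrobAt_apply_root [IsGalois K L] (w : Pl L) (hv : ord (below K L w) (m : K) = 0)
    (σ : Gal(L/K)) (hσ : IsArithFrobAt (𝓞 K) σ w.asIdeal) (ζ : L) (hζ : ζ ^ m = 1) :
    σ ζ = ζ ^ Nat.card (𝓞 K ⧸ (below K L w).asIdeal) := by
  have hint : IsIntegral ℤ ζ :=
    IsIntegral.of_pow (Nat.pos_of_ne_zero (NeZero.ne m)) (by rw [hζ]; exact isIntegral_one)
  let ζ' : 𝓞 L := ⟨ζ, hint⟩
  have hζ' : ζ' ^ m = 1 := RingOfIntegers.ext hζ
  have h1 := AlgHom.IsArithFrobAt.apply_of_pow_eq_one hσ hζ' (natCast_notMem_above m K L w hv)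
  exact congrArg (fun z : 𝓞 L => (z : L)) h1

/-- a Frobenius element at `v ∤ m` raises the `m`-th roots of unity to the power `N v`
[`AlgHom.IsArithFrobAt.apply_of_pow_eq_one`] -/
theorem frob_zeta [IsGalois K L] (v : Pl K) (hv : ord v (m : K) = 0) (σ : Gal(L/K))
    (hσ : IsFrob K L σ v) (ζ : L) (hζ : ζ ^ m = 1) : σ ζ = ζ ^ Nat.card (𝓞 K ⧸ v.asIdeal) := by
  obtain ⟨w, rfl⟩ := exists_above K L v
  exact isArithFrobAt_apply_root m K L w hv σ (hσ w rfl) ζ hζ

lemma eq_one_of_apply_root [IsCyclotomicExtension {m} K L] {ζ : L} (hζ : IsPrimitiveRoot ζ m)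
    (σ : Gal(L/K)) (h : σ ζ = ζ) : σ = 1 := by
  apply AlgEquiv.coe_toAlgHom_injective
  apply (hζ.powerBasis K).algHom_ext
  simpa using h

theorem unram_cyclotomic [IsCyclotomicExtension {m} K L] [IsGalois K L] (v : Pl K) (hv : ord v (m : K) = 0) :
    Unram K L v := by
  intro w hw
  subst hw
  rw [eq_bot_iff]
  intro σ hσ
  rw [Subgroup.mem_bot]
  obtain ⟨τ, hτ⟩ := exists_isArithFrobAt K L w
  have hστ : IsArithFrobAt (𝓞 K) (σ * τ) w.asIdeal := by
    intro x
    have h1 := hσ (τ • x)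
    have h2 := hτ x
    have h3 := add_mem h1 h2
    simp only [MulSemiringAction.toAlgHom_apply] at h2 h3 ⊢
    rw [mul_smul]
    rwa [sub_add_sub_cancel] at h3
  have hζ := IsCyclotomicExtension.zeta_spec m K L
  have e1 := isArithFrobAt_apply_root m K L w hv τ hτ _ hζ.pow_eq_one
  have e2 := isArithFrobAt_apply_root m K L w hv (σ * τ) hστ _ hζ.pow_eq_one
  have hζ' : IsPrimitiveRoot (τ (IsCyclotomicExtension.zeta m K L)) m := hζ.map_of_injective τ.injective
  apply eq_one_of_apply_root m K L hζ'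
  rw [← e1] at e2
  exact e2

/-- the absolute norm of a principal divisor: `∏_v (N v) ^ ord_v x = |N_{K/ℚ} x|` for `x ∈ 𝓞 K`, `x ≠ 0`
[`Ideal.absNorm_span_singleton`, factorisation of `span {x}`] -/
theorem prod_card_pow_ord_eq_norm (x : 𝓞 K) (hx : x ≠ 0) :
    ((dv (x : K)).prod fun v n => (Nat.card (𝓞 K ⧸ v.asIdeal)) ^ n.toNat) = (Algebra.norm ℤ x).natAbs :=
  (cyc_natAbs_norm_eq_prod hx).symm

/-- norms from a totally complex field are positive -/
theorem norm_pos_of_isTotallyComplex [IsTotallyComplex K] (x : 𝓞 K) (hx : x ≠ 0) : 0 < Algebra.norm ℤ x :=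
  cyc_norm_int_pos hx

/-- `x ≡ y mod m 𝓞_K ⟹ N x ≡ N y mod m`  [determinant of the multiplication matrix in an integral basis] -/
theorem norm_congr_mod (x y z : 𝓞 K) (h : x - y = (m : 𝓞 K) * z) :
    (Algebra.norm ℤ x : ZMod m) = (Algebra.norm ℤ y : ZMod m) :=
  cyc_norm_int_congr m x y z (by rw [← h]; ring)

variable {m L} in
lemma autToPow_eq_of_apply {ζ : L} (hζ : IsPrimitiveRoot ζ m) (σ : Gal(L/K)) (k : ℕ) (h : σ ζ = ζ ^ k) :
    ((hζ.autToPow K σ : (ZMod m)ˣ) : ZMod m) = (k : ZMod m) := by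
  have h1 := hζ.autToPow_spec K σ
  rw [h] at h1
  have h2 : ((hζ.autToPow K σ : (ZMod m)ˣ) : ZMod m).val ≡ k [MOD m] := by
    have h3 := (hζ.isOfFinOrder (NeZero.ne m)).pow_eq_pow_iff_modEq.1 h1
    rwa [← hζ.eq_orderOf] at h3
  rw [← (ZMod.natCast_eq_natCast_iff _ _ _).2 h2, ZMod.natCast_zmod_val]

variable {m L} in
lemma autToPow_frob [IsAbelianGalois K L] {ζ : L} (hζ : IsPrimitiveRoot ζ m) (v : Pl K)
    (hv : ord v (m : K) = 0) :
    ((hζ.autToPow K (frob K L v) : (ZMod m)ˣ) : ZMod m) = (Nat.card (𝓞 K ⧸ v.asIdeal) : ZMod m) :=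
  autToPow_eq_of_apply K hζ _ _ (frob_zeta m K L v hv _ (frob_spec K L v) _ hζ.pow_eq_one)

variable {m L} in
/-- the Artin symbol of a principal divisor `(β)`, `β` integral and prime to `m`, raises `ζ_m` to the power
`N β` -/
lemma autToPow_art_integer [IsAbelianGalois K L] [IsTotallyComplex K] {ζ : L} (hζ : IsPrimitiveRoot ζ m)
    {β : 𝓞 K} (hβ : β ≠ 0) (hpr : ∀ v : Pl K, ord v (m : K) ≠ 0 → ord v (β : K) = 0) :
    ((hζ.autToPow K (art K L (dv (β : K))).toMul : (ZMod m)ˣ) : ZMod m)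
      = ((Algebra.norm ℤ β : ℤ) : ZMod m) := by
  open scoped IsMulCommutative in
  classical
  have h1 : art K L (dv (β : K)) = ∑ v ∈ (dv (β : K)).support,
      (ord v (β : K)).toNat • Additive.ofMul (frob K L v) := by
    conv_lhs => rw [← Finsupp.sum_single (dv (β : K)), Finsupp.sum, map_sum]
    refine Finset.sum_congr rfl fun v _ => ?_
    rw [art_single, dv_apply, ← natCast_zsmul, Int.toNat_of_nonneg (ord_nonneg_of_integer v β)]
  have h2 : (Algebra.norm ℤ β : ℤ) = ((Algebra.norm ℤ β).natAbs : ℤ) :=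
    (Int.natAbs_of_nonneg (cyc_norm_int_pos hβ).le).symm
  rw [h1, toMul_sum, map_prod, Units.coe_prod, h2, cyc_natAbs_norm_eq_prod hβ]
  push_cast
  refine Finset.prod_congr rfl fun v hv => ?_
  have hv0 : ord v (m : K) = 0 := by
    by_contra h
    exact (Finsupp.mem_support_iff.1 hv) (hpr v h)
  rw [toMul_nsmul, toMul_ofMul, map_pow, Units.val_pow_eq_pow_val, autToPow_frob K hζ v hv0]

variable {m L} in
/-- Blueprint 8.3 for a primitive `m`-th root of unity (no hypothesis on the ramification is needed) -/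
theorem art_fix_primitiveRoot [IsAbelianGalois K L] [IsTotallyComplex K] {ζ : L}
    (hζ : IsPrimitiveRoot ζ m) (a : Kˣ)
    (ha : ∀ v : Pl K, ord v (m : K) ≠ 0 → One v (ord v (m : K)).toNat (a : K)) :
    (art K L (dv (a : K))).toMul ζ = ζ := by
  have hm : (m : K) ≠ 0 := Nat.cast_ne_zero.2 (NeZero.ne m)
  have hpos : ∀ v : Pl K, ord v (m : K) ≠ 0 → 1 ≤ (ord v (m : K)).toNat := by
    intro v hv
    have := cyc_ord_natCast_nonneg v m
    omega
  have hb : ∀ v : Pl K, ord v (m : K) ≠ 0 → 0 ≤ ord v (((a : K) - 1) / m) := by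
    intro v hv
    by_cases h1 : (a : K) = 1
    · simp [h1, ord_zero]
    · have h2 := ((one_iff v _ _).1 (ha v hv)).resolve_left h1
      rw [ord_div v (sub_ne_zero.2 h1) hm]
      have := cyc_ord_natCast_nonneg v m
      omega
  obtain ⟨s, γ, hs0, hcop, hγ⟩ := cyc_exists_clear_denom m _ hb
  have hsK : (s : K) ≠ 0 := Nat.cast_ne_zero.2 hs0.ne'
  set α : 𝓞 K := (s : 𝓞 K) + (m : 𝓞 K) * γ with hα
  have hαK : (α : K) = s * a := by
    have e0 : (α : K) = (s : K) + (m : K) * (γ : K) := by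
      rw [hα]
      simp
    rw [e0, ← hγ]
    field_simp
    ring
  have hα0 : α ≠ 0 := by
    intro h
    rw [h] at hαK
    simp only [map_zero] at hαK
    exact (mul_ne_zero hsK a.ne_zero) hαK.symm
  have hs0' : (s : 𝓞 K) ≠ 0 := Nat.cast_ne_zero.2 hs0.ne'
  have hsc : (((s : 𝓞 K) : 𝓞 K) : K) = (s : K) := by simp
  have e1 := autToPow_art_integer K hζ hα0 (by
    intro v hv
    rw [hαK, ord_mul v hsK a.ne_zero, cyc_ord_natCast_of_coprime m hcop v hv,
      (ha v hv).ord_eq_zero (hpos v hv), add_zero])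
  have e2 := autToPow_art_integer K hζ hs0' (by
    intro v hv
    rw [hsc, cyc_ord_natCast_of_coprime m hcop v hv])
  rw [cyc_norm_int_congr m α s γ hα, ← e2] at e1
  have e3 := Units.ext e1
  rw [hαK, hsc, dv_mul hsK a.ne_zero, map_add, toMul_add, map_mul] at e3
  have e4 : hζ.autToPow K (art K L (dv (a : K))).toMul = 1 := mul_eq_left.1 e3
  have e5 := hζ.autToPow_spec K (art K L (dv (a : K))).toMul
  rw [e4, Units.val_one, ZMod.val_one_eq_one_mod, ← pow_eq_pow_mod 1 hζ.pow_eq_one, pow_one] at e5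
  exact e5.symm

/-- Blueprint 8.3, general form.  `L/K` abelian, `ζ ∈ L`, `ζ ^ m = 1`, `S ⊇ Ram(L/K) ∪ {v ∣ m}`, `a` a unit at `S`, `a ≡ 1 mod m`:
the Artin symbol of `(a)` fixes `ζ`.  (The hypotheses `hS`, `hm`, `haS` are not used.) -/
theorem art_fix_zeta [IsAbelianGalois K L] [IsTotallyComplex K] (ζ : L) (hζ : ζ ^ m = 1) (S : Set (Pl K))
    (hS : ∀ v ∉ S, Unram K L v) (hm : ∀ v : Pl K, ord v (m : K) ≠ 0 → v ∈ S) (a : Kˣ)
    (haS : ∀ v ∈ S, ord v (a : K) = 0)
    (ha : ∀ v : Pl K, ord v (m : K) ≠ 0 → One v (ord v (m : K)).toNat (a : K)) :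
    (art K L (dv (a : K))).toMul ζ = ζ := by
  have hd : orderOf ζ ∣ m := orderOf_dvd_of_pow_eq_one hζ
  have hd0 : orderOf ζ ≠ 0 := fun h => NeZero.ne m (Nat.eq_zero_of_zero_dvd (h ▸ hd))
  have : NeZero (orderOf ζ) := ⟨hd0⟩
  refine art_fix_primitiveRoot K (IsPrimitiveRoot.orderOf ζ) a ?_
  intro v hv
  obtain ⟨e, he⟩ := hd
  have he0 : e ≠ 0 := by
    rintro rfl
    exact NeZero.ne m (by rw [he, mul_zero])
  have h1 : ord v (m : K) = ord v ((orderOf ζ : ℕ) : K) + ord v (e : K) := by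
    rw [he, Nat.cast_mul, ord_mul v (Nat.cast_ne_zero.2 hd0) (Nat.cast_ne_zero.2 he0)]
  have h2 := cyc_ord_natCast_nonneg v (orderOf ζ)
  have h3 := cyc_ord_natCast_nonneg v e
  exact (ha v (by omega)).mono (by omega)

end cyclotomic

end Claimed.Agent.R239.CFT
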