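import Claimed.Agent.R239.CFT.P3c
import Claimed.Agent.R239.CFT.P8a

/-!
# R239 / CFT : package P4 (ideal groups)   (proofs by helper152)

Output statements of the package (see `Blueprint.lean`); names and statements are frozen (ask helper97
for changes).  Only the order differs from the first version (`hidx_ne_zero` comes after the `S`-form).

Extra API:
* towers `K ⊆ E ⊆ L`: `above_above` (the other tower lemmas are in `P8a.lean`);
* norms: `normU_smul`, `coe_normU`, `norm_div`, `ord_smul_units`,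
  `sum_ord_above_eq_zero`, `exists_unit_above_same_norm` (same norm, unit above `v`),
  `nloc_unit_approx`, `nlocS_unit_approx` (local norms that are units are approximated by norms of
  elements that are units above `S`), `dvS_norm`, `dvS_norm_mem_NmS`;
* ideal groups: `NmS_le_IS`, `NmS_anti`, `Hc_anti`, `IS_le_sup_PRay` (4.3), `IS_inf_Hc_le` (4.4),
  `relIndex_Hc_eq_of_le`, `relIndex_Hc_eq_index_comap`, `nlocS_index_ne_zero`,
  `unit_sup_nlocS_index_ne_zero`, `hidx_dvd_index`, `exists_good_set0`.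
-/

set_option autoImplicit false

namespace Claimed.Agent.R239.CFT

open IsDedekindDomain NumberField

section tower

variable (K : Type*) [Field K] [NumberField K] (E : Type*) [Field E] [NumberField E]
  (L : Type*) [Field L] [NumberField L] [Algebra K E] [Algebra E L] [Algebra K L]
  [IsScalarTower K E L]

theorem above_above (S : Set (Pl K)) : above E L (above K E S) = above K L S := by
  ext w
  rw [mem_above_iff, mem_above_iff, mem_above_iff, below_below]

end tower

variable (K : Type*) [Field K] [NumberField K] (L : Type*) [Field L] [NumberField L] [Algebra K L]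
  [IsGalois K L]

/-- Blueprint 4.1 -/
theorem exists_admissible (S : Finset (Pl K)) (hS : ∀ v ∉ S, Unram K L v) :
    ∃ c : Modulus K, c.support = S ∧ Admissible K L c := by
  classical
  choose N hN using fun v : Pl K => nloc_open K L v
  let c : Modulus K := Finsupp.onFinset S (fun v => if v ∈ S then N v + 1 else 0) (by
    intro v hv
    by_contra h
    simp [h] at hv)
  have hc : c.support = S := by
    ext v
    simp [c]
  refine ⟨c, hc, ?_, ?_⟩
  · intro v hv
    exact hS v (by rwa [hc] at hv)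
  · intro v hv a ha
    rw [hc] at hv
    have : c v = N v + 1 := by simp [c, hv]
    rw [this] at ha
    exact hN v a (ha.mono (Nat.le_succ _))

variable {K L} in
theorem Admissible.mono {c c' : Modulus K} (h : c ≤ c') (hc : Admissible K L c) :
    Admissible K L c' := by
  have hsupp : c.support ⊆ c'.support := Finsupp.support_mono h
  refine ⟨fun v hv => hc.1 v fun hv' => hv (hsupp hv'), fun v hv a ha => ?_⟩
  by_cases hvc : v ∈ c.support
  · exact hc.2 v hvc a (ha.mono (h v))
  · have h1 : 1 ≤ c' v := Nat.one_le_iff_ne_zero.2 (Finsupp.mem_support_iff.1 hv)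
    exact nloc_of_unram K L v (hc.1 v hvc) a (ha.ord_eq_zero h1)

theorem NmS_le_IS (S : Set (Pl K)) : NmS K L S ≤ IS S := by
  rintro _ ⟨D, hD, rfl⟩
  exact Nm_mem_IS K L hD

theorem Hc_le_IS (c : Modulus K) : Hc K L c ≤ IS (c.support : Set (Pl K)) :=
  sup_le (PRay_le_IS c) (NmS_le_IS K L _)

theorem normU_smul (σ : Gal(L/K)) (b : Lˣ) : normU K L (σ • b) = normU K L b := by
  ext
  exact Algebra.norm_eq_of_algEquiv σ (b : L)

theorem coe_normU (b : Lˣ) : ((normU K L b : Kˣ) : K) = Algebra.norm K (b : L) := rfl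

theorem ord_smul_units (σ : Gal(L/K)) (w : Pl L) (b : Lˣ) :
    ord w ((σ • b : Lˣ) : L) = ord (σ⁻¹ • w) (b : L) := by
  have := ord_smul K L σ (σ⁻¹ • w) (b : L)
  rw [smul_inv_smul] at this
  exact this

/-- the orders of `b` above `v` add up to `0` if the norm of `b` is a unit at `v` -/
theorem sum_ord_above_eq_zero (v : Pl K) (b : Lˣ) (hb : ord v (Algebra.norm K (b : L)) = 0) :
    ∑ w ∈ (finite_above K L v).toFinset, ord w (b : L) = 0 := by
  obtain ⟨w0, hw0⟩ := exists_above K L v
  rw [ord_norm K L v b.ne_zero] at hb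
  have h1 : ∑ w ∈ (finite_above K L v).toFinset, (fdeg K L w : ℤ) * ord w (b : L) =
      (fdeg K L w0 : ℤ) * ∑ w ∈ (finite_above K L v).toFinset, ord w (b : L) := by
    rw [Finset.mul_sum]
    refine Finset.sum_congr rfl fun w hw => ?_
    rw [fdeg_eq_of_below_eq K L (((mem_toFinset_above K L).1 hw).trans hw0.symm)]
  rw [h1] at hb
  have h2 : (fdeg K L w0 : ℤ) ≠ 0 := by exact_mod_cast (fdeg_pos K L w0).ne'
  exact (mul_eq_zero.1 hb).resolve_left h2

/-- an element whose norm is a unit at `v` can be replaced by an element with the same norm that is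
a unit at all primes above `v` -/
theorem exists_unit_above_same_norm (v : Pl K) (b : Lˣ)
    (hb : ord v (Algebra.norm K (b : L)) = 0) :
    ∃ b' : Lˣ, normU K L b' = normU K L b ∧ ∀ w : Pl L, below K L w = v → ord w (b' : L) = 0 := by
  classical
  obtain ⟨w0, hw0⟩ := exists_above K L v
  set T := (finite_above K L v).toFinset with hT
  have hσ : ∀ w : Pl L, ∃ σ : Gal(L/K), w ∈ T → σ • w0 = w := by
    intro w
    by_cases hw : w ∈ T
    · obtain ⟨σ, h⟩ := exists_smul_eq K L (hw0.trans ((mem_toFinset_above K L).1 hw).symm)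
      exact ⟨σ, fun _ => h⟩
    · exact ⟨1, fun h => absurd h hw⟩
  choose σ hσ using hσ
  obtain ⟨π, hπ⟩ := exists_ord_eq T (fun w => if w = w0 then 1 else 0)
  refine ⟨b * ∏ w ∈ T, (π / σ w • π) ^ ord w (b : L), ?_, ?_⟩
  · rw [map_mul, map_prod]
    have : ∀ w ∈ T, normU K L ((π / σ w • π) ^ ord w (b : L)) = 1 := by
      intro w _
      rw [map_zpow, map_div, normU_smul, div_self', one_zpow]
    rw [Finset.prod_congr rfl this, Finset.prod_const_one, mul_one]
  · intro w' hw'
    have hw'T : w' ∈ T := (mem_toFinset_above K L).2 hw'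
    have e1 : ∀ w ∈ T, ord w' (((π / σ w • π) ^ ord w (b : L) : Lˣ) : L) =
        ord w (b : L) * ((if w' = w0 then 1 else 0) - (if w' = w then 1 else 0)) := by
      intro w hw
      have h1 : (σ w)⁻¹ • w' ∈ T := by
        rw [hT, mem_toFinset_above, below_smul]; exact hw'
      have h2 : ((σ w)⁻¹ • w' = w0) ↔ w' = w := by
        rw [inv_smul_eq_iff, hσ w hw]
      push_cast
      rw [ord_zpow, ord_div _ π.ne_zero (σ w • π).ne_zero, ord_smul_units, hπ _ hw'T, hπ _ h1]
      simp only [h2]
    push_cast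
    rw [ord_mul _ b.ne_zero (Finset.prod_ne_zero_iff.2 fun w _ => by
      exact zpow_ne_zero _ (div_ne_zero π.ne_zero (σ w • π).ne_zero)),
      ord_prod _ _ _ (fun w _ => zpow_ne_zero _ (div_ne_zero π.ne_zero (σ w • π).ne_zero))]
    have e2 : ∀ w ∈ T, ord w' (((π : L) / ((σ w • π : Lˣ) : L)) ^ ord w (b : L)) =
        ord w (b : L) * ((if w' = w0 then 1 else 0) - (if w' = w then 1 else 0)) := by
      intro w hw
      have := e1 w hw
      push_cast at this
      exact this
    rw [Finset.sum_congr rfl e2]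
    simp only [mul_sub, Finset.sum_sub_distrib, mul_ite, mul_one, mul_zero]
    rw [Finset.sum_ite_eq, if_pos hw'T]
    have h0 := sum_ord_above_eq_zero K L v b hb
    by_cases h : w' = w0
    · simp only [h, if_true]
      rw [h0]; ring
    · simp [h]


/-- local norms that are units can be approximated by norms of elements that are units above `v` -/
theorem nloc_unit_approx (v : Pl K) (a : Kˣ) (ha : a ∈ Nloc K L v) (h0 : ord v (a : K) = 0) (N : ℕ) :
    ∃ b : Lˣ, (∀ w : Pl L, below K L w = v → ord w (b : L) = 0) ∧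
      One v N ((a : K) / Algebra.norm K (b : L)) := by
  obtain ⟨b, hb⟩ := ha (N + 1)
  have hn : Algebra.norm K (b : L) ≠ 0 := (normU K L b).ne_zero
  have h1 := hb.ord_eq_zero (Nat.succ_le_succ (Nat.zero_le N))
  rw [ord_div v a.ne_zero hn, h0] at h1
  obtain ⟨b', hb', hu⟩ := exists_unit_above_same_norm K L v b (by omega)
  refine ⟨b', hu, ?_⟩
  have : Algebra.norm K (b' : L) = Algebra.norm K (b : L) := congrArg Units.val hb'
  rw [this]
  exact hb.mono (Nat.le_succ N)

theorem norm_div (x y : Lˣ) : Algebra.norm K ((x : L) / (y : L)) =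
    Algebra.norm K (x : L) / Algebra.norm K (y : L) := by
  have hn : Algebra.norm K (y : L) ≠ 0 := (normU K L y).ne_zero
  rw [eq_div_iff hn, ← map_mul, div_mul_cancel₀ _ y.ne_zero]

/-- simultaneous version of `nloc_unit_approx` -/
theorem nlocS_unit_approx (S : Finset (Pl K)) (a : Kˣ) (ha : a ∈ NlocS K L (S : Set (Pl K)))
    (h0 : ∀ v ∈ S, ord v (a : K) = 0) (N : ℕ) :
    ∃ b : Lˣ, (∀ w : Pl L, below K L w ∈ S → ord w (b : L) = 0) ∧
      ∀ v ∈ S, One v N ((a : K) / Algebra.norm K (b : L)) := by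
  classical
  have ha' : ∀ v ∈ S, a ∈ Nloc K L v := by
    intro v hv
    have := ha
    simp only [NlocS, Subgroup.mem_iInf] at this
    exact this v (by simpa using hv)
  have h1 : ∀ v : Pl K, ∃ b : Lˣ, v ∈ S → (∀ w : Pl L, below K L w = v → ord w (b : L) = 0) ∧
      One v (N + 1) ((a : K) / Algebra.norm K (b : L)) := by
    intro v
    by_cases hv : v ∈ S
    · obtain ⟨b, hb⟩ := nloc_unit_approx K L v a (ha' v hv) (h0 v hv) (N + 1)
      exact ⟨b, fun _ => hb⟩
    · exact ⟨1, fun h => absurd h hv⟩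
  choose x hx using h1
  obtain ⟨b, hb⟩ := weak_approx_oneL (L := L) S x (N + 1)
  refine ⟨b, ?_, ?_⟩
  · intro w hw
    have h2 := (hb _ hw w rfl).ord_eq_zero (Nat.mul_pos (Nat.succ_pos N) (eidx_pos K L w))
    rw [ord_div w b.ne_zero (x _).ne_zero, (hx _ hw).1 w rfl] at h2
    omega
  · intro v hv
    have h2 : One v (N + 1) (Algebra.norm K ((b : L) / (x v : L))) := (hb v hv).norm
    rw [norm_div] at h2
    have h3 := ((hx v hv).2.div (Nat.succ_pos N) h2).mono (Nat.le_succ N)
    have hn1 : Algebra.norm K (b : L) ≠ 0 := (normU K L b).ne_zero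
    have hn2 : Algebra.norm K (x v : L) ≠ 0 := (normU K L (x v)).ne_zero
    convert h3 using 1
    field_simp

/-- the `S`-part of the divisor of a norm -/
theorem dvS_norm (S : Set (Pl K)) (b : Lˣ) :
    dvS S (Algebra.norm K (b : L)) = Nm K L (dvS (above K L S) (b : L)) := by
  ext v
  rw [Nm_apply]
  by_cases hv : v ∈ S
  · rw [dvS_apply_of_mem _ _ hv]
    symm
    refine Finset.sum_eq_zero fun w hw => ?_
    rw [dvS_apply_of_mem, mul_zero]
    rw [mem_above_iff, (mem_toFinset_above K L).1 hw]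
    exact hv
  · rw [dvS_apply_of_notMem _ _ hv, ord_norm K L v b.ne_zero]
    refine Finset.sum_congr rfl fun w hw => ?_
    rw [dvS_apply_of_notMem]
    rw [mem_above_iff, (mem_toFinset_above K L).1 hw]
    exact hv

theorem dvS_norm_mem_NmS (S : Set (Pl K)) (b : Lˣ) :
    dvS S (Algebra.norm K (b : L)) ∈ NmS K L S :=
  ⟨_, dvS_mem_IS _ _, (dvS_norm K L S b).symm⟩


omit [IsGalois K L] [Algebra K L] [NumberField L] [Field L] in
variable {K} in
/-- Blueprint 4.3 -/
theorem IS_le_sup_PRay {c c' : Modulus K} :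
    IS (c.support : Set (Pl K)) ≤ IS (c'.support : Set (Pl K)) ⊔ PRay c := by
  classical
  intro D hD
  have hx : ∀ v : Pl K, ∃ x : Kˣ, (v ∈ c.support → x = 1) ∧ (v ∉ c.support → ord v (x : K) = D v) := by
    intro v
    by_cases hv : v ∈ c.support
    · exact ⟨1, fun _ => rfl, fun h => absurd hv h⟩
    · obtain ⟨x, hx⟩ := ord_surjective v (D v)
      exact ⟨x, fun h => absurd h hv, fun _ => hx⟩
  choose x hx using hx
  obtain ⟨a, ha⟩ := weak_approx_units' (c.support ∪ c'.support) x (fun v => c v + 1)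
  have haR : a ∈ Ray c := by
    intro v hv
    have := ha v (Finset.mem_union_left _ hv)
    rw [(hx v).1 hv] at this
    simpa using this.mono (Nat.le_succ _)
  rw [AddSubgroup.mem_sup]
  refine ⟨D - dv (a : K), ?_, dv (a : K), dv_mem_PRay haR, by abel⟩
  intro v hv
  have h1 := (ha v (Finset.mem_union_right _ hv)).ord_eq_zero (Nat.succ_pos _)
  rw [ord_div v a.ne_zero (x v).ne_zero] at h1
  rw [Finsupp.sub_apply, dv_apply]
  by_cases hvc : v ∈ c.support
  · rw [(hx v).1 hvc] at h1
    rw [hD v hvc]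
    simp only [Units.val_one, ord_one] at h1
    omega
  · rw [(hx v).2 hvc] at h1
    omega

theorem NmS_anti {S T : Set (Pl K)} (h : S ⊆ T) : NmS K L T ≤ NmS K L S := by
  rintro _ ⟨D, hD, rfl⟩
  have hsub : above K L S ⊆ above K L T := fun w hw => h hw
  exact ⟨D, IS_anti hsub hD, rfl⟩

theorem Hc_anti {c c' : Modulus K} (h : c ≤ c') : Hc K L c' ≤ Hc K L c :=
  sup_le_sup (PRay_anti h) (NmS_anti K L (by exact_mod_cast Finsupp.support_mono h))


variable {K L} in
/-- Blueprint 4.4 -/
theorem IS_inf_Hc_le {c c' : Modulus K} (h : c ≤ c') (hc : Admissible K L c) :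
    IS (c'.support : Set (Pl K)) ⊓ Hc K L c ≤ Hc K L c' := by
  classical
  rintro D ⟨hD', hD⟩
  obtain ⟨y, hy, z, hz, rfl⟩ := AddSubgroup.mem_sup.1 hD
  obtain ⟨a0, ha0, rfl⟩ := (mem_PRay_iff c y).1 hy
  obtain ⟨A, hA, rfl⟩ := hz
  have hfr : 0 < Module.finrank K L := Module.finrank_pos
  -- the element `g`
  have hx : ∀ w : Pl L, ∃ x : Lˣ, (below K L w ∈ c.support → x = 1) ∧
      (below K L w ∉ c.support → ord w (x : L) = A w) := by
    intro w
    by_cases hw : below K L w ∈ c.support
    · exact ⟨1, fun _ => rfl, fun h => absurd hw h⟩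
    · obtain ⟨x, hx⟩ := ord_surjective w (A w)
      exact ⟨x, fun h => absurd h hw, fun _ => hx⟩
  choose x hx using hx
  set M := c.support.sup c with hM
  obtain ⟨g, hg⟩ := weak_approx_above (K := K) c'.support x ((M + 1) * Module.finrank K L)
  have hsupp : c.support ⊆ c'.support := Finsupp.support_mono h
  have hN1 : 1 ≤ (M + 1) * Module.finrank K L := Nat.mul_pos (Nat.succ_pos M) hfr
  have hgL : ∀ v ∈ c.support, OneL K L v (c v) (g : L) := by
    rintro v hv w rfl
    have h1 := hg w (hsupp hv)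
    rw [(hx w).1 hv] at h1
    simp only [Units.val_one, div_one] at h1
    refine h1.mono (Nat.mul_le_mul ?_ (eidx_le_finrank K L w))
    exact le_trans (Finset.le_sup (f := c) hv) (Nat.le_succ _)
  have hgo : ∀ w : Pl L, below K L w ∈ c'.support → ord w (g : L) = A w := by
    intro w hw
    have h1 := (hg w hw).ord_eq_zero hN1
    rw [ord_div w g.ne_zero (x w).ne_zero] at h1
    by_cases hwc : below K L w ∈ c.support
    · rw [(hx w).1 hwc] at h1
      simp only [Units.val_one, ord_one] at h1
      rw [hA w hwc]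
      omega
    · rw [(hx w).2 hwc] at h1
      omega
  have hA' : A - dv (g : L) ∈ IS (above K L (c'.support : Set (Pl K))) := by
    intro w hw
    rw [Finsupp.sub_apply, dv_apply, hgo w hw, sub_self]
  set a' : Kˣ := a0 * normU K L g with ha'
  have ha'R : a' ∈ Ray c := by
    refine (Ray c).mul_mem ha0 ?_
    intro v hv
    exact (hgL v hv).norm
  have hdec : dv (a0 : K) + Nm K L A = dv (a' : K) + Nm K L (A - dv (g : L)) := by
    rw [map_sub, ← dv_norm K L g.ne_zero, ha']
    push_cast
    rw [dv_mul a0.ne_zero (normU K L g).ne_zero, coe_normU]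
    abel
  have hu : ∀ v ∈ c'.support, ord v (a' : K) = 0 := by
    intro v hv
    have h1 := hD' v hv
    rw [hdec, Finsupp.add_apply, Nm_mem_IS K L hA' v hv, add_zero, dv_apply] at h1
    exact h1
  have hloc : a' ∈ NlocS K L (c'.support : Set (Pl K)) := by
    simp only [NlocS, Subgroup.mem_iInf]
    intro v hv
    by_cases hvc : v ∈ c.support
    · exact hc.2 v hvc a' (ha'R v hvc)
    · exact nloc_of_unram K L v (hc.1 v hvc) a' (hu v hv)
  obtain ⟨b, hb1, hb2⟩ := nlocS_unit_approx K L c'.support a' hloc hu (c'.support.sup c')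
  have hR' : a' / normU K L b ∈ Ray c' := by
    intro v hv
    have := (hb2 v hv).mono (Finset.le_sup (f := c') hv)
    simpa using this
  have hdec2 : dv (a' : K) = dv ((a' / normU K L b : Kˣ) : K) + Nm K L (dv (b : L)) := by
    rw [← dv_norm K L b.ne_zero]
    push_cast
    rw [dv_div a'.ne_zero (normU K L b).ne_zero, coe_normU]
    abel
  rw [hdec, hdec2, add_assoc, ← map_add]
  refine AddSubgroup.add_mem_sup (dv_mem_PRay hR') ⟨_, ?_, rfl⟩
  refine AddSubgroup.add_mem _ ?_ hA'
  intro w hw
  rw [dv_apply]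
  exact hb1 w hw

variable {K L} in
/-- Blueprint 4.5: the index does not change if the admissible modulus is enlarged -/
theorem relIndex_Hc_eq_of_le {c c' : Modulus K} (h : c ≤ c') (hc : Admissible K L c) :
    (Hc K L c').relIndex (IS (c'.support : Set (Pl K))) =
      (Hc K L c).relIndex (IS (c.support : Set (Pl K))) := by
  have hsupp : (c.support : Set (Pl K)) ⊆ c'.support := by exact_mod_cast Finsupp.support_mono h
  have e1 : IS (c.support : Set (Pl K)) = IS (c'.support : Set (Pl K)) ⊔ Hc K L c := by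
    apply le_antisymm
    · exact le_trans IS_le_sup_PRay (sup_le_sup_left le_sup_left _)
    · exact sup_le (IS_anti hsupp) (Hc_le_IS K L c)
  have e2 : Hc K L c ⊓ IS (c'.support : Set (Pl K)) = Hc K L c' := by
    apply le_antisymm
    · rw [inf_comm]; exact IS_inf_Hc_le h hc
    · exact le_inf (Hc_anti K L h) (Hc_le_IS K L c')
  rw [e1, AddSubgroup.relIndex_sup_right, ← e2, AddSubgroup.inf_relIndex_right]


open Classical in
/-- the norm index `h(L/K) = (I(c) : P_c N(c))`, `c` admissible -/
noncomputable def hidx : ℕ :=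
  if h : ∃ c : Modulus K, Admissible K L c then
    (Hc K L h.choose).relIndex (IS (h.choose.support : Set (Pl K))) else 0

/-- Blueprint 4.5 -/
theorem hidx_eq (c : Modulus K) (hc : Admissible K L c) :
    (Hc K L c).relIndex (IS (c.support : Set (Pl K))) = hidx K L := by
  have h : ∃ c : Modulus K, Admissible K L c := ⟨c, hc⟩
  rw [hidx, dif_pos h, ← relIndex_Hc_eq_of_le (le_sup_left : c ≤ c ⊔ h.choose) hc,
    ← relIndex_Hc_eq_of_le (le_sup_right : h.choose ≤ c ⊔ h.choose) h.choose_spec]

/-- Blueprint 4.6, the map `a ↦ dvS S a` is onto modulo `Hc` -/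
theorem sform_surj (c : Modulus K) (hcl : ClS (c.support : Set (Pl K))) (D : Div K)
    (hD : D ∈ IS (c.support : Set (Pl K))) : ∃ a : Kˣ, dvS (c.support : Set (Pl K)) (a : K) = D :=
  hcl.exists_dvS hD

/-- Blueprint 4.6, `K_S NlocS` is in the kernel -/
theorem sform_ker_ge (c : Modulus K) (_hc : Admissible K L c) (a : Kˣ)
    (ha : a ∈ (c.support : Set (Pl K)).unit K ⊔ NlocS K L (c.support : Set (Pl K))) :
    dvS (c.support : Set (Pl K)) (a : K) ∈ Hc K L c := by
  obtain ⟨u, hu, a1, ha1, rfl⟩ := Subgroup.mem_sup.1 ha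
  push_cast
  rw [dvS_mul _ u.ne_zero a1.ne_zero, (dvS_eq_zero_iff _ u).2 hu, zero_add]
  obtain ⟨b, hb⟩ := nlocS_exists_norm K L c.support a1 ha1 (c.support.sup c)
  have hR : a1 / normU K L b ∈ Ray c := by
    intro v hv
    have := (hb v hv).mono (Finset.le_sup (f := c) hv)
    simpa using this
  have h1 : dvS (c.support : Set (Pl K)) (a1 : K) =
      dv ((a1 / normU K L b : Kˣ) : K) + dvS (c.support : Set (Pl K)) (Algebra.norm K (b : L)) := by
    rw [← dvS_eq_dv_of_forall (c.support : Set (Pl K)) _ (fun v hv => PRay_le_IS c (dv_mem_PRay hR) v hv)]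
    push_cast
    rw [dvS_div _ a1.ne_zero (normU K L b).ne_zero, coe_normU]
    abel
  rw [h1]
  exact AddSubgroup.add_mem_sup (dv_mem_PRay hR) (dvS_norm_mem_NmS K L _ b)

/-- Blueprint 4.6, the kernel is exactly `K_S NlocS` if the `S`-class group of `L` is trivial -/
theorem sform_ker_le (c : Modulus K) (hc : Admissible K L c)
    (hclL : ClS (above K L (c.support : Set (Pl K)))) (a : Kˣ)
    (ha : dvS (c.support : Set (Pl K)) (a : K) ∈ Hc K L c) :
    a ∈ (c.support : Set (Pl K)).unit K ⊔ NlocS K L (c.support : Set (Pl K)) := by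
  obtain ⟨y, hy, z, hz, hyz⟩ := AddSubgroup.mem_sup.1 ha
  obtain ⟨a0, ha0, rfl⟩ := (mem_PRay_iff c y).1 hy
  obtain ⟨A, hA, rfl⟩ := hz
  obtain ⟨b, rfl⟩ := hclL.exists_dvS hA
  rw [← dvS_norm, ← dvS_eq_dv_of_forall (c.support : Set (Pl K)) _
    (fun v hv => PRay_le_IS c hy v hv)] at hyz
  have hu : a / (a0 * normU K L b) ∈ (c.support : Set (Pl K)).unit K := by
    rw [← dvS_eq_zero_iff]
    push_cast
    rw [dvS_div _ a.ne_zero (mul_ne_zero a0.ne_zero (normU K L b).ne_zero),
      dvS_mul _ a0.ne_zero (normU K L b).ne_zero, coe_normU, hyz, sub_self]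
  have hl : a0 * normU K L b ∈ NlocS K L (c.support : Set (Pl K)) := by
    simp only [NlocS, Subgroup.mem_iInf]
    intro v hv
    exact (Nloc K L v).mul_mem (hc.2 v hv a0 (ha0 v hv)) (norm_mem_nloc K L v b)
  have : a = a / (a0 * normU K L b) * (a0 * normU K L b) := by rw [div_mul_cancel]
  rw [this]
  exact Subgroup.mul_mem_sup hu hl

/-- the index in `S`-form -/
theorem relIndex_Hc_eq_index_comap (c : Modulus K) (hcl : ClS (c.support : Set (Pl K))) :
    (Hc K L c).relIndex (IS (c.support : Set (Pl K))) =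
      ((Hc K L c).comap (dvSHom (c.support : Set (Pl K)))).index := by
  have hr : (dvSHom (c.support : Set (Pl K))).range = IS (c.support : Set (Pl K)) := by
    apply le_antisymm
    · rintro _ ⟨a, rfl⟩
      exact dvS_mem_IS _ _
    · intro D hD
      obtain ⟨a, ha⟩ := hcl.exists_dvS hD
      exact ⟨Additive.ofMul a, ha⟩
  rw [AddSubgroup.index_comap, hr]

theorem nlocS_index_ne_zero (S : Finset (Pl K)) : (NlocS K L (S : Set (Pl K))).index ≠ 0 := by
  rw [nlocS_index]
  exact Finset.prod_ne_zero_iff.2 fun v _ => nloc_index_ne_zero K L v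

theorem unit_sup_nlocS_index_ne_zero (S : Finset (Pl K)) :
    ((S : Set (Pl K)).unit K ⊔ NlocS K L (S : Set (Pl K))).index ≠ 0 := by
  intro h
  have := Subgroup.index_dvd_of_le (le_sup_right :
    NlocS K L (S : Set (Pl K)) ≤ (S : Set (Pl K)).unit K ⊔ NlocS K L (S : Set (Pl K)))
  rw [h, zero_dvd_iff] at this
  exact nlocS_index_ne_zero K L S this

theorem hidx_dvd_index (S : Finset (Pl K)) (hS : ∀ v ∉ S, Unram K L v) (hcl : ClS (S : Set (Pl K))) :
    hidx K L ∣ ((S : Set (Pl K)).unit K ⊔ NlocS K L (S : Set (Pl K))).index := by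
  obtain ⟨c, rfl, hc⟩ := exists_admissible K L S hS
  rw [← hidx_eq K L c hc, relIndex_Hc_eq_index_comap K L c hcl, ← Subgroup.index_toAddSubgroup]
  apply AddSubgroup.index_dvd_of_le
  intro a ha
  exact sform_ker_ge K L c hc (Additive.toMul a) ha

theorem hidx_le_index (S : Finset (Pl K)) (hS : ∀ v ∉ S, Unram K L v) (hcl : ClS (S : Set (Pl K))) :
    hidx K L ≤ ((S : Set (Pl K)).unit K ⊔ NlocS K L (S : Set (Pl K))).index :=
  Nat.le_of_dvd (Nat.pos_of_ne_zero (unit_sup_nlocS_index_ne_zero K L S)) (hidx_dvd_index K L S hS hcl)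

theorem hidx_eq_index (S : Finset (Pl K)) (hS : ∀ v ∉ S, Unram K L v) (hcl : ClS (S : Set (Pl K)))
    (hclL : ClS (above K L (S : Set (Pl K)))) :
    hidx K L = ((S : Set (Pl K)).unit K ⊔ NlocS K L (S : Set (Pl K))).index := by
  obtain ⟨c, rfl, hc⟩ := exists_admissible K L S hS
  rw [← hidx_eq K L c hc, relIndex_Hc_eq_index_comap K L c hcl, ← Subgroup.index_toAddSubgroup]
  congr 1
  apply le_antisymm
  · intro a ha
    exact sform_ker_le K L c hc hclL (Additive.toMul a) ha
  · intro a ha
    exact sform_ker_ge K L c hc (Additive.toMul a) ha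

/-- a finite set containing the ramified primes with trivial `S`-class group -/
theorem exists_good_set0 (T : Finset (Pl K)) : ∃ S : Finset (Pl K), T ⊆ S ∧ (∀ v ∉ S, Unram K L v) ∧
    ClS (S : Set (Pl K)) := by
  classical
  obtain ⟨S0, hS0⟩ := exists_ClS (K := K)
  refine ⟨T ∪ (finite_ram K L).toFinset ∪ S0, ?_, ?_, ?_⟩
  · intro v hv
    simp [hv]
  · intro v hv
    by_contra h
    apply hv
    simp [h]
  · refine hS0.mono ?_
    intro v hv
    have : v ∈ S0 := hv
    simp [this]

theorem hidx_ne_zero : hidx K L ≠ 0 := by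
  obtain ⟨S, -, hS, hcl⟩ := exists_good_set0 K L ∅
  intro h
  have := hidx_dvd_index K L S hS hcl
  rw [h, zero_dvd_iff] at this
  exact unit_sup_nlocS_index_ne_zero K L S this


/-- Blueprint 4.7 -/
theorem hidx_tower (E : Type*) [Field E] [NumberField E] [Algebra K E] [Algebra E L] [IsScalarTower K E L]
    [IsGalois K E] [IsGalois E L] : hidx K L ≤ hidx K E * hidx E L := by
  classical
  -- the sets of primes
  set S : Finset (Pl K) := (finite_ram K L).toFinset with hSdef
  have hS : ∀ v ∉ S, Unram K L v := by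
    intro v hv
    by_contra h
    exact hv (by simp [hSdef, h])
  set SE : Finset (Pl E) := (above_finite K E S.finite_toSet).toFinset with hSEdef
  have hSE : ∀ u : Pl E, u ∈ SE ↔ below K E u ∈ S := by
    intro u
    simp [hSEdef, above]
  have hSEc : (SE : Set (Pl E)) = above K E (S : Set (Pl K)) := by
    ext u
    exact hSE u
  -- the moduli
  obtain ⟨c1, hc1s, hc1⟩ := exists_admissible K L S hS
  obtain ⟨c2, hc2s, hc2⟩ := exists_admissible K E S (fun v hv => unram_tower_bot K E L (hS v hv))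
  set c := c1 ⊔ c2 with hc
  have hcs : c.support = S := by rw [hc, Finsupp.support_sup, hc1s, hc2s, Finset.union_self]
  have hcL : Admissible K L c := hc1.mono le_sup_left
  have hcE : Admissible K E c := hc2.mono le_sup_right
  obtain ⟨d0, hd0s, hd0⟩ := exists_admissible E L SE (fun u hu =>
    unram_tower_top K E L (hS _ (fun h => hu ((hSE u).2 h))))
  let d1 : Modulus E := Finsupp.onFinset SE
    (fun u => if u ∈ SE then c (below K E u) * eidx K E u else 0) (by
      intro u hu
      by_contra h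
      simp [h] at hu)
  have hd1 : ∀ u ∈ SE, d1 u = c (below K E u) * eidx K E u := by
    intro u hu
    simp [d1, hu]
  have hd1s : d1.support ⊆ SE := Finsupp.support_onFinset_subset
  set d := d0 ⊔ d1 with hd
  have hds : d.support = SE := by
    rw [hd, Finsupp.support_sup, hd0s]
    exact Finset.union_eq_left.2 hd1s
  have hdL : Admissible E L d := hd0.mono le_sup_left
  rw [← hidx_eq K L c hcL, ← hidx_eq K E c hcE, ← hidx_eq E L d hdL, hcs, hds]
  -- inclusions
  have hNm : NmS K L (S : Set (Pl K)) ≤ (NmS E L (SE : Set (Pl E))).map (Nm K E) := by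
    rintro _ ⟨A, hA, rfl⟩
    refine ⟨Nm E L A, ⟨A, ?_, rfl⟩, Nm_Nm K E L A⟩
    rw [hSEc, above_above]
    exact hA
  have hNm' : (NmS E L (SE : Set (Pl E))).map (Nm K E) ≤ NmS K L (S : Set (Pl K)) := by
    rintro _ ⟨_, ⟨A, hA, rfl⟩, rfl⟩
    refine ⟨A, ?_, (Nm_Nm K E L A).symm⟩
    rw [hSEc, above_above] at hA
    exact hA
  have hJ : (IS (SE : Set (Pl E))).map (Nm K E) = NmS K E (S : Set (Pl K)) := by
    rw [hSEc]; rfl
  have h1 : Hc K L c ≤ Hc K E c := by
    refine sup_le_sup_left ?_ _
    rw [hcs]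
    refine le_trans hNm ?_
    rw [← hJ]
    exact AddSubgroup.map_mono (NmS_le_IS E L _)
  have h2 : Hc K E c ≤ IS (S : Set (Pl K)) := by
    have := Hc_le_IS K E c
    rwa [hcs] at this
  have h3 : Hc K E c = Hc K L c ⊔ (IS (SE : Set (Pl E))).map (Nm K E) := by
    apply le_antisymm
    · rw [hJ]
      refine sup_le (le_trans le_sup_left le_sup_left) ?_
      rw [hcs]
      exact le_sup_right
    · refine sup_le h1 ?_
      rw [hJ, ← hcs]
      exact le_sup_right
  have h4 : Hc E L d ≤ (Hc K L c).comap (Nm K E) := by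
    rw [← AddSubgroup.map_le_iff_le_comap, Hc, AddSubgroup.map_sup]
    refine sup_le_sup ?_ ?_
    · rintro _ ⟨D, hD, rfl⟩
      obtain ⟨b, hb, rfl⟩ := (mem_PRay_iff d D).1 hD
      rw [← dv_norm K E b.ne_zero]
      refine dv_mem_PRay (a := normU K E b) ?_
      intro v hv
      rw [hcs] at hv
      have hbL : OneL K E v (c v) (b : E) := by
        rintro u rfl
        have hu : u ∈ SE := (hSE u).2 hv
        refine (hb u (by rw [hds]; exact hu)).mono ?_
        rw [← hd1 u hu]
        exact (le_sup_right : d1 ≤ d0 ⊔ d1) u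
      exact hbL.norm
    · rw [hds, hcs]
      exact hNm'
  rw [← AddSubgroup.relIndex_mul_relIndex _ _ _ h1 h2, mul_comm]
  refine Nat.mul_le_mul_left _ ?_
  rw [h3, AddSubgroup.relIndex_sup_left, ← AddSubgroup.relIndex_comap]
  refine Nat.le_of_dvd (Nat.pos_of_ne_zero ?_) (AddSubgroup.relIndex_dvd_of_le_left _ h4)
  have := hidx_eq E L d hdL
  rw [hds] at this
  rw [this]
  exact hidx_ne_zero E L

end Claimed.Agent.R239.CFT
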