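import Claimed.Agent.R239.CFT.P4
import Claimed.Agent.R239.CFT.P3d
import Claimed.Agent.R239.CFT.P2c
import Claimed.Agent.R239.CFT.P8a

/-!
# R239 / CFT : package P5 (first inequality)

Output statements of the package (see `Blueprint.lean`).  The owner of the package owns this file and
replaces the `sorry`s in place; names and statements are frozen (ask helper97 for changes).
Owner: helper49.
-/

set_option autoImplicit false

namespace Claimed.Agent.R239.CFT

open IsDedekindDomain NumberField

variable (K : Type*) [Field K] [NumberField K] (L : Type*) [Field L] [NumberField L] [Algebra K L]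

/-- a finite set of primes of `K` that contains a given finite set, the ramified primes, and generates the
class groups of `K` and `L` -/
theorem exists_good_set [IsGalois K L] (T : Finset (Pl K)) :
    ∃ S : Finset (Pl K), T ⊆ S ∧ (∀ v ∉ S, Unram K L v) ∧ ClS (S : Set (Pl K)) ∧
      ClS (above K L (S : Set (Pl K))) := by
  classical
  obtain ⟨SL, hSL⟩ := exists_ClS (K := L)
  obtain ⟨S, hsub, hcl⟩ :=
    exists_ClS_superset (T ∪ (finite_ram K L).toFinset ∪ SL.image (below K L))
  refine ⟨S, fun v hv => hsub (by simp [hv]), fun v hv => ?_, hcl, hSL.mono ?_⟩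
  · by_contra h
    exact hv (hsub (by simp [h]))
  · intro w hw
    have hw' : w ∈ SL := hw
    have : below K L w ∈ S := hsub (by
      simp only [Finset.mem_union, Finset.mem_image]
      exact Or.inr ⟨w, hw', rfl⟩)
    exact this

/-- norms of `S`-units are `S`-units -/
theorem norm_unit_le (S : Set (Pl K)) :
    ((above K L S).unit L).map (normU K L) ≤ S.unit K := by
  rintro _ ⟨b, hb, rfl⟩
  rw [mem_unit_iff]
  intro v hv
  have hb' := (mem_unit_iff _ b).1 hb
  show ord v (Algebra.norm K (b : L)) = 0
  rw [ord_norm K L v b.ne_zero]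
  refine Finset.sum_eq_zero fun w hw => ?_
  rw [mem_toFinset_above] at hw
  rw [hb' w (by rw [mem_above_iff, hw]; exact hv), mul_zero]

theorem norm_le_nlocS (S : Set (Pl K)) (H : Subgroup Lˣ) : H.map (normU K L) ≤ NlocS K L S := by
  rintro _ ⟨b, -, rfl⟩
  simp only [NlocS, Subgroup.mem_iInf]
  exact fun v _ => norm_mem_nloc K L v b

/-- the chain of (in)equalities in the proof of the first inequality (re-used for HNT and LNI) -/
theorem first_ineq_chain [IsGalois K L] [IsCyclic Gal(L/K)] [IsTotallyComplex K] (S : Finset (Pl K))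
    (hram : ∀ v ∉ S, Unram K L v) (hcl : ClS (S : Set (Pl K)))
    (hclL : ClS (above K L (S : Set (Pl K)))) :
    (NlocS K L (S : Set (Pl K))).relIndex ((S : Set (Pl K)).unit K) * hidx K L
        = ∏ v ∈ S, (Nloc K L v).index ∧
    (((above K L (S : Set (Pl K))).unit L).map (normU K L)).relIndex ((S : Set (Pl K)).unit K)
        * Module.finrank K L = ∏ v ∈ S, nloc K L v ∧
    (NlocS K L (S : Set (Pl K))).relIndex ((S : Set (Pl K)).unit K) ∣
      (((above K L (S : Set (Pl K))).unit L).map (normU K L)).relIndex ((S : Set (Pl K)).unit K) := by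
  refine ⟨?_, unit_index K L S hram hcl, Subgroup.relIndex_dvd_of_le_left _ (norm_le_nlocS K L _ _)⟩
  rw [hidx_eq_index K L S hram hcl hclL, ← nlocS_index, ← Subgroup.relIndex_sup_right,
    Subgroup.relIndex_mul_index le_sup_right]

/-- Blueprint 5.1 -/
theorem first_ineq [IsGalois K L] [IsCyclic Gal(L/K)] [IsTotallyComplex K] :
    Module.finrank K L ≤ hidx K L := by
  obtain ⟨S, -, hram, hcl, hclL⟩ := exists_good_set K L ∅
  obtain ⟨h1, h2, h3⟩ := first_ineq_chain K L S hram hcl hclL
  set B := (NlocS K L (S : Set (Pl K))).relIndex ((S : Set (Pl K)).unit K)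
  set C := (((above K L (S : Set (Pl K))).unit L).map (normU K L)).relIndex ((S : Set (Pl K)).unit K)
  have hpos : 0 < ∏ v ∈ S, nloc K L v := Finset.prod_pos fun v _ => nloc_pos K L v
  have hC : 0 < C := by
    rcases Nat.eq_zero_or_pos C with h | h
    · rw [h, zero_mul] at h2
      omega
    · exact h
  have hBC : B ≤ C := Nat.le_of_dvd hC h3
  have hB : 0 < B := Nat.pos_of_dvd_of_pos h3 hC
  have hle : ∏ v ∈ S, nloc K L v ≤ ∏ v ∈ S, (Nloc K L v).index :=
    Finset.prod_le_prod' fun v _ => nloc_le_index K L v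
  have : B * Module.finrank K L ≤ B * hidx K L := by
    calc B * Module.finrank K L ≤ C * Module.finrank K L := Nat.mul_le_mul_right _ hBC
      _ = ∏ v ∈ S, nloc K L v := h2
      _ ≤ _ := hle
      _ = B * hidx K L := h1.symm
  exact Nat.le_of_mul_le_mul_left this hB

/-- if all primes outside a finite set split completely, the norm index is `1` -/
theorem hidx_eq_one_of_split [IsGalois K L] (S : Finset (Pl K)) (h : ∀ v ∉ S, Split K L v) :
    hidx K L = 1 := by
  classical
  obtain ⟨c, hcS, hc⟩ := exists_admissible K L S (fun v hv => (h v hv).unram)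
  rw [← hidx_eq K L c hc, AddSubgroup.relIndex_eq_one]
  intro D hD
  refine (le_sup_right : NmS K L (c.support : Set (Pl K)) ≤ Hc K L c) ?_
  rw [← Finsupp.sum_single D]
  refine AddSubgroup.sum_mem _ fun v hv => ?_
  have hvS : v ∉ S := by
    intro hvS
    have := hD v (by rw [hcS]; exact hvS)
    exact (Finsupp.mem_support_iff.1 hv) this
  obtain ⟨w, hw⟩ := exists_above K L v
  have hf : fdeg K L w = 1 := (((split_iff K L v).1 (h v hvS)) w hw).2
  refine ⟨Finsupp.single w (D v), ?_, ?_⟩
  · intro w' hw'
    rw [Finsupp.single_apply, if_neg]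
    rintro rfl
    rw [mem_above_iff, hw, hcS] at hw'
    exact hvS (Finset.mem_coe.1 hw')
  · rw [Nm_single, hw, hf]
    simp

/-- Blueprint 5.2 -/
theorem exists_not_split [IsGalois K L] [IsCyclic Gal(L/K)] [IsTotallyComplex K]
    (h : 1 < Module.finrank K L) (S : Finset (Pl K)) : ∃ v ∉ S, ¬ Split K L v := by
  by_contra hcon
  push Not at hcon
  have h1 := hidx_eq_one_of_split K L S hcon
  have h2 := first_ineq K L
  omega

/-- a proper subgroup of a finite commutative group lies in a proper subgroup with cyclic quotient -/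
theorem exists_cyclic_quot {G : Type*} [Group G] [Finite G] (hc : ∀ a b : G, a * b = b * a)
    (H : Subgroup G) (hH : H ≠ ⊤) :
    ∃ H' : Subgroup G, H ≤ H' ∧ H' ≠ ⊤ ∧ ∃ x : G, ∀ g : G, ∃ k : ℤ, g⁻¹ * x ^ k ∈ H' := by
  let _ : CommGroup G := { ‹Group G› with mul_comm := hc }
  obtain h | ⟨H', hco, hle⟩ := eq_top_or_exists_le_coatom H
  · exact absurd h hH
  refine ⟨H', hle, hco.1, ?_⟩
  obtain ⟨x, hx⟩ : ∃ x, x ∉ H' := by
    by_contra hcon
    push Not at hcon
    exact hco.1 (eq_top_iff.2 fun x _ => hcon x)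
  have htop : H' ⊔ Subgroup.zpowers x = ⊤ := by
    refine hco.2 _ (lt_of_le_of_ne le_sup_left ?_)
    intro h
    apply hx
    rw [h]
    exact (le_sup_right : Subgroup.zpowers x ≤ _) (Subgroup.mem_zpowers x)
  refine ⟨x, fun g => ?_⟩
  have hg : g ∈ H' ⊔ Subgroup.zpowers x := htop ▸ Subgroup.mem_top g
  obtain ⟨h, hh, z, hz, rfl⟩ := Subgroup.mem_sup.1 hg
  obtain ⟨k, rfl⟩ := Subgroup.mem_zpowers_iff.1 hz
  refine ⟨k, ?_⟩
  have : (h * x ^ k)⁻¹ * x ^ k = h⁻¹ := by
    rw [mul_inv_rev, hc (x ^ k)⁻¹ h⁻¹, inv_mul_cancel_right]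
  rw [this]
  exact H'.inv_mem hh

/-- Blueprint 5.3 -/
theorem art_surjective [IsAbelianGalois K L] [IsTotallyComplex K] (S : Finset (Pl K))
    (g : Additive Gal(L/K)) : ∃ D ∈ IS (S : Set (Pl K)), art K L D = g := by
  classical
  set S' : Finset (Pl K) := S ∪ (finite_ram K L).toFinset with hS'
  have hur : ∀ v ∉ S', Unram K L v := by
    intro v hv
    by_contra hcon
    apply hv
    rw [hS', Finset.mem_union]
    right
    rw [Set.Finite.mem_toFinset]
    exact hcon
  set H : Subgroup Gal(L/K) := Subgroup.closure {σ | ∃ v ∉ S', σ = frob K L v} with hH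
  have key : H = ⊤ := by
    by_contra hne
    obtain ⟨H', hle, hne', x, hx⟩ := exists_cyclic_quot (fun a b => mul_comm' a b) H hne
    let E : IntermediateField K L := IntermediateField.fixedField H'
    have hker : (AlgEquiv.restrictNormalHom (F := K) (K₁ := L) E).ker = H' := by
      rw [IntermediateField.restrictNormalHom_ker, IntermediateField.fixingSubgroup_fixedField]
    have hsurj : Function.Surjective (AlgEquiv.restrictNormalHom (F := K) (K₁ := L) E) :=
      AlgEquiv.restrictNormalHom_surjective L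
    have : IsCyclic Gal(E/K) := by
      refine ⟨⟨AlgEquiv.restrictNormalHom E x, fun τ => ?_⟩⟩
      obtain ⟨g, rfl⟩ := hsurj τ
      obtain ⟨k, hk⟩ := hx g
      refine ⟨k, ?_⟩
      rw [← hker, MonoidHom.mem_ker, map_mul, map_inv, map_zpow, inv_mul_eq_one] at hk
      exact hk.symm
    have hdeg : 1 < Module.finrank K E := by
      by_contra hcon
      have h1 : Module.finrank K E = 1 := by
        have := Module.finrank_pos (R := K) (M := E)
        omega
      apply hne'
      have hbot : E = ⊥ := IntermediateField.finrank_eq_one_iff.1 h1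
      have := IntermediateField.fixingSubgroup_fixedField H'
      rw [← this]
      change E.fixingSubgroup = ⊤
      rw [hbot, IntermediateField.fixingSubgroup_bot]
    obtain ⟨v, hv, hns⟩ := exists_not_split K E hdeg S'
    apply hns
    have hu : Unram K E v := unram_tower_bot K E L (hur v hv)
    rw [← frob_eq_one_iff K E hu, ← restrict_frob K E L (hur v hv), ← MonoidHom.mem_ker, hker]
    exact hle (Subgroup.subset_closure ⟨v, hv, rfl⟩)
  have hg : Additive.toMul g ∈ H := key ▸ Subgroup.mem_top _
  have hall : ∀ σ ∈ H, ∃ D ∈ IS (S : Set (Pl K)), art K L D = Additive.ofMul σ := by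
    intro σ hσ
    induction hσ using Subgroup.closure_induction with
    | mem σ h =>
      obtain ⟨v, hv, rfl⟩ := h
      refine ⟨Finsupp.single v 1, ?_, ?_⟩
      · intro w hw
        rw [Finsupp.single_apply, if_neg]
        rintro rfl
        apply hv
        rw [hS', Finset.mem_union]
        exact Or.inl (Finset.mem_coe.1 hw)
      · rw [art_single, one_smul]
    | one => exact ⟨0, zero_mem _, by simp⟩
    | mul σ τ _ _ h1 h2 =>
      obtain ⟨D1, hD1, h1⟩ := h1
      obtain ⟨D2, hD2, h2⟩ := h2
      exact ⟨D1 + D2, add_mem hD1 hD2, by rw [map_add, h1, h2]; rfl⟩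
    | inv σ _ h1 =>
      obtain ⟨D1, hD1, h1⟩ := h1
      exact ⟨-D1, neg_mem hD1, by rw [map_neg, h1]; rfl⟩
  exact hall _ hg

end Claimed.Agent.R239.CFT
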