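import Claimed.Agent.R239.CFT.P5
import Claimed.Agent.R239.CFT.P8a

/-!
# R239 / CFT : package P5b (primes with prescribed Frobenius of prime order; Frobenius generators)

Statements by helper97 (frozen), proofs by helper152.  `exists_good_set` is proved in `P5.lean` (helper49).
Extra: `pl_infinite` (a number field has infinitely many finite primes), `exists_notMem_unram`,
`restrictScalars_smul_ideal`.
-/

set_option autoImplicit false

namespace Claimed.Agent.R239.CFT

open IsDedekindDomain NumberField

/-- a number field has infinitely many finite primes -/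
theorem pl_infinite (K : Type*) [Field K] [NumberField K] : Infinite (Pl K) := by
  have h : ∀ p : Nat.Primes, ∃ v : Pl K,
      v.asIdeal.comap (algebraMap ℤ (𝓞 K)) = Ideal.span {((p : ℕ) : ℤ)} := by
    intro p
    have hp : (Ideal.span {((p : ℕ) : ℤ)}).IsPrime := by
      rw [Ideal.span_singleton_prime (by exact_mod_cast p.2.ne_zero)]
      exact Nat.prime_iff_prime_int.1 p.2
    obtain ⟨Q, hQ, hQp⟩ := Ideal.exists_ideal_over_prime_of_isIntegral_of_isDomain (S := 𝓞 K)
      (Ideal.span {((p : ℕ) : ℤ)}) (by
        rw [(RingHom.injective_iff_ker_eq_bot _).1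
          (FaithfulSMul.algebraMap_injective ℤ (𝓞 K))]
        exact bot_le)
    refine ⟨⟨Q, hQ, ?_⟩, hQp⟩
    rintro rfl
    have h0 : Ideal.comap (algebraMap ℤ (𝓞 K)) ⊥ = ⊥ :=
      Ideal.comap_bot_of_injective _ (FaithfulSMul.algebraMap_injective _ _)
    rw [h0] at hQp
    have : ((p : ℕ) : ℤ) ∈ (⊥ : Ideal ℤ) := by
      rw [hQp]; exact Ideal.mem_span_singleton_self _
    have h1 : ((p : ℕ) : ℤ) = 0 := this
    exact p.2.ne_zero (by exact_mod_cast h1)
  choose f hf using h
  refine Infinite.of_injective f ?_
  intro p q hpq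
  have h1 := hf p
  rw [hpq, hf q, Ideal.span_singleton_eq_span_singleton] at h1
  have h2 := Int.natAbs_eq_iff_associated.2 h1
  simp only [Int.natAbs_natCast] at h2
  exact Subtype.ext h2.symm

theorem exists_notMem_unram (K : Type*) [Field K] [NumberField K] (L : Type*) [Field L] [NumberField L]
    [Algebra K L] [IsGalois K L] (S : Finset (Pl K)) : ∃ v ∉ S, Unram K L v := by
  classical
  have := pl_infinite K
  obtain ⟨v, hv⟩ := Infinite.exists_notMem_finset (S ∪ (finite_ram K L).toFinset)
  refine ⟨v, fun h => hv (Finset.mem_union_left _ h), ?_⟩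
  by_contra h
  exact hv (Finset.mem_union_right _ (by simp [h]))


open Pointwise in
theorem restrictScalars_smul_ideal (K : Type*) [Field K] [NumberField K] (E : Type*) [Field E]
    [NumberField E] (L : Type*) [Field L] [NumberField L] [Algebra K E] [Algebra E L] [Algebra K L]
    [IsScalarTower K E L] (τ : Gal(L/E)) (I : Ideal (𝓞 L)) :
    (τ.restrictScalars K : Gal(L/K)) • I = τ • I := by
  rw [Ideal.pointwise_smul_def, Ideal.pointwise_smul_def]
  congr 1

variable (K : Type*) [Field K] [NumberField K] (L : Type*) [Field L] [NumberField L] [Algebra K L]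

open Pointwise in
/-- `L/K` abelian, `σ` of prime order: there is an unramified `v ∉ S` whose decomposition group contains `σ`. -/
theorem exists_frob_zpowers [IsAbelianGalois K L] [IsTotallyComplex K] (S : Finset (Pl K))
    (σ : Gal(L/K)) (hσ : (orderOf σ).Prime) :
    ∃ v ∉ S, Unram K L v ∧ σ ∈ Subgroup.zpowers (frob K L v) := by
  classical
  let E := IntermediateField.fixedField (Subgroup.zpowers σ)
  have hEL : Module.finrank E L = orderOf σ := by
    rw [IntermediateField.finrank_fixedField_eq_card, Nat.card_zpowers]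
  have : Fact (orderOf σ).Prime := ⟨hσ⟩
  have : IsCyclic Gal(L/E) := isCyclic_of_prime_card (p := orderOf σ) (by
    rw [IsGalois.card_aut_eq_finrank, hEL])
  have : IsTotallyComplex E := isTotallyComplex_of_algebra K E
  obtain ⟨u, hu, hns⟩ := exists_not_split E L (by rw [hEL]; exact hσ.one_lt)
    (above_finite K E (S ∪ (finite_ram K L).toFinset).finite_toSet).toFinset
  have hv : below K E u ∉ S ∪ (finite_ram K L).toFinset := by
    intro h
    apply hu
    simpa [above] using h
  have hvS : below K E u ∉ S := fun h => hv (Finset.mem_union_left _ h)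
  have hur : Unram K L (below K E u) := by
    by_contra h
    exact hv (Finset.mem_union_right _ (by simp [h]))
  refine ⟨below K E u, hvS, hur, ?_⟩
  -- a nontrivial element of a decomposition group
  unfold Split at hns
  push Not at hns
  obtain ⟨w, hw, hne⟩ := hns
  obtain ⟨⟨τ, hτ⟩, hτ1⟩ := Subgroup.ne_bot_iff_exists_ne_one.1 hne
  have hτ1' : τ ≠ 1 := fun h => hτ1 (Subtype.ext h)
  set τ' : Gal(L/K) := τ.restrictScalars K with hτ'
  have h1 : τ' ≠ 1 := by
    intro h
    apply hτ1'
    ext x
    exact DFunLike.congr_fun h x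
  have h2 : τ' ∈ Subgroup.zpowers σ := by
    rw [← IntermediateField.fixingSubgroup_fixedField (Subgroup.zpowers σ),
      IntermediateField.mem_fixingSubgroup_iff]
    intro x hx
    exact τ.commutes ⟨x, hx⟩
  have h3 : τ' ∈ MulAction.stabilizer Gal(L/K) w.asIdeal := by
    rw [MulAction.mem_stabilizer_iff, hτ', restrictScalars_smul_ideal]
    exact hτ
  have hwv : below K L w = below K E u := by rw [← below_below K E L, hw]
  have h4 := stabilizer_eq_zpowers K L (w := w) (by rw [hwv]; exact hur)
    (frob_spec K L (below K E u) w hwv)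
  rw [h4] at h3
  -- `σ` is a power of `τ'`
  have hcard : Nat.card (Subgroup.zpowers σ) = orderOf σ := Nat.card_zpowers σ
  have h5 := zpowers_eq_top_of_prime_card (G := Subgroup.zpowers σ) (p := orderOf σ) hcard
    (g := ⟨τ', h2⟩) (fun h => h1 (congrArg Subtype.val h))
  have h6 : (⟨σ, Subgroup.mem_zpowers σ⟩ : Subgroup.zpowers σ) ∈
      Subgroup.zpowers (⟨τ', h2⟩ : Subgroup.zpowers σ) := by rw [h5]; exact Subgroup.mem_top _
  obtain ⟨k, hk⟩ := h6
  have h7 : τ' ^ k = σ := by
    have := congrArg Subtype.val hk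
    simpa using this
  rw [← h7]
  exact Subgroup.zpow_mem _ h3 k


/-- `L/K` cyclic of prime power degree: there is an unramified `v ∉ S` whose Frobenius generates `Gal(L/K)`. -/
theorem exists_frob_generator [IsAbelianGalois K L] [IsCyclic Gal(L/K)] [IsTotallyComplex K] {ℓ k : ℕ}
    (hℓ : ℓ.Prime) (hdeg : Module.finrank K L = ℓ ^ k) (S : Finset (Pl K)) :
    ∃ v ∉ S, Unram K L v ∧ Subgroup.zpowers (frob K L v) = ⊤ := by
  classical
  have hcard : Nat.card Gal(L/K) = ℓ ^ k := by rw [IsGalois.card_aut_eq_finrank, hdeg]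
  rcases Nat.eq_zero_or_pos k with rfl | hk
  · obtain ⟨v, hv, hur⟩ := exists_notMem_unram K L S
    refine ⟨v, hv, hur, ?_⟩
    rw [pow_zero] at hcard
    have : Subsingleton Gal(L/K) := (Nat.card_eq_one_iff_unique.1 hcard).1
    exact Subsingleton.elim _ _
  · obtain ⟨g, hg⟩ := IsCyclic.exists_generator (α := Gal(L/K))
    have hog : orderOf g = ℓ ^ k := by rw [orderOf_eq_card_of_forall_mem_zpowers hg, hcard]
    obtain ⟨k', rfl⟩ : ∃ k', k = k' + 1 := ⟨k - 1, by omega⟩
    have hogl : orderOf (g ^ ℓ) = ℓ ^ k' := by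
      rw [orderOf_pow' g hℓ.ne_zero, hog, Nat.gcd_eq_right (dvd_pow_self ℓ (Nat.succ_ne_zero k')),
        pow_succ, Nat.mul_div_cancel _ hℓ.pos]
    let E := IntermediateField.fixedField (Subgroup.zpowers (g ^ ℓ))
    have hEL : Module.finrank E L = ℓ ^ k' := by
      rw [IntermediateField.finrank_fixedField_eq_card, Nat.card_zpowers, hogl]
    have hKE : Module.finrank K E = ℓ := by
      have := Module.finrank_mul_finrank K E L
      rw [hEL, hdeg, pow_succ, mul_comm] at this
      exact Nat.eq_of_mul_eq_mul_left (pow_pos hℓ.pos k') this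
    have : Fact ℓ.Prime := ⟨hℓ⟩
    have : IsCyclic Gal(E/K) := isCyclic_of_prime_card (p := ℓ) (by
      rw [IsGalois.card_aut_eq_finrank, hKE])
    obtain ⟨v, hv, hns⟩ := exists_not_split K E (by rw [hKE]; exact hℓ.one_lt)
      (S ∪ (finite_ram K L).toFinset)
    have hvS : v ∉ S := fun h => hv (Finset.mem_union_left _ h)
    have hur : Unram K L v := by
      by_contra h
      exact hv (Finset.mem_union_right _ (by simp [h]))
    refine ⟨v, hvS, hur, ?_⟩
    have hurE : Unram K E v := unram_tower_bot K E L hur
    have hne : frob K E v ≠ 1 := fun h => hns ((frob_eq_one_iff K E hurE).1 h)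
    rw [← restrict_frob K E L hur] at hne
    obtain ⟨j, hj⟩ := (mem_powers_iff_mem_zpowers (x := g) (y := frob K L v)).2 (hg _)
    have hj' : g ^ j = frob K L v := hj
    have hndvd : ¬ ℓ ∣ j := by
      rintro ⟨m, rfl⟩
      apply hne
      ext e
      have h1 := AlgEquiv.restrictNormal_commutes (frob K L v) E e
      have h2 : frob K L v ∈ Subgroup.zpowers (g ^ ℓ) := by
        rw [← hj', pow_mul]
        exact Subgroup.npow_mem_zpowers _ _
      have h3 : frob K L v (e : L) = e := (IntermediateField.mem_fixedField_iff _ _).1 e.2 _ h2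
      have h4 : algebraMap E L (AlgEquiv.restrictNormalHom E (frob K L v) e) = algebraMap E L e := by
        rw [show AlgEquiv.restrictNormalHom E (frob K L v) e =
          (frob K L v).restrictNormal E e from rfl, h1]
        exact h3
      simpa using h4
    have hcop : (orderOf g).Coprime j := by
      rw [hog]
      exact Nat.Coprime.pow_left _ ((Nat.Prime.coprime_iff_not_dvd hℓ).2 hndvd)
    have hox : orderOf (frob K L v) = Nat.card Gal(L/K) := by
      rw [← hj', hcop.orderOf_pow, hog, hcard]
    exact Subgroup.eq_top_of_card_eq _ (by rw [Nat.card_zpowers, hox])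

end Claimed.Agent.R239.CFT
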