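import Mathlib

/-!
# R239 / CFT : package P6a (Kummer theory, field theoretic part; owner helper16)

Blueprint 6.0-6.2.  Only Mathlib is needed.  `P6.lean` imports this file.
-/

set_option autoImplicit false

namespace Claimed.Agent.R239.CFT

open NumberField

universe u

/-- `L = K(Δ^{1/n})` -/
structure IsKummer (n : ℕ) {K : Type*} [Field K] (Δ : Subgroup Kˣ) (L : Type*) [Field L] [Algebra K L] :
    Prop where
  exists_root : ∀ a ∈ Δ, ∃ x : L, x ^ n = algebraMap K L ((a : Kˣ) : K)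
  adjoin_eq_top :
    IntermediateField.adjoin K {x : L | ∃ a ∈ Δ, x ^ n = algebraMap K L ((a : Kˣ) : K)} = ⊤

/-- the `n`-th powers in `Kˣ` -/
abbrev Pw (n : ℕ) (K : Type*) [Field K] : Subgroup Kˣ := (powMonoidHom n : Kˣ →* Kˣ).range

/-! ### general lemmas -/

/-- two automorphisms which agree on generators are equal -/
theorem kum_aut_ext {K L : Type*} [Field K] [Field L] [Algebra K L] {S : Set L}
    (hS : IntermediateField.adjoin K S = ⊤) (σ τ : Gal(L/K)) (h : ∀ x ∈ S, σ x = τ x) : σ = τ := by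
  ext x
  have hx : x ∈ IntermediateField.adjoin K S := hS ▸ IntermediateField.mem_top
  induction hx using IntermediateField.adjoin_induction with
  | mem x hx => exact h x hx
  | algebraMap x => simp
  | add x y _ _ hx hy => simp [hx, hy]
  | inv x _ hx => simp [hx]
  | mul x y _ _ hx hy => simp [hx, hy]

/-- Dedekind: a finite group has at most `|A|` characters with values in a field -/
theorem kum_card_hom_le (A : Type*) [Group A] [Finite A] (F : Type*) [Field F] :
    Finite (A →* Fˣ) ∧ Nat.card (A →* Fˣ) ≤ Nat.card A := by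
  classical
  cases nonempty_fintype A
  have hli := linearIndependent_monoidHom A F
  have hfin : Finite (A →* F) := hli.finite
  cases nonempty_fintype (A →* F)
  have h1 : Fintype.card (A →* F) ≤ Fintype.card A := by
    simpa only [Module.finrank_fintype_fun_eq_card] using hli.fintype_card_le_finrank
  let ι : (A →* Fˣ) → (A →* F) := fun χ => (Units.coeHom F).comp χ
  have hι : Function.Injective ι := by
    intro χ ψ h
    ext a
    exact DFunLike.congr_fun h a
  have hfin' : Finite (A →* Fˣ) := Finite.of_injective ι hι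
  refine ⟨hfin', ?_⟩
  calc Nat.card (A →* Fˣ) ≤ Nat.card (A →* F) := Nat.card_le_card_of_injective ι hι
    _ = Fintype.card (A →* F) := Nat.card_eq_fintype_card
    _ ≤ Fintype.card A := h1
    _ = Nat.card A := Nat.card_eq_fintype_card.symm

/-- counting in a pairing `G × D → Fˣ` which is non degenerate on the left and has right kernel `H` -/
theorem kum_pairing_count {G D F : Type*} [Group G] [Finite G] [CommGroup D] [Field F]
    (κ : G →* (D →* Fˣ)) (hinj : Function.Injective κ) (H : Subgroup D)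
    (hH : ∀ a, a ∈ H ↔ ∀ σ, κ σ a = 1) :
    H.index = Nat.card G ∧ ∀ χ : D →* Fˣ, (∀ a ∈ H, χ a = 1) → ∃ σ, κ σ = χ := by
  classical
  obtain ⟨hG1, hG2⟩ := kum_card_hom_le G F
  have hker : κ.flip.ker = H := by
    ext a
    rw [MonoidHom.mem_ker, hH a, MonoidHom.ext_iff]
    rfl
  have hidx : H.index = Nat.card κ.flip.range := by rw [← hker, Subgroup.index_ker]
  have hle1 : H.index ≤ Nat.card G := by
    rw [hidx]
    exact (Nat.card_le_card_of_injective _ Subtype.val_injective).trans hG2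
  have hne : H.index ≠ 0 := by
    rw [hidx]
    exact Nat.card_pos.ne'
  have : H.FiniteIndex := ⟨hne⟩
  have hQfin : Finite (D ⧸ H) := inferInstance
  obtain ⟨hQ1, hQ2⟩ := kum_card_hom_le (D ⧸ H) F
  let C := {χ : D →* Fˣ // ∀ a ∈ H, χ a = 1}
  let lft : C → ((D ⧸ H) →* Fˣ) := fun χ => QuotientGroup.lift H χ.1 χ.2
  have hlft : Function.Injective lft := by
    intro χ ψ h
    apply Subtype.ext
    ext a
    have := DFunLike.congr_fun h (QuotientGroup.mk a)
    exact congrArg Units.val this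
  have hCfin : Finite C := Finite.of_injective lft hlft
  have hC : Nat.card C ≤ H.index :=
    (Nat.card_le_card_of_injective lft hlft).trans hQ2
  let κ' : G → C := fun σ => ⟨κ σ, fun a ha => (hH a).1 ha σ⟩
  have hκ' : Function.Injective κ' := fun σ τ h => hinj (congrArg Subtype.val h)
  have hle2 : Nat.card G ≤ Nat.card C := Nat.card_le_card_of_injective κ' hκ'
  refine ⟨le_antisymm hle1 (hle2.trans hC), ?_⟩
  intro χ hχ
  have hbij : Function.Bijective κ' := hκ'.bijective_of_nat_card_le (hC.trans hle1)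
  obtain ⟨σ, hσ⟩ := hbij.2 ⟨χ, hχ⟩
  exact ⟨σ, congrArg Subtype.val hσ⟩

/-- two elements with the same `n`-th power differ by a root of unity of the base field -/
theorem kum_exists_zeta {n : ℕ} {K L : Type*} [Field K] [Field L] [Algebra K L] (hn : 0 < n) {ζ : K}
    (hζ : IsPrimitiveRoot ζ n) {x y : L} (hx : x ≠ 0) (h : y ^ n = x ^ n) :
    ∃ i < n, y = algebraMap K L (ζ ^ i) * x := by
  have : NeZero n := ⟨hn.ne'⟩
  have hζ' : IsPrimitiveRoot (algebraMap K L ζ) n := hζ.map_of_injective (algebraMap K L).injective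
  have h1 : (y / x) ^ n = 1 := by
    rw [div_pow, h, div_self (pow_ne_zero _ hx)]
  obtain ⟨i, hi, e⟩ := hζ'.eq_pow_of_pow_eq_one h1
  refine ⟨i, hi, ?_⟩
  rw [map_pow, e, div_mul_cancel₀ _ hx]

section field

/-- Blueprint 6.0 -/
theorem exists_isKummer (n : ℕ) (hn : 0 < n) (K : Type u) [Field K] [NumberField K] (Δ : Subgroup Kˣ)
    (hΔ : Δ.FG) :
    ∃ (L : Type u) (_ : Field L) (_ : NumberField L) (_ : Algebra K L), IsKummer n Δ L := by
  classical
  obtain ⟨T, hT⟩ := hΔ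
  let P : Polynomial K := ∏ a ∈ T, (Polynomial.X ^ n - Polynomial.C ((a : Kˣ) : K))
  have hP0 : P ≠ 0 := Finset.prod_ne_zero_iff.2 fun a _ => Polynomial.X_pow_sub_C_ne_zero hn _
  let L := P.SplittingField
  have hNF : NumberField L := NumberField.of_module_finite K L
  have hroot : ∀ a ∈ Δ, ∃ x : L, x ^ n = algebraMap K L ((a : Kˣ) : K) := by
    intro a ha
    rw [← hT] at ha
    induction ha using Subgroup.closure_induction with
    | mem a ha =>
      have hdvd : (Polynomial.X ^ n - Polynomial.C ((a : Kˣ) : K)) ∣ P := Finset.dvd_prod_of_mem _ ha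
      have hs : ((Polynomial.X ^ n - Polynomial.C ((a : Kˣ) : K)).map (algebraMap K L)).Splits :=
        (Polynomial.SplittingField.splits P).of_dvd (Polynomial.map_ne_zero hP0)
          (Polynomial.map_dvd _ hdvd)
      obtain ⟨x, hx⟩ := hs.exists_eval_eq_zero (by
        rw [Polynomial.degree_map, Polynomial.degree_X_pow_sub_C hn]
        exact_mod_cast hn.ne')
      refine ⟨x, ?_⟩
      simpa [sub_eq_zero] using hx
    | one => exact ⟨1, by simp⟩
    | mul a b _ _ ha hb =>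
      obtain ⟨x, hx⟩ := ha
      obtain ⟨y, hy⟩ := hb
      exact ⟨x * y, by rw [mul_pow, hx, hy]; simp⟩
    | inv a _ ha =>
      obtain ⟨x, hx⟩ := ha
      exact ⟨x⁻¹, by rw [inv_pow, hx]; simp⟩
  refine ⟨L, inferInstance, hNF, inferInstance, hroot, ?_⟩
  rw [eq_top_iff]
  intro x _
  have hx : x ∈ Algebra.adjoin K (P.rootSet L) := by
    rw [Polynomial.SplittingField.adjoin_rootSet]; trivial
  have h1 := IntermediateField.algebra_adjoin_le_adjoin K (P.rootSet L) hx
  refine IntermediateField.adjoin.mono K _ _ ?_ h1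
  intro y hy
  rw [Polynomial.mem_rootSet] at hy
  have h2 : ∏ a ∈ T, Polynomial.aeval y (Polynomial.X ^ n - Polynomial.C ((a : Kˣ) : K)) = 0 := by
    rw [← map_prod]
    exact hy.2
  obtain ⟨a, haT, ha⟩ := Finset.prod_eq_zero_iff.1 h2
  refine ⟨a, hT ▸ Subgroup.subset_closure haT, ?_⟩
  simpa [sub_eq_zero] using ha

variable {n : ℕ} {K : Type*} [Field K] {Δ : Subgroup Kˣ} {L : Type*} [Field L] [Algebra K L]

theorem kum_root_ne_zero {a : Kˣ} {x : L} (hn : 0 < n) (hx : x ^ n = algebraMap K L (a : K)) :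
    x ≠ 0 := by
  rintro rfl
  rw [zero_pow hn.ne'] at hx
  exact a.ne_zero ((map_eq_zero (algebraMap K L)).1 hx.symm)

theorem IsKummer.exists_pair (hn : 0 < n) (hμ : ∃ ζ : K, IsPrimitiveRoot ζ n) (h : IsKummer n Δ L)
    (σ : Gal(L/K)) (a : Δ) :
    ∃ κ : Kˣ, κ ^ n = 1 ∧
      ∀ x : L, x ^ n = algebraMap K L ((a : Kˣ) : K) → σ x = algebraMap K L (κ : K) * x := by
  obtain ⟨ζ, hζ⟩ := hμ
  obtain ⟨x0, hx0⟩ := h.exists_root a a.2
  have hx0' := kum_root_ne_zero hn hx0
  have h1 : (σ x0) ^ n = x0 ^ n := by rw [← map_pow, hx0, σ.commutes]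
  obtain ⟨i, -, hi⟩ := kum_exists_zeta hn hζ hx0' h1
  let ζu : Kˣ := Units.mk0 ζ (hζ.ne_zero hn.ne')
  refine ⟨ζu ^ i, ?_, ?_⟩
  · ext
    simp only [Units.val_pow_eq_pow_val, Units.val_mk0, Units.val_one, ζu]
    rw [← pow_mul, mul_comm i n, pow_mul, hζ.pow_eq_one, one_pow]
  · intro x hx
    obtain ⟨j, -, hj⟩ := kum_exists_zeta hn hζ hx0' (hx.trans hx0.symm)
    rw [hj, map_mul, σ.commutes, hi]
    simp only [Units.val_pow_eq_pow_val, Units.val_mk0, ζu]
    ring

/-- the Kummer pairing `⟨σ, a⟩ = σ(a^{1/n}) / a^{1/n}` -/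
noncomputable def IsKummer.pair (hn : 0 < n) (hμ : ∃ ζ : K, IsPrimitiveRoot ζ n) (h : IsKummer n Δ L)
    (σ : Gal(L/K)) (a : Δ) : Kˣ :=
  (h.exists_pair hn hμ σ a).choose

theorem IsKummer.pair_pow (hn : 0 < n) (hμ : ∃ ζ : K, IsPrimitiveRoot ζ n) (h : IsKummer n Δ L)
    (σ : Gal(L/K)) (a : Δ) : h.pair hn hμ σ a ^ n = 1 :=
  (h.exists_pair hn hμ σ a).choose_spec.1

theorem IsKummer.pair_spec (hn : 0 < n) (hμ : ∃ ζ : K, IsPrimitiveRoot ζ n) (h : IsKummer n Δ L)
    (σ : Gal(L/K)) (a : Δ) (x : L) (hx : x ^ n = algebraMap K L ((a : Kˣ) : K)) :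
    σ x = algebraMap K L (h.pair hn hμ σ a : K) * x :=
  (h.exists_pair hn hμ σ a).choose_spec.2 x hx

theorem IsKummer.pair_unique (hn : 0 < n) (hμ : ∃ ζ : K, IsPrimitiveRoot ζ n) (h : IsKummer n Δ L)
    (σ : Gal(L/K)) (a : Δ) (κ : Kˣ) (x : L) (hx : x ^ n = algebraMap K L ((a : Kˣ) : K))
    (hκ : σ x = algebraMap K L (κ : K) * x) : h.pair hn hμ σ a = κ := by
  have h1 := h.pair_spec hn hμ σ a x hx
  rw [hκ] at h1
  have h2 := mul_right_cancel₀ (kum_root_ne_zero hn hx) h1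
  exact Units.ext ((algebraMap K L).injective h2.symm)

/-- the Kummer pairing as a homomorphism -/
noncomputable def IsKummer.pairHom (hn : 0 < n) (hμ : ∃ ζ : K, IsPrimitiveRoot ζ n)
    (h : IsKummer n Δ L) : Gal(L/K) →* (Δ →* Kˣ) where
  toFun σ :=
    { toFun := fun a => h.pair hn hμ σ a
      map_one' := h.pair_unique hn hμ σ 1 1 1 (by simp) (by simp)
      map_mul' := fun a b => by
        obtain ⟨x, hx⟩ := h.exists_root a a.2
        obtain ⟨y, hy⟩ := h.exists_root b b.2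
        refine h.pair_unique hn hμ σ (a * b) _ (x * y) (by rw [mul_pow, hx, hy]; simp) ?_
        rw [map_mul, h.pair_spec hn hμ σ a x hx, h.pair_spec hn hμ σ b y hy]
        simp only [Units.val_mul, map_mul]
        ring }
  map_one' := by
    refine MonoidHom.ext fun a => ?_
    obtain ⟨x, hx⟩ := h.exists_root a a.2
    exact h.pair_unique hn hμ 1 a 1 x hx (by simp)
  map_mul' σ τ := by
    refine MonoidHom.ext fun a => ?_
    obtain ⟨x, hx⟩ := h.exists_root a a.2
    refine h.pair_unique hn hμ (σ * τ) a _ x hx ?_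
    rw [AlgEquiv.mul_apply, h.pair_spec hn hμ τ a x hx, map_mul, σ.commutes,
      h.pair_spec hn hμ σ a x hx]
    show _ = algebraMap K L ((h.pair hn hμ σ a * h.pair hn hμ τ a : Kˣ) : K) * x
    rw [Units.val_mul, map_mul]
    ring

theorem IsKummer.pairHom_apply (hn : 0 < n) (hμ : ∃ ζ : K, IsPrimitiveRoot ζ n) (h : IsKummer n Δ L)
    (σ : Gal(L/K)) (a : Δ) : h.pairHom hn hμ σ a = h.pair hn hμ σ a := rfl

theorem IsKummer.pairHom_injective (hn : 0 < n) (hμ : ∃ ζ : K, IsPrimitiveRoot ζ n)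
    (h : IsKummer n Δ L) : Function.Injective (h.pairHom hn hμ) := by
  intro σ τ hστ
  refine kum_aut_ext h.adjoin_eq_top σ τ ?_
  rintro x ⟨a, ha, hx⟩
  have h1 := DFunLike.congr_fun hστ ⟨a, ha⟩
  rw [pairHom_apply, pairHom_apply] at h1
  rw [h.pair_spec hn hμ σ ⟨a, ha⟩ x hx, h.pair_spec hn hμ τ ⟨a, ha⟩ x hx, h1]

theorem IsKummer.isGalois (hn : 0 < n) [CharZero K] (hμ : ∃ ζ : K, IsPrimitiveRoot ζ n)
    (h : IsKummer n Δ L) : IsGalois K L := by
  obtain ⟨ζ, hζ⟩ := hμ
  have hS : ∀ x ∈ {x : L | ∃ a ∈ Δ, x ^ n = algebraMap K L ((a : Kˣ) : K)},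
      IsIntegral K x ∧ ((minpoly K x).map (algebraMap K L)).Splits := by
    rintro x ⟨a, -, hx⟩
    have hroot : Polynomial.aeval x (Polynomial.X ^ n - Polynomial.C ((a : Kˣ) : K)) = 0 := by
      simp [hx]
    have hint : IsIntegral K x := ⟨_, Polynomial.monic_X_pow_sub_C _ hn.ne', hroot⟩
    refine ⟨hint, ?_⟩
    have hdvd := minpoly.dvd K x hroot
    have hs : ((Polynomial.X ^ n - Polynomial.C ((a : Kˣ) : K)).map (algebraMap K L)).Splits := by
      have := X_pow_sub_C_splits_of_isPrimitiveRoot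
        (hζ.map_of_injective (algebraMap K L).injective) hx
      simpa using this
    exact hs.of_dvd (Polynomial.map_ne_zero (Polynomial.X_pow_sub_C_ne_zero hn _))
      (Polynomial.map_dvd _ hdvd)
  have hnormal : Normal K L := by
    rw [normal_iff]
    intro x
    have hx : x ∈ IntermediateField.adjoin K
        {x : L | ∃ a ∈ Δ, x ^ n = algebraMap K L ((a : Kˣ) : K)} := by
      rw [h.adjoin_eq_top]; trivial
    refine ⟨?_, IntermediateField.splits_of_mem_adjoin K L hS hx⟩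
    have halg := IntermediateField.isAlgebraic_adjoin (fun x hx => (hS x hx).1)
    have h1 : IsIntegral K (⟨x, hx⟩ : IntermediateField.adjoin K
        {x : L | ∃ a ∈ Δ, x ^ n = algebraMap K L ((a : Kˣ) : K)}) :=
      Algebra.IsIntegral.isIntegral _
    exact (IntermediateField.isIntegral_iff).1 h1
  have : Algebra.IsAlgebraic K L := hnormal.toIsAlgebraic
  exact ⟨⟩

/-- Blueprint 6.1 -/
theorem IsKummer.isAbelianGalois (hn : 0 < n) [CharZero K] (hμ : ∃ ζ : K, IsPrimitiveRoot ζ n)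
    (h : IsKummer n Δ L) : IsAbelianGalois K L := by
  have := h.isGalois hn hμ
  refine { is_comm := ⟨fun σ τ => ?_⟩ }
  apply h.pairHom_injective hn hμ
  rw [map_mul, map_mul]
  refine MonoidHom.ext fun a => ?_
  rw [MonoidHom.mul_apply, MonoidHom.mul_apply, mul_comm]

theorem IsKummer.eq_one_of_fix (h : IsKummer n Δ L) (σ : Gal(L/K))
    (hσ : ∀ x : L, (∃ a ∈ Δ, x ^ n = algebraMap K L ((a : Kˣ) : K)) → σ x = x) : σ = 1 :=
  kum_aut_ext h.adjoin_eq_top σ 1 (fun x hx => by simpa using hσ x hx)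

theorem IsKummer.pow_eq_one (hn : 0 < n) (hμ : ∃ ζ : K, IsPrimitiveRoot ζ n) (h : IsKummer n Δ L)
    (σ : Gal(L/K)) : σ ^ n = 1 := by
  apply h.pairHom_injective hn hμ
  rw [map_pow, map_one]
  refine MonoidHom.ext fun a => ?_
  rw [MonoidHom.pow_apply, pairHom_apply, h.pair_pow hn hμ σ a]
  rfl

theorem IsKummer.mem_pw_iff (hn : 0 < n) [CharZero K] (hμ : ∃ ζ : K, IsPrimitiveRoot ζ n)
    (h : IsKummer n Δ L) [FiniteDimensional K L] (a : Δ) :
    a ∈ (Pw n K).subgroupOf Δ ↔ ∀ σ, h.pairHom hn hμ σ a = 1 := by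
  have := h.isGalois hn hμ
  rw [Subgroup.mem_subgroupOf]
  constructor
  · rintro ⟨b, hb⟩ σ
    refine h.pair_unique hn hμ σ a 1 (algebraMap K L (b : K)) ?_ (by simp)
    rw [← hb, ← map_pow]
    simp
  · intro hσ
    obtain ⟨x, hx⟩ := h.exists_root a a.2
    have hfix : ∀ σ : Gal(L/K), σ x = x := by
      intro σ
      have h1 := hσ σ
      rw [pairHom_apply] at h1
      rw [h.pair_spec hn hμ σ a x hx, h1]
      simp
    obtain ⟨b, rfl⟩ := (IsGalois.mem_range_algebraMap_iff_fixed x).2 hfix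
    rw [← map_pow] at hx
    have hb := (algebraMap K L).injective hx
    have hb0 : b ≠ 0 := by
      rintro rfl
      rw [zero_pow hn.ne'] at hb
      exact (a : Kˣ).ne_zero hb.symm
    exact ⟨Units.mk0 b hb0, Units.ext (by simpa using hb)⟩

/-- Blueprint 6.1: the degree -/
theorem IsKummer.finrank_eq (hn : 0 < n) [CharZero K] (hμ : ∃ ζ : K, IsPrimitiveRoot ζ n)
    (h : IsKummer n Δ L) [FiniteDimensional K L] :
    Module.finrank K L = (Pw n K).relIndex Δ := by
  have := h.isGalois hn hμ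
  have h1 := (kum_pairing_count (h.pairHom hn hμ) (h.pairHom_injective hn hμ)
    ((Pw n K).subgroupOf Δ) (h.mem_pw_iff hn hμ)).1
  rw [IsGalois.card_aut_eq_finrank] at h1
  exact h1.symm

/-- Blueprint 6.1: every character of `Δ / Δ ∩ Kˣⁿ` is realised by an automorphism -/
theorem IsKummer.exists_aut (hn : 0 < n) [CharZero K] (hμ : ∃ ζ : K, IsPrimitiveRoot ζ n)
    (h : IsKummer n Δ L) [FiniteDimensional K L] (χ : Δ →* Kˣ) (_hχ : ∀ a, χ a ^ n = 1)
    (hχ' : ∀ a : Δ, (a : Kˣ) ∈ Pw n K → χ a = 1) :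
    ∃ σ : Gal(L/K), ∀ (a : Δ) (x : L), x ^ n = algebraMap K L ((a : Kˣ) : K) →
      σ x = algebraMap K L ((χ a : Kˣ) : K) * x := by
  have := h.isGalois hn hμ
  obtain ⟨σ, hσ⟩ := (kum_pairing_count (h.pairHom hn hμ) (h.pairHom_injective hn hμ)
    ((Pw n K).subgroupOf Δ) (h.mem_pw_iff hn hμ)).2 χ
    (fun a ha => hχ' a (Subgroup.mem_subgroupOf.1 ha))
  refine ⟨σ, fun a x hx => ?_⟩
  rw [h.pair_spec hn hμ σ a x hx, ← pairHom_apply, hσ]

/-- Blueprint 6.2: Kummer extensions in towers -/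
theorem IsKummer.tower (h : IsKummer n Δ L) (E : Type*) [Field E] [Algebra K E] [Algebra E L]
    [IsScalarTower K E L] : IsKummer n (Δ.map (Units.map (algebraMap K E : K →* E))) L := by
  constructor
  · rintro _ ⟨a, ha, rfl⟩
    obtain ⟨x, hx⟩ := h.exists_root a ha
    refine ⟨x, ?_⟩
    rw [hx, IsScalarTower.algebraMap_apply K E L]
    rfl
  · have h1 := IntermediateField.adjoin_eq_top_of_adjoin_eq_top K (E := E) h.adjoin_eq_top
    rw [eq_top_iff, ← h1]
    refine IntermediateField.adjoin.mono E _ _ ?_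
    rintro x ⟨a, ha, hx⟩
    refine ⟨_, ⟨a, ha, rfl⟩, ?_⟩
    rw [hx, IsScalarTower.algebraMap_apply K E L]
    rfl

/-- a Galois extension of prime degree `ℓ` of a field containing `μ_ℓ` is a Kummer extension -/
theorem exists_isKummer_of_prime {ℓ : ℕ} (hℓ : ℓ.Prime) [CharZero K] (hμ : ∃ ζ : K, IsPrimitiveRoot ζ ℓ)
    [IsGalois K L] (hdeg : Module.finrank K L = ℓ) :
    ∃ a : Kˣ, IsKummer ℓ (Subgroup.zpowers a) L := by
  have hfd : FiniteDimensional K L := Module.finite_of_finrank_pos (hdeg ▸ hℓ.pos)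
  have hcard : Nat.card Gal(L/K) = ℓ := by rw [IsGalois.card_aut_eq_finrank, hdeg]
  have : Fact ℓ.Prime := ⟨hℓ⟩
  have hcyc : IsCyclic Gal(L/K) := isCyclic_of_prime_card hcard
  obtain ⟨ζ, hζ⟩ := hμ
  have hK : (primitiveRoots (Module.finrank K L) K).Nonempty :=
    ⟨ζ, by rw [hdeg, mem_primitiveRoots hℓ.pos]; exact hζ⟩
  obtain ⟨α, ⟨a, ha⟩, hα⟩ := exists_root_adjoin_eq_top_of_isCyclic K L hK
  rw [hdeg] at ha
  have hα0 : α ≠ 0 := by
    rintro rfl
    have h1 : IntermediateField.adjoin K {(0 : L)} = ⊥ := by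
      rw [IntermediateField.adjoin_simple_eq_bot_iff]
      exact zero_mem _
    rw [h1] at hα
    have h2 := IntermediateField.finrank_bot (F := K) (E := L)
    rw [hα, IntermediateField.finrank_top', hdeg] at h2
    exact hℓ.one_lt.ne' h2
  have ha0 : a ≠ 0 := by
    rintro rfl
    rw [map_zero] at ha
    exact pow_ne_zero _ hα0 ha.symm
  refine ⟨Units.mk0 a ha0, ?_, ?_⟩
  · rintro _ ⟨k, rfl⟩
    refine ⟨α ^ k, ?_⟩
    simp only [Units.val_zpow_eq_zpow_val, Units.val_mk0, map_zpow₀]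
    rw [ha, ← zpow_natCast, ← zpow_natCast, ← zpow_mul, ← zpow_mul, mul_comm]
  · rw [eq_top_iff, ← hα]
    refine IntermediateField.adjoin.mono K _ _ ?_
    rintro _ rfl
    exact ⟨_, Subgroup.mem_zpowers _, by simpa using ha.symm⟩

/-- `K(a^{1/ℓ})` has degree `ℓ` or `1` -/
theorem IsKummer.finrank_zpowers {ℓ : ℕ} (hℓ : ℓ.Prime) [CharZero K] (hμ : ∃ ζ : K, IsPrimitiveRoot ζ ℓ)
    {a : Kˣ} (h : IsKummer ℓ (Subgroup.zpowers a) L) [FiniteDimensional K L] :
    (a ∈ Pw ℓ K ∧ Module.finrank K L = 1) ∨ (a ∉ Pw ℓ K ∧ Module.finrank K L = ℓ) := by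
  have h1 := h.finrank_eq hℓ.pos hμ
  have h2 : (Pw ℓ K).relIndex (Subgroup.zpowers a) = orderOf (QuotientGroup.mk' (Pw ℓ K) a) := by
    conv_lhs => rw [← QuotientGroup.ker_mk' (Pw ℓ K)]
    rw [Subgroup.relIndex_ker, MonoidHom.map_zpowers, Nat.card_zpowers]
  rw [h1, h2]
  by_cases ha : a ∈ Pw ℓ K
  · left
    refine ⟨ha, ?_⟩
    rw [orderOf_eq_one_iff]
    exact (QuotientGroup.eq_one_iff a).2 ha
  · right
    refine ⟨ha, ?_⟩
    have : Fact ℓ.Prime := ⟨hℓ⟩
    refine orderOf_eq_prime ?_ ?_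
    · rw [← map_pow]
      exact (QuotientGroup.eq_one_iff _).2 ⟨a, rfl⟩
    · intro h3
      exact ha ((QuotientGroup.eq_one_iff a).1 h3)

end field

end Claimed.Agent.R239.CFT
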