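import Claimed.Agent.R239.CFT.P3a
import Claimed.Agent.R239.CFT.P6a

/-!
# R239 / CFT : package P6 (Kummer theory; owner helper16)

Output statements of the package (see `Blueprint.lean`, 6.0-6.5).  No sorry in this file.
The purely field theoretic part (6.0-6.2: `IsKummer`, `Pw`, `exists_isKummer`, `IsKummer.isAbelianGalois`, `.pow_eq_one`,
`.eq_one_of_fix`, `.finrank_eq`, `.exists_aut`, `.tower`, `exists_isKummer_of_prime`, `.finrank_zpowers`) is in `P6a.lean`.
Here: `IsKummer.unram` (6.3), `IsKummer.frob_fix_iff` (6.4), `IsKummer.split` (6.5), `unit_powLoc_index`.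
Black boxes used: `powLoc_of_residue`, `pow_mem_powLoc` (P3a), `powLoc_index` (P3b).

Reusable: `kum_one_one_iff` (One v 1 a <-> |a-1| < 1), `kum_val_natCast_le` (|n| <= |z-1| for a root of unity z != 1),
`kum_exists_int`, `kum_val_pow_sub_pow_lt`, `kum_fermat` (b^(Nv-1) = 1 mod v for v-units of K), `kum_dvd_card_sub_one`
(n | Nv - 1), `kum_mem_powLoc_iff` (Euler criterion), `kum_val_sub_pow_lt` (a congruence s y = y^k mod w on integers extends
to all w-integral elements of L).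
-/

set_option autoImplicit false

namespace Claimed.Agent.R239.CFT

open IsDedekindDomain NumberField

section aux

variable {K : Type*} [Field K] [NumberField K]

theorem kum_one_one_iff (v : Pl K) (a : K) : One v 1 a ↔ v.valuation K (a - 1) < 1 := by
  rw [one_iff]
  by_cases h : a = 1
  · subst h; simp
  · have h' : a - 1 ≠ 0 := sub_ne_zero.2 h
    simp only [h, false_or]
    rw [← ord_pos_iff v h']
    norm_cast

theorem kum_val_eq_one_of_pow (v : Pl K) {z : K} {n : ℕ} (hn : 0 < n) (hz : v.valuation K (z ^ n) = 1) :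
    v.valuation K z = 1 := by
  rw [map_pow] at hz
  exact (pow_eq_one_iff.1 hz).resolve_right hn.ne'

/-- `n = (1 - z) c` with `c` integral: `|n| ≤ |z - 1|` for a nontrivial `n`-th root of unity `z` -/
theorem kum_val_natCast_le (v : Pl K) {z : K} {n : ℕ} (hn : 0 < n) (hz : z ^ n = 1) (hz1 : z ≠ 1) :
    v.valuation K (n : K) ≤ v.valuation K (z - 1) := by
  have hvz : v.valuation K z = 1 := kum_val_eq_one_of_pow v hn (by rw [hz, map_one])
  have hsum : ∑ i ∈ Finset.range n, z ^ i = 0 := by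
    have h1 := mul_neg_geom_sum z n
    rw [hz, sub_self] at h1
    rcases mul_eq_zero.1 h1 with h | h
    · exact absurd (sub_eq_zero.1 h).symm hz1
    · exact h
  set c : K := ∑ i ∈ Finset.range n, ∑ j ∈ Finset.range i, z ^ j with hc
  have hnc : (n : K) = (1 - z) * c := by
    rw [hc, Finset.mul_sum]
    simp only [mul_neg_geom_sum]
    rw [Finset.sum_sub_distrib, hsum]
    simp
  have hvc : v.valuation K c ≤ 1 := by
    refine Valuation.map_sum_le _ fun i _ => Valuation.map_sum_le _ fun j _ => ?_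
    rw [map_pow, hvz, one_pow]
  rw [hnc, map_mul, Valuation.map_sub_swap]
  exact mul_le_of_le_one_right' hvc

theorem kum_val_pow_sub_pow_lt (v : Pl K) {x y : K} (hx : v.valuation K x ≤ 1) (hy : v.valuation K y ≤ 1)
    (h : v.valuation K (y - x) < 1) (k : ℕ) : v.valuation K (y ^ k - x ^ k) < 1 := by
  induction k with
  | zero => simp
  | succ k ih =>
    have e : y ^ (k + 1) - x ^ (k + 1) = y ^ k * (y - x) + (y ^ k - x ^ k) * x := by ring
    rw [e]
    refine lt_of_le_of_lt ((v.valuation K).map_add _ _) (max_lt ?_ ?_)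
    · rw [map_mul, map_pow]
      exact lt_of_le_of_lt (mul_le_of_le_one_left' (pow_le_one' hy k)) h
    · rw [map_mul]
      exact lt_of_le_of_lt (mul_le_of_le_one_right' hx) ih

theorem kum_exists_int (v : Pl K) {x : K} (hx : v.valuation K x ≤ 1) :
    ∃ y : 𝓞 K, v.valuation K ((y : K) - x) < 1 := by
  obtain ⟨y, hy⟩ := v.exists_valuation_sub_lt_of_integer hx 1
  exact ⟨y, by simpa using hy⟩

theorem kum_fermat_int (v : Pl K) (y : 𝓞 K) (hy : y ∉ v.asIdeal) :
    y ^ (Nat.card (𝓞 K ⧸ v.asIdeal) - 1) - 1 ∈ v.asIdeal := by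
  let _ : Field (𝓞 K ⧸ v.asIdeal) := Ideal.Quotient.field v.asIdeal
  cases nonempty_fintype (𝓞 K ⧸ v.asIdeal)
  have h0 : Ideal.Quotient.mk v.asIdeal y ≠ 0 := by rwa [Ne, Ideal.Quotient.eq_zero_iff_mem]
  have h1 := FiniteField.pow_card_sub_one_eq_one _ h0
  rw [← Nat.card_eq_fintype_card] at h1
  rw [← Ideal.Quotient.eq_zero_iff_mem, map_sub, map_pow, h1, map_one, sub_self]

theorem kum_notMem_of_close (v : Pl K) {b : K} (hb : v.valuation K b = 1) {y : 𝓞 K}
    (hy : v.valuation K ((y : K) - b) < 1) : y ∉ v.asIdeal := by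
  intro hmem
  have h1 := (v.valuation_lt_one_iff_mem (K := K) y).2 hmem
  have h2 : v.valuation K b < 1 := by
    have e : b = (y : K) - ((y : K) - b) := by ring
    rw [e]
    exact lt_of_le_of_lt (Valuation.map_sub _ _ _) (max_lt h1 hy)
  exact absurd hb h2.ne

/-- Fermat for `v`-units -/
theorem kum_fermat (v : Pl K) {b : K} (hb : v.valuation K b = 1) :
    v.valuation K (b ^ (Nat.card (𝓞 K ⧸ v.asIdeal) - 1) - 1) < 1 := by
  obtain ⟨y, hy⟩ := kum_exists_int v hb.le
  have h2 := kum_fermat_int v y (kum_notMem_of_close v hb hy)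
  have h3 : v.valuation K ((y : K) ^ (Nat.card (𝓞 K ⧸ v.asIdeal) - 1) - 1) < 1 := by
    have := (v.valuation_lt_one_iff_mem (K := K) _).2 h2
    simpa using this
  have h4 := kum_val_pow_sub_pow_lt v hb.le (v.valuation_le_one y) hy
    (Nat.card (𝓞 K ⧸ v.asIdeal) - 1)
  have e : b ^ (Nat.card (𝓞 K ⧸ v.asIdeal) - 1) - 1
      = ((y : K) ^ (Nat.card (𝓞 K ⧸ v.asIdeal) - 1) - 1)
        - ((y : K) ^ (Nat.card (𝓞 K ⧸ v.asIdeal) - 1) - b ^ (Nat.card (𝓞 K ⧸ v.asIdeal) - 1)) := by
    ring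
  rw [e]
  exact lt_of_le_of_lt (Valuation.map_sub _ _ _) (max_lt h3 h4)

theorem kum_eq_one_of_val_lt (v : Pl K) {n : ℕ} (hn : 0 < n) (hvn : ord v (n : K) = 0) {z : K}
    (hz : z ^ n = 1) (h : v.valuation K (z - 1) < 1) : z = 1 := by
  by_contra hz1
  have h0 : (n : K) ≠ 0 := by exact_mod_cast hn.ne'
  have h1 := kum_val_natCast_le v hn hz hz1
  rw [(ord_eq_zero_iff v h0).1 hvn] at h1
  exact absurd h (not_lt.2 h1)

theorem kum_dvd_card_sub_one (v : Pl K) {n : ℕ} (hn : 0 < n) (hμ : ∃ ζ : K, IsPrimitiveRoot ζ n)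
    (hvn : ord v (n : K) = 0) : n ∣ Nat.card (𝓞 K ⧸ v.asIdeal) - 1 := by
  obtain ⟨ζ, hζ⟩ := hμ
  have hvζ : v.valuation K ζ = 1 := kum_val_eq_one_of_pow v hn (by rw [hζ.pow_eq_one, map_one])
  apply hζ.dvd_of_pow_eq_one
  refine kum_eq_one_of_val_lt v hn hvn ?_ (kum_fermat v hvζ)
  rw [← pow_mul, mul_comm, pow_mul, hζ.pow_eq_one, one_pow]

theorem kum_exists_pow_eq {F : Type*} [Field F] [Finite F] {n m : ℕ} (hm : 0 < m)
    (hcard : Nat.card F - 1 = n * m) {u : F} (hu : u ≠ 0) (hum : u ^ m = 1) :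
    ∃ t : F, t ≠ 0 ∧ t ^ n = u := by
  obtain ⟨g, hg⟩ := IsCyclic.exists_generator (α := Fˣ)
  obtain ⟨j, hj⟩ := hg (Units.mk0 u hu)
  have hord : orderOf g = n * m := by
    rw [orderOf_eq_card_of_forall_mem_zpowers hg, Nat.card_units, hcard]
  have h1 : g ^ (j * m) = 1 := by
    have hj' : g ^ j = Units.mk0 u hu := hj
    rw [zpow_mul, hj', zpow_natCast]
    ext
    simpa using hum
  have h2 : ((n * m : ℕ) : ℤ) ∣ j * m := by
    rw [← hord]
    exact orderOf_dvd_iff_zpow_eq_one.2 h1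
  have h3 : (n : ℤ) ∣ j := by
    push_cast at h2
    exact Int.dvd_of_mul_dvd_mul_right (by exact_mod_cast hm.ne') h2
  obtain ⟨j', rfl⟩ := h3
  refine ⟨((g ^ j' : Fˣ) : F), Units.ne_zero _, ?_⟩
  have hj' : g ^ ((n : ℤ) * j') = Units.mk0 u hu := hj
  have h4 : (g ^ j') ^ n = Units.mk0 u hu := by
    rw [← hj', mul_comm, zpow_mul, zpow_natCast]
  have := congrArg Units.val h4
  simpa using this

theorem kum_mem_powLoc_iff (v : Pl K) {n : ℕ} (hn : 0 < n) (hμ : ∃ ζ : K, IsPrimitiveRoot ζ n)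
    (hvn : ord v (n : K) = 0) (a : Kˣ) (ha : ord v (a : K) = 0) :
    a ∈ PowLoc n v ↔
      v.valuation K ((a : K) ^ ((Nat.card (𝓞 K ⧸ v.asIdeal) - 1) / n) - 1) < 1 := by
  obtain ⟨m, hm⟩ := kum_dvd_card_sub_one v hn hμ hvn
  have hq2 : 2 ≤ Nat.card (𝓞 K ⧸ v.asIdeal) := by
    have : Nontrivial (𝓞 K ⧸ v.asIdeal) := Ideal.Quotient.nontrivial_iff.2 v.isPrime.ne_top
    exact Finite.one_lt_card
  have hm0 : 0 < m := by
    rcases Nat.eq_zero_or_pos m with rfl | h
    · omega
    · exact h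
  rw [hm, Nat.mul_div_cancel_left m hn]
  have hva : v.valuation K (a : K) = 1 := (ord_eq_zero_iff v a.ne_zero).1 ha
  constructor
  · intro hP
    obtain ⟨b, hb⟩ := hP 1
    have hb0 : ((b : K) ^ n) ≠ 0 := pow_ne_zero _ b.ne_zero
    have hvb : v.valuation K (b : K) = 1 := by
      apply kum_val_eq_one_of_pow v hn
      have h1 := hb.val_eq_one le_rfl
      rw [map_div₀, hva, one_div] at h1
      exact inv_eq_one.1 h1
    have h1 : One v 1 ((b : K) ^ (n * m)) := by
      rw [kum_one_one_iff, ← hm]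
      exact kum_fermat v hvb
    have h2 := (hb.pow m).mul h1
    have e : ((a : K) / (b : K) ^ n) ^ m * (b : K) ^ (n * m) = (a : K) ^ m := by
      rw [div_pow, ← pow_mul, div_mul_cancel₀ _ (pow_ne_zero _ b.ne_zero)]
    rw [e, kum_one_one_iff] at h2
    exact h2
  · intro hlt
    obtain ⟨y, hy⟩ := kum_exists_int v hva.le
    have hyv := kum_notMem_of_close v hva hy
    let _ : Field (𝓞 K ⧸ v.asIdeal) := Ideal.Quotient.field v.asIdeal
    have hu : Ideal.Quotient.mk v.asIdeal y ≠ 0 := by rwa [Ne, Ideal.Quotient.eq_zero_iff_mem]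
    have hum : (Ideal.Quotient.mk v.asIdeal y) ^ m = 1 := by
      rw [← map_pow, ← map_one (Ideal.Quotient.mk v.asIdeal), Ideal.Quotient.eq,
        ← v.valuation_lt_one_iff_mem (K := K)]
      have h4 := kum_val_pow_sub_pow_lt v hva.le (v.valuation_le_one y) hy m
      have e : algebraMap (𝓞 K) K (y ^ m - 1) = ((y : K) ^ m - (a : K) ^ m) + ((a : K) ^ m - 1) := by
        rw [map_sub, map_pow, map_one]; ring
      have h6 : v.valuation K (algebraMap (𝓞 K) K (y ^ m - 1)) < 1 := by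
        rw [e]
        exact lt_of_le_of_lt (Valuation.map_add _ _ _) (max_lt h4 hlt)
      exact h6
    obtain ⟨t, ht0, ht⟩ := kum_exists_pow_eq hm0 hm hu hum
    obtain ⟨z, rfl⟩ := Ideal.Quotient.mk_surjective t
    have hzv : z ∉ v.asIdeal := by rwa [Ne, Ideal.Quotient.eq_zero_iff_mem] at ht0
    have hz0 : (z : K) ≠ 0 := by
      intro h0
      apply hzv
      have : z = 0 := by exact_mod_cast h0
      rw [this]; exact zero_mem _
    have hvz : v.valuation K (z : K) = 1 := (v.valuation_eq_one_iff_notMem).2 hzv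
    have h5 : v.valuation K ((z : K) ^ n - (y : K)) < 1 := by
      rw [← map_pow, Ideal.Quotient.eq, ← v.valuation_lt_one_iff_mem (K := K)] at ht
      simpa using ht
    refine powLoc_of_residue n hn v hvn a (Units.mk0 (z : K) hz0) ?_
    rw [kum_one_one_iff, Units.val_mk0]
    have e : (a : K) / (z : K) ^ n - 1 = -(((z : K) ^ n - (y : K)) + ((y : K) - (a : K))) / (z : K) ^ n := by
      field_simp
      ring
    rw [e, map_div₀, map_pow, hvz, one_pow, div_one, Valuation.map_neg]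
    exact lt_of_le_of_lt (Valuation.map_add _ _ _) (max_lt h5 hy)

end aux

section arith

variable {n : ℕ} {K : Type*} [Field K] [NumberField K] {Δ : Subgroup Kˣ}
  {L : Type*} [Field L] [NumberField L] [Algebra K L] [IsGalois K L]

/-- a congruence `σ y ≡ y ^ k mod w` on `𝓞 L` extends to all `w`-integral elements -/
theorem kum_val_sub_pow_lt (w : Pl L) (σ : Gal(L/K)) (k : ℕ) (hσw : σ • w = w)
    (hk : ∀ y : 𝓞 L, σ • y - y ^ k ∈ w.asIdeal) (x : L) (hx : w.valuation L x ≤ 1) :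
    w.valuation L (σ x - x ^ k) < 1 := by
  obtain ⟨y, hy⟩ := kum_exists_int w hx
  have e : σ x - x ^ k = -σ ((y : L) - x) + ((σ (y : L) - (y : L) ^ k) + ((y : L) ^ k - x ^ k)) := by
    rw [map_sub]; ring
  rw [e]
  refine lt_of_le_of_lt ((w.valuation L).map_add _ _) (max_lt ?_ ?_)
  · rw [Valuation.map_neg]
    have h1 := val_smul K L σ w ((y : L) - x)
    rw [hσw] at h1
    rw [h1]
    exact hy
  · refine lt_of_le_of_lt ((w.valuation L).map_add _ _) (max_lt ?_ ?_)
    · have h2 : σ (y : L) - (y : L) ^ k = ((σ • y - y ^ k : 𝓞 L) : L) := rfl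
      rw [h2]
      exact (w.valuation_lt_one_iff_mem _).2 (hk y)
    · exact kum_val_pow_sub_pow_lt w hx (w.valuation_le_one y) hy k

omit [IsGalois K L] in
theorem kum_val_natCast_above (w : Pl L) (hvn : ord (below K L w) (n : K) = 0) (hn : 0 < n) :
    w.valuation L (n : L) = 1 := by
  have h0 : (n : K) ≠ 0 := by exact_mod_cast hn.ne'
  have h1 := val_algebraMap K L w (n : K)
  rw [(ord_eq_zero_iff _ h0).1 hvn, one_pow, map_natCast] at h1
  exact h1

omit [IsGalois K L] in
theorem kum_val_root (w : Pl L) {a : Kˣ} (ha : ord (below K L w) (a : K) = 0) (hn : 0 < n) {x : L}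
    (hx : x ^ n = algebraMap K L (a : K)) : w.valuation L x = 1 := by
  apply kum_val_eq_one_of_pow w hn
  rw [hx, val_algebraMap, (ord_eq_zero_iff _ a.ne_zero).1 ha, one_pow]

open Pointwise in
theorem kum_smul_eq_of_mem_stabilizer (w : Pl L) {σ : Gal(L/K)}
    (hσ : σ ∈ MulAction.stabilizer Gal(L/K) w.asIdeal) : σ • w = w := by
  rw [← stabilizer_pl_eq] at hσ
  exact hσ

/-- Blueprint 6.3 -/
theorem IsKummer.unram (hn : 0 < n) (hμ : ∃ ζ : K, IsPrimitiveRoot ζ n) (h : IsKummer n Δ L) (v : Pl K)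
    (hvn : ord v (n : K) = 0) (hΔ : ∀ a ∈ Δ, ord v ((a : Kˣ) : K) = 0) : Unram K L v := by
  intro w hw
  subst hw
  rw [eq_bot_iff]
  intro σ hσ
  rw [Subgroup.mem_bot]
  apply h.eq_one_of_fix
  rintro x ⟨a, ha, hx⟩
  obtain ⟨κ, hκ, hκx⟩ := h.exists_pair hn hμ σ ⟨a, ha⟩
  have hσx := hκx x hx
  by_contra hne
  have hz1 : algebraMap K L (κ : K) ≠ 1 := by
    intro h1
    rw [h1, one_mul] at hσx
    exact hne hσx
  have hzn : (algebraMap K L (κ : K)) ^ n = 1 := by
    rw [← map_pow, ← Units.val_pow_eq_pow_val, hκ]; simp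
  have hvx : w.valuation L x = 1 := kum_val_root w (hΔ a ha) hn hx
  have h1 := kum_val_sub_pow_lt w σ 1
    (kum_smul_eq_of_mem_stabilizer w (Ideal.inertia_le_stabilizer _ hσ))
    (fun y => by simpa using hσ y) x hvx.le
  rw [pow_one, hσx] at h1
  have e : algebraMap K L (κ : K) * x - x = (algebraMap K L (κ : K) - 1) * x := by ring
  rw [e, map_mul, hvx, mul_one] at h1
  have h2 := kum_val_natCast_le w hn hzn hz1
  rw [kum_val_natCast_above w hvn hn] at h2
  exact absurd h1 (not_lt.2 h2)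

/-- Blueprint 6.5 -/
theorem IsKummer.split (hn : 0 < n) (hμ : ∃ ζ : K, IsPrimitiveRoot ζ n) (h : IsKummer n Δ L) (v : Pl K)
    (hΔ : ∀ a ∈ Δ, a ∈ PowLoc n v) : Split K L v := by
  intro w hw
  subst hw
  rw [eq_bot_iff]
  intro σ hσ
  rw [Subgroup.mem_bot]
  apply h.eq_one_of_fix
  rintro x ⟨a, ha, hx⟩
  obtain ⟨κ, hκ, hκx⟩ := h.exists_pair hn hμ σ ⟨a, ha⟩
  have hσx := hκx x hx
  by_contra hne
  set z : L := algebraMap K L (κ : K) with hz
  have hz1 : z ≠ 1 := by
    intro h1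
    rw [h1, one_mul] at hσx
    exact hne hσx
  have hzn : z ^ n = 1 := by
    rw [hz, ← map_pow, ← Units.val_pow_eq_pow_val, hκ]; simp
  have hσw : σ • w = w := kum_smul_eq_of_mem_stabilizer w hσ
  have hvz : w.valuation L z = 1 := kum_val_eq_one_of_pow w hn (by rw [hzn, map_one])
  have hn0 : (n : L) ≠ 0 := by exact_mod_cast hn.ne'
  have hc := kum_val_natCast_le w hn hzn hz1
  rw [val_eq_exp_neg_ord w hn0] at hc
  set M : ℤ := ord w (n : L) with hM
  set N : ℕ := (n * M).toNat + 1 with hN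
  obtain ⟨b, hb⟩ := hΔ a ha N
  have hb0 : algebraMap K L (b : K) ≠ 0 := by simp
  set y : L := x / algebraMap K L (b : K) with hy
  have hyn : y ^ n - 1 = algebraMap K L ((a : K) / (b : K) ^ n - 1) := by
    rw [hy, div_pow, hx]
    simp
  have hval : w.valuation L (y ^ n - 1) ≤ WithZero.exp (-(N : ℤ)) := by
    rw [hyn, val_algebraMap]
    have h1 : (below K L w).valuation K ((a : K) / (b : K) ^ n - 1) ≤ WithZero.exp (-(N : ℤ)) := hb
    have h2 : WithZero.exp (-(N : ℤ)) ≤ (1 : WithZero (Multiplicative ℤ)) := by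
      rw [← WithZero.exp_zero, WithZero.exp_le_exp]; omega
    calc (below K L w).valuation K ((a : K) / (b : K) ^ n - 1) ^ eidx K L w
        ≤ (below K L w).valuation K ((a : K) / (b : K) ^ n - 1) ^ 1 :=
          pow_le_pow_right_of_le_one' (h1.trans h2) (eidx_pos K L w)
      _ ≤ _ := by rw [pow_one]; exact h1
  obtain ⟨ζ, hζ⟩ := hμ
  set ζ' : L := algebraMap K L ζ with hζ'
  have hζL : IsPrimitiveRoot ζ' n := hζ.map_of_injective (algebraMap K L).injective
  have hprod : y ^ n - 1 = ∏ i ∈ Finset.range n, (y - ζ' ^ i) := by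
    have h1 := X_pow_sub_C_eq_prod hζL hn (one_pow n)
    have h2 := congrArg (Polynomial.eval y) h1
    simpa [Polynomial.eval_prod] using h2
  obtain ⟨i0, -, hmin⟩ := Finset.exists_min_image (Finset.range n)
    (fun i => w.valuation L (y - ζ' ^ i)) ⟨0, Finset.mem_range.2 hn⟩
  set t := w.valuation L (y - ζ' ^ i0) with ht
  have htn : t ^ n ≤ WithZero.exp (-(N : ℤ)) := by
    refine le_trans ?_ hval
    rw [hprod, map_prod]
    have := Finset.pow_card_le_prod (Finset.range n) (fun i => w.valuation L (y - ζ' ^ i)) t hmin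
    simpa using this
  have hσy : σ y = z * y := by
    rw [hy, map_div₀, σ.commutes, hσx, mul_div_assoc]
  have hσζ : σ (ζ' ^ i0) = ζ' ^ i0 := by rw [map_pow, hζ', σ.commutes]
  have h1 : w.valuation L (z * y - ζ' ^ i0) = t := by
    have h2 := val_smul K L σ w (y - ζ' ^ i0)
    rw [hσw, map_sub, hσy, hσζ] at h2
    exact h2
  have h2 : w.valuation L (z * y - z * ζ' ^ i0) = t := by
    rw [← mul_sub, map_mul, hvz, one_mul]
  have hvζ : w.valuation L (ζ' ^ i0) = 1 := by
    rw [map_pow, kum_val_eq_one_of_pow w hn (by rw [hζL.pow_eq_one, map_one]), one_pow]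
  have h3 : w.valuation L (z - 1) ≤ t := by
    have e : (z - 1) * ζ' ^ i0 = (z * y - ζ' ^ i0) - (z * y - z * ζ' ^ i0) := by ring
    have h4 : w.valuation L ((z - 1) * ζ' ^ i0) ≤ t := by
      rw [e]
      exact le_trans ((w.valuation L).map_sub _ _) (max_le h1.le h2.le)
    rwa [map_mul, hvζ, mul_one] at h4
  have h5 : WithZero.exp (-M) ^ n ≤ WithZero.exp (-(N : ℤ)) :=
    le_trans (pow_le_pow_left' (hc.trans h3) n) htn
  rw [← WithZero.exp_nsmul, WithZero.exp_le_exp] at h5
  have h6 : (n * M) ≤ ((n * M).toNat : ℤ) := Int.self_le_toNat _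
  rw [hN] at h5
  simp only [nsmul_eq_mul, Nat.cast_add, Nat.cast_one] at h5
  linarith

/-- Blueprint 6.4 -/
theorem IsKummer.frob_fix_iff (hn : 0 < n) (hμ : ∃ ζ : K, IsPrimitiveRoot ζ n) (h : IsKummer n Δ L)
    (v : Pl K) (hvn : ord v (n : K) = 0) (hΔ : ∀ a ∈ Δ, ord v ((a : Kˣ) : K) = 0)
    (σ : Gal(L/K)) (hσ : IsFrob K L σ v) (a : Kˣ) (ha : a ∈ Δ) (x : L)
    (hx : x ^ n = algebraMap K L (a : K)) : σ x = x ↔ a ∈ PowLoc n v := by
  obtain ⟨w, rfl⟩ := exists_above K L v
  have hF : IsArithFrobAt (𝓞 K) σ w.asIdeal := hσ w rfl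
  rw [kum_mem_powLoc_iff _ hn hμ hvn a (hΔ a ha)]
  obtain ⟨m, hm⟩ := kum_dvd_card_sub_one _ hn hμ hvn
  have hq2 : 2 ≤ Nat.card (𝓞 K ⧸ (below K L w).asIdeal) := by
    have : Nontrivial (𝓞 K ⧸ (below K L w).asIdeal) :=
      Ideal.Quotient.nontrivial_iff.2 (below K L w).isPrime.ne_top
    exact Finite.one_lt_card
  rw [hm, Nat.mul_div_cancel_left m hn]
  have hq : Nat.card (𝓞 K ⧸ (below K L w).asIdeal) = n * m + 1 := by omega
  obtain ⟨κ, hκ, hκx⟩ := h.exists_pair hn hμ σ ⟨a, ha⟩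
  have hσx := hκx x hx
  have hx0 : x ≠ 0 := kum_root_ne_zero hn hx
  have hvx : w.valuation L x = 1 := kum_val_root w (hΔ a ha) hn hx
  have h1 := kum_val_sub_pow_lt w σ (Nat.card (𝓞 K ⧸ (below K L w).asIdeal))
    (kum_smul_eq_of_mem_stabilizer w hF.mem_stabilizer) hF x hvx.le
  have e : σ x - x ^ (Nat.card (𝓞 K ⧸ (below K L w).asIdeal))
      = algebraMap K L ((κ : K) - (a : K) ^ m) * x := by
    rw [hq, hσx, pow_succ, pow_mul, hx, map_sub, map_pow]
    ring
  rw [e, map_mul, hvx, mul_one, val_algebraMap] at h1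
  have h2 : (below K L w).valuation K ((κ : K) - (a : K) ^ m) < 1 := by
    by_contra hge
    rw [not_lt] at hge
    exact absurd h1 (not_lt.2 (one_le_pow_of_one_le' hge _))
  have hκn : (κ : K) ^ n = 1 := by
    rw [← Units.val_pow_eq_pow_val, hκ]; simp
  constructor
  · intro hfix
    have h3 : algebraMap K L (κ : K) = 1 := by
      rw [hfix] at hσx
      exact (mul_right_cancel₀ hx0 (by rw [one_mul]; exact hσx)).symm
    have h4 : (κ : K) = 1 := (algebraMap K L).injective (by rw [h3, map_one])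
    rw [h4, Valuation.map_sub_swap] at h2
    exact h2
  · intro hlt
    have h3 : (below K L w).valuation K ((κ : K) - 1) < 1 := by
      have e2 : (κ : K) - 1 = ((κ : K) - (a : K) ^ m) + ((a : K) ^ m - 1) := by ring
      rw [e2]
      exact lt_of_le_of_lt (Valuation.map_add _ _ _) (max_lt h2 hlt)
    have h4 := kum_eq_one_of_val_lt _ hn hvn hκn h3
    rw [hσx, h4, map_one, one_mul]

omit [NumberField L] [IsGalois K L] [Algebra K L] [Field L] in
/-- for `v ∤ n`, `μ_n ⊆ K`: the `v`-units modulo local `n`-th powers form a group of order `n` -/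
theorem unit_powLoc_index (hn : 0 < n) (hμ : ∃ ζ : K, IsPrimitiveRoot ζ n) (v : Pl K)
    (hvn : ord v (n : K) = 0) :
    (PowLoc n v).relIndex (({v}ᶜ : Set (Pl K)).unit K) = n := by
  have : NeZero n := ⟨hn.ne'⟩
  set U : Subgroup Kˣ := ({v}ᶜ : Set (Pl K)).unit K with hU
  set P : Subgroup Kˣ := PowLoc n v with hP
  have hidx : P.index = n ^ 2 := by
    rw [hP, powLoc_index n hn hμ v, hvn]
    simp
  have hmemU : ∀ a : Kˣ, a ∈ U ↔ ord v (a : K) = 0 := by
    intro a
    rw [hU, mem_unit_iff]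
    constructor
    · intro h; exact h v (by simp)
    · intro h v' hv'
      have : v' = v := by simpa using hv'
      rw [this]; exact h
  let f : Kˣ →* Multiplicative (ZMod n) :=
    { toFun := fun a => Multiplicative.ofAdd ((ord v (a : K) : ℤ) : ZMod n)
      map_one' := by simp [ord_one]
      map_mul' := fun a b => by
        rw [Units.val_mul, ord_mul v a.ne_zero b.ne_zero]
        push_cast
        rfl }
  have hf : ∀ a : Kˣ, a ∈ f.ker ↔ (n : ℤ) ∣ ord v (a : K) := by
    intro a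
    rw [MonoidHom.mem_ker]
    show Multiplicative.ofAdd ((ord v (a : K) : ℤ) : ZMod n) = 1 ↔ _
    rw [ofAdd_eq_one, ZMod.intCast_zmod_eq_zero_iff_dvd]
  have hsurj : Function.Surjective f := by
    intro c
    obtain ⟨j, hj⟩ := ZMod.intCast_surjective (Multiplicative.toAdd c)
    obtain ⟨a, ha⟩ := ord_surjective v j
    refine ⟨a, ?_⟩
    show Multiplicative.ofAdd ((ord v (a : K) : ℤ) : ZMod n) = c
    have ha' : ord v (a : K) = j := ha
    rw [ha', hj]
    rfl
  have hker : f.ker = P ⊔ U := by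
    apply le_antisymm
    · intro a ha
      obtain ⟨j, hj⟩ := (hf a).1 ha
      obtain ⟨π, hπ⟩ := exists_ord_eq_one v
      have h1 : (π ^ j) ^ n ∈ P := pow_mem_powLoc n v (π ^ j)
      have h2 : a / (π ^ j) ^ n ∈ U := by
        rw [hmemU]
        push_cast
        rw [ord_div v a.ne_zero (pow_ne_zero _ (zpow_ne_zero _ π.ne_zero)), ord_pow, ord_zpow, hπ, hj]
        ring
      have h3 : a = (π ^ j) ^ n * (a / (π ^ j) ^ n) := by
        rw [mul_div_cancel]
      rw [h3]
      exact Subgroup.mul_mem_sup h1 h2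
    · refine sup_le ?_ ?_
      · intro a ha
        rw [hf]
        obtain ⟨b, hb⟩ := ha 1
        have h1 := hb.ord_eq_zero le_rfl
        rw [ord_div v a.ne_zero (pow_ne_zero _ b.ne_zero), ord_pow] at h1
        exact ⟨ord v (b : K), by linarith⟩
      · intro a ha
        rw [hf, (hmemU a).1 ha]
        exact dvd_zero _
  have hidx2 : (P ⊔ U).index = n := by
    rw [← hker, Subgroup.index_ker, MonoidHom.range_eq_top.2 hsurj, Subgroup.card_top,
      Nat.card_eq_fintype_card]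
    simp [ZMod.card]
  have h1 : P.relIndex (P ⊔ U) * (P ⊔ U).index = P.index := Subgroup.relIndex_mul_index le_sup_left
  rw [hidx2, hidx, Subgroup.relIndex_sup_left] at h1
  have h2 : P.relIndex U * n = n * n := by rw [h1]; ring
  exact Nat.eq_of_mul_eq_mul_right hn h2

end arith

end Claimed.Agent.R239.CFT
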