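import Claimed.Agent.R239.CFT.P5b
import Claimed.Agent.R239.CFT.P6

/-!
# R239 / CFT : package P7a (second inequality in degree `ℓ`: the auxiliary primes `T`; owner helper16)

Blueprint 7.1, choice of `T` and step (a): `sunit_fg`, `exists_T`, `le_sup_of_relIndex_eq`, `unitsT_le`.
No sorry in this file.  Black boxes used: `exists_frob_zpowers` (P5b), `card_unit_quot`, `HasMu.isTotallyComplex` (P2c),
`pow_mem_powLoc` (P3a), P6.
Reusable group lemmas: `p7a_relIndex_zpowers` (A.relIndex (zpowers s) = order of s mod A), `p7a_card_sup_zpowers`,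
`p7a_mem_zpowers_symm`, `p7a_exists_basis`, `p7a_fg_iff`, `p7a_mem_range_units_iff`.
-/

set_option autoImplicit false

namespace Claimed.Agent.R239.CFT

open IsDedekindDomain NumberField

variable {ℓ : ℕ} {K : Type*} [Field K] [NumberField K]

/-- pure group theory: `A ≤ B`, `(A : A ∩ P) = (B : B ∩ P)` finite `⟹ B ≤ A P`. -/
theorem le_sup_of_relIndex_eq {G : Type*} [CommGroup G] {A B P : Subgroup G} (hAB : A ≤ B)
    (h : P.relIndex A = P.relIndex B) (h0 : P.relIndex B ≠ 0) : B ≤ A ⊔ P := by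
  have h1 := Subgroup.relIndex_mul_relIndex (P ⊓ B) (A ⊔ (P ⊓ B)) B le_sup_right
    (sup_le hAB inf_le_right)
  rw [Subgroup.inf_relIndex_right, Subgroup.relIndex_sup_right] at h1
  have h2 : (P ⊓ B).relIndex A = P.relIndex A := by
    rw [← Subgroup.inf_relIndex_right, inf_assoc, inf_eq_right.2 hAB, Subgroup.inf_relIndex_right]
  rw [h2, h] at h1
  have h3 : (A ⊔ (P ⊓ B)).relIndex B = 1 := by
    have : P.relIndex B * (A ⊔ (P ⊓ B)).relIndex B = P.relIndex B * 1 := by rw [h1, mul_one]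
    exact Nat.eq_of_mul_eq_mul_left (Nat.pos_of_ne_zero h0) this
  exact (Subgroup.relIndex_eq_one.1 h3).trans (sup_le_sup_left inf_le_left _)

/-- the relative index of `A` in `⟨σ⟩` is the order of `σ` modulo `A` -/
theorem p7a_relIndex_zpowers {G : Type*} [CommGroup G] (A : Subgroup G) (σ : G) :
    A.relIndex (Subgroup.zpowers σ) = orderOf (QuotientGroup.mk' A σ) := by
  conv_lhs => rw [← QuotientGroup.ker_mk' A]
  rw [Subgroup.relIndex_ker, MonoidHom.map_zpowers, Nat.card_zpowers]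

theorem p7a_relIndex_zpowers_prime {G : Type*} [CommGroup G] (hℓ : ℓ.Prime) (A : Subgroup G) {σ : G}
    (hσ : σ ∉ A) (hσℓ : σ ^ ℓ ∈ A) : A.relIndex (Subgroup.zpowers σ) = ℓ := by
  rw [p7a_relIndex_zpowers]
  have : Fact ℓ.Prime := ⟨hℓ⟩
  refine orderOf_eq_prime ?_ ?_
  · rw [← map_pow]
    exact (QuotientGroup.eq_one_iff _).2 hσℓ
  · intro h3
    exact hσ ((QuotientGroup.eq_one_iff σ).1 h3)

theorem p7a_relIndex_zpowers_le {G : Type*} [CommGroup G] (hℓ : 0 < ℓ) (A : Subgroup G) {σ : G}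
    (hσℓ : σ ^ ℓ ∈ A) : A.relIndex (Subgroup.zpowers σ) ≠ 0 ∧ A.relIndex (Subgroup.zpowers σ) ≤ ℓ := by
  rw [p7a_relIndex_zpowers]
  have h1 : (QuotientGroup.mk' A σ) ^ ℓ = 1 := by
    rw [← map_pow]
    exact (QuotientGroup.eq_one_iff _).2 hσℓ
  exact ⟨(orderOf_pos_iff.2 (isOfFinOrder_iff_pow_eq_one.2 ⟨ℓ, hℓ, h1⟩)).ne',
    orderOf_le_of_pow_eq_one hℓ h1⟩

/-- adjoining an element of prime order multiplies the order by `ℓ` -/
theorem p7a_card_sup_zpowers {G : Type*} [CommGroup G] (hℓ : ℓ.Prime) (A : Subgroup G) {σ : G}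
    (hσ : σ ∉ A) (hσℓ : σ ^ ℓ ∈ A) : Nat.card (Subgroup.zpowers σ ⊔ A : Subgroup G) = ℓ * Nat.card A := by
  have h1 := Subgroup.relIndex_mul_relIndex ⊥ A (Subgroup.zpowers σ ⊔ A) bot_le le_sup_right
  rw [Subgroup.relIndex_bot_left, Subgroup.relIndex_bot_left, Subgroup.relIndex_sup_right,
    p7a_relIndex_zpowers_prime hℓ A hσ hσℓ] at h1
  rw [← h1, mul_comm]

/-- a subgroup of `Kˣ` is finitely generated iff the corresponding `ℤ`-submodule is -/
theorem p7a_fg_iff {G : Type*} [CommGroup G] (H : Subgroup G) :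
    H.FG ↔ (AddSubgroup.toIntSubmodule (Subgroup.toAddSubgroup H)).FG := by
  rw [Subgroup.fg_iff_add_fg, Submodule.fg_iff_addSubgroup_fg, AddSubgroup.toIntSubmodule_toAddSubgroup]

theorem p7a_mem_range_units_iff (a : Kˣ) :
    a ∈ (Units.map (algebraMap (𝓞 K) K : 𝓞 K →* K)).range ↔ ∀ v : Pl K, ord v (a : K) = 0 := by
  constructor
  · rintro ⟨u, rfl⟩ v
    have h1 := ord_nonneg_of_integer v (u : 𝓞 K)
    have h2 := ord_nonneg_of_integer v ((u⁻¹ : (𝓞 K)ˣ) : 𝓞 K)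
    have h3 : ((u : 𝓞 K) : K) * (((u⁻¹ : (𝓞 K)ˣ) : 𝓞 K) : K) = 1 := by
      rw [← map_mul]; simp
    have hu0 : ((u : 𝓞 K) : K) ≠ 0 := left_ne_zero_of_mul_eq_one h3
    have hu1 : (((u⁻¹ : (𝓞 K)ˣ) : 𝓞 K) : K) ≠ 0 := right_ne_zero_of_mul_eq_one h3
    have h4 := ord_mul v hu0 hu1
    rw [h3, ord_one] at h4
    show ord v ((u : 𝓞 K) : K) = 0
    omega
  · intro h
    obtain ⟨x, hx⟩ := exists_integer_of_ord_nonneg (a : K) (fun v => (h v).ge)
    obtain ⟨y, hy⟩ := exists_integer_of_ord_nonneg ((a⁻¹ : Kˣ) : K) (fun v => by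
      rw [Units.val_inv_eq_inv_val, ord_inv, h v]; simp)
    have hxy : x * y = 1 := by
      apply RingOfIntegers.ext
      have e : ((x * y : 𝓞 K) : K) = (x : K) * (y : K) := map_mul (algebraMap (𝓞 K) K) x y
      rw [e, hx, hy]; simp
    refine ⟨⟨x, y, hxy, by rw [mul_comm]; exact hxy⟩, ?_⟩
    ext
    exact hx

/-- the `S`-units are finitely generated. -/
theorem sunit_fg (S : Finset (Pl K)) : ((S : Set (Pl K)).unit K).FG := by
  classical
  rw [p7a_fg_iff]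
  let f0 : Additive Kˣ →+ (S → ℤ) :=
    { toFun := fun a v => ord v.1 ((Additive.toMul a : Kˣ) : K)
      map_zero' := by
        funext v
        simp [ord_one]
      map_add' := fun a b => by
        funext v
        simp only [toMul_add, Units.val_mul, Pi.add_apply]
        exact ord_mul v.1 (Units.ne_zero _) (Units.ne_zero _) }
  refine Submodule.fg_of_fg_map_of_fg_inf_ker f0.toIntLinearMap (IsNoetherian.noetherian _) ?_
  have hU : ((Units.map (algebraMap (𝓞 K) K : 𝓞 K →* K)).range).FG := by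
    have : Group.FG (𝓞 K)ˣ := Group.fg_iff_monoid_fg.2 inferInstance
    exact (Group.fg_iff_subgroup_fg _).1 inferInstance
  rw [p7a_fg_iff] at hU
  suffices heq : AddSubgroup.toIntSubmodule (Subgroup.toAddSubgroup ((S : Set (Pl K)).unit K)) ⊓
      LinearMap.ker f0.toIntLinearMap = AddSubgroup.toIntSubmodule (Subgroup.toAddSubgroup
      ((Units.map (algebraMap (𝓞 K) K : 𝓞 K →* K)).range)) by
    rw [heq]; exact hU
  ext a
  have h1 : a ∈ AddSubgroup.toIntSubmodule (Subgroup.toAddSubgroup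
      ((Units.map (algebraMap (𝓞 K) K : 𝓞 K →* K)).range)) ↔
      ∀ v : Pl K, ord v ((Additive.toMul a : Kˣ) : K) = 0 := p7a_mem_range_units_iff (Additive.toMul a)
  rw [h1, Submodule.mem_inf]
  have h2 : a ∈ AddSubgroup.toIntSubmodule (Subgroup.toAddSubgroup ((S : Set (Pl K)).unit K)) ↔
      ∀ v ∉ (S : Set (Pl K)), ord v ((Additive.toMul a : Kˣ) : K) = 0 := mem_unit_iff _ (Additive.toMul a)
  have h3 : a ∈ LinearMap.ker f0.toIntLinearMap ↔ ∀ v : S, ord v.1 ((Additive.toMul a : Kˣ) : K) = 0 := by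
    rw [LinearMap.mem_ker]
    exact funext_iff
  rw [h2, h3]
  constructor
  · rintro ⟨ha, hb⟩ v
    by_cases hv : v ∈ S
    · exact hb ⟨v, hv⟩
    · exact ha v (by simpa using hv)
  · intro h
    exact ⟨fun v _ => h v, fun v => h v.1⟩

/-- STEP (a). -/
theorem unitsT_le (hℓ : ℓ.Prime) (h2 : ℓ ≠ 2) (hμ : HasMu ℓ K) (S T : Finset (Pl K))
    (hSℓ : ∀ v : Pl K, ord v (ℓ : K) ≠ 0 → v ∈ S) (hST : Disjoint S T)
    (hcard : T.card + 1 = S.card + InfinitePlace.nrComplexPlaces K) (a : Kˣ)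
    (hT : ∀ b ∈ (S : Set (Pl K)).unit K, (∀ v ∈ T, b ∈ PowLoc ℓ v) → b ∈ Subgroup.zpowers a ⊔ Pw ℓ K) :
    ((T : Set (Pl K))ᶜ).unit K ≤ (S : Set (Pl K)).unit K ⊔ ⨅ v ∈ T, PowLoc ℓ v := by
  classical
  have hTC : IsTotallyComplex K := hμ.isTotallyComplex hℓ h2
  set KS := (S : Set (Pl K)).unit K with hKS
  set UT := ((T : Set (Pl K))ᶜ).unit K with hUT
  set P := ⨅ v ∈ T, PowLoc ℓ v with hP
  have hle : KS ≤ UT := by
    intro b hb
    rw [hKS, mem_unit_iff] at hb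
    rw [hUT, mem_unit_iff]
    intro v hv
    have hvT : v ∈ T := by simpa using hv
    exact hb v (fun hvS => (Finset.disjoint_left.1 hST (by simpa using hvS)) hvT)
  -- upper bound
  have hfac : ∀ v ∈ T, (PowLoc ℓ v).relIndex UT ≠ 0 ∧ (PowLoc ℓ v).relIndex UT ≤ ℓ := by
    intro v hv
    have hvS : v ∉ S := fun h => (Finset.disjoint_left.1 hST h) hv
    have hvℓ : ord v (ℓ : K) = 0 := by
      by_contra h
      exact hvS (hSℓ v h)
    have h1 := unit_powLoc_index hℓ.pos hμ v hvℓ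
    have h3 : UT ≤ (({v}ᶜ : Set (Pl K)).unit K) := by
      intro b hb
      rw [hUT, mem_unit_iff] at hb
      rw [mem_unit_iff]
      intro v' hv'
      have : v' = v := by simpa using hv'
      rw [this]
      exact hb v (by simpa using hv)
    have h4 : (PowLoc ℓ v).relIndex (({v}ᶜ : Set (Pl K)).unit K) ≠ 0 := by rw [h1]; exact hℓ.pos.ne'
    have h5 := Subgroup.relIndex_le_of_le_right h3 h4
    rw [h1] at h5
    exact ⟨fun h0 => h4 (Subgroup.relIndex_eq_zero_of_le_right h3 h0), h5⟩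
  have hPeq : P = ⨅ v : T, PowLoc ℓ v.1 := by rw [hP, iInf_subtype']
  have hup0 : P.relIndex UT ≠ 0 := by
    rw [hPeq]
    exact Subgroup.relIndex_iInf_ne_zero fun v => (hfac v.1 v.2).1
  have hup : P.relIndex UT ≤ ℓ ^ T.card := by
    rw [hPeq]
    refine (Subgroup.relIndex_iInf_le _).trans ?_
    refine (Finset.prod_le_pow_card _ _ ℓ fun v _ => (hfac v.1 v.2).2).trans ?_
    simp
  -- lower bound
  have hPw : Pw ℓ K ≤ P := by
    rw [hP]
    refine le_iInf₂ fun v _ => ?_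
    rintro _ ⟨b, rfl⟩
    exact pow_mem_powLoc ℓ v b
  have hq := card_unit_quot K ℓ hμ hℓ.pos S
  have hq' : (Pw ℓ K).relIndex KS = ℓ ^ (T.card + 1) := by rw [hcard]; exact hq
  have hW : P ⊓ KS ≤ Subgroup.zpowers a ⊔ Pw ℓ K := by
    intro b hb
    refine hT b hb.2 fun v hv => ?_
    have h3 : P ≤ PowLoc ℓ v := by rw [hP]; exact iInf₂_le v hv
    exact h3 hb.1
  obtain ⟨ha0, ha1⟩ := p7a_relIndex_zpowers_le hℓ.pos (Pw ℓ K) (σ := a) ⟨a, rfl⟩
  have h5 : (Pw ℓ K).relIndex (P ⊓ KS) ≤ ℓ := by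
    refine le_trans (Subgroup.relIndex_le_of_le_right hW ?_) ?_
    · rw [Subgroup.relIndex_sup_right]; exact ha0
    · rw [Subgroup.relIndex_sup_right]; exact ha1
  have h6 := Subgroup.relIndex_mul_relIndex (Pw ℓ K ⊓ KS) (P ⊓ KS) KS
    (inf_le_inf_right _ hPw) inf_le_right
  rw [Subgroup.inf_relIndex_right, Subgroup.inf_relIndex_right, hq'] at h6
  have h7 : (Pw ℓ K ⊓ KS).relIndex (P ⊓ KS) = (Pw ℓ K).relIndex (P ⊓ KS) := by
    rw [← Subgroup.inf_relIndex_right, inf_assoc, inf_eq_right.2 (inf_le_right : P ⊓ KS ≤ KS),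
      Subgroup.inf_relIndex_right]
  rw [h7] at h6
  have hlow : ℓ ^ T.card ≤ P.relIndex KS := by
    have h8 : ℓ ^ T.card * ℓ ≤ P.relIndex KS * ℓ := by
      rw [← pow_succ, ← h6, mul_comm]
      exact Nat.mul_le_mul_left _ h5
    exact Nat.le_of_mul_le_mul_right h8 hℓ.pos
  have h1 : P.relIndex KS ≤ P.relIndex UT := Subgroup.relIndex_le_of_le_right hle hup0
  exact le_sup_of_relIndex_eq hle (le_antisymm h1 (hup.trans hlow)) hup0

theorem p7a_mem_zpowers_symm {G : Type*} [Group G] (hℓ : ℓ.Prime) {x σ : G} (hx : x ^ ℓ = 1)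
    (hσ : σ ∈ Subgroup.zpowers x) (hσ1 : σ ≠ 1) : x ∈ Subgroup.zpowers σ := by
  obtain ⟨i, rfl⟩ := hσ
  have hi : ¬ (ℓ : ℤ) ∣ i := by
    rintro ⟨k, rfl⟩
    apply hσ1
    show x ^ ((ℓ : ℤ) * k) = 1
    rw [zpow_mul, zpow_natCast, hx, one_zpow]
  have hcop : IsCoprime (ℓ : ℤ) i := (Nat.prime_iff_prime_int.1 hℓ).coprime_iff_not_dvd.2 hi
  obtain ⟨u, w, huw⟩ := hcop
  refine ⟨w, ?_⟩
  show (x ^ i) ^ w = x
  have h1 : x ^ (u * (ℓ : ℤ) + w * i) = x := by rw [huw, zpow_one]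
  rw [zpow_add, mul_comm u, zpow_mul, zpow_natCast, hx, one_zpow, one_mul, mul_comm w, zpow_mul] at h1
  exact h1

/-- abstract form of the choice of `T`: a subgroup `H` of order `ℓ ^ d` of a finite abelian group of exponent `ℓ` is generated by
`d` "Frobenius elements" at distinct places outside `S0`. -/
theorem p7a_exists_basis {G ι : Type*} [Group G] [Finite G] (hcomm : ∀ x y : G, x * y = y * x)
    [DecidableEq ι] (hℓ : ℓ.Prime) (hexp : ∀ σ : G, σ ^ ℓ = 1) (φ : ι → G) (S0 : Finset ι)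
    (hcheb : ∀ (S' : Finset ι) (σ : G), σ ≠ 1 → ∃ v ∉ S', σ ∈ Subgroup.zpowers (φ v))
    (H : Subgroup G) (d : ℕ) (hH : Nat.card H = ℓ ^ d) :
    ∃ T : Finset ι, Disjoint S0 T ∧ T.card = d ∧ (∀ v ∈ T, φ v ∈ H) ∧
      Subgroup.closure (φ '' (T : Set ι)) = H := by
  let _ : CommGroup G := { ‹Group G› with mul_comm := hcomm }
  have key : ∀ j : ℕ, j ≤ d → ∃ T : Finset ι, Disjoint S0 T ∧ T.card = j ∧ (∀ v ∈ T, φ v ∈ H) ∧
      Nat.card (Subgroup.closure (φ '' (T : Set ι))) = ℓ ^ j := by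
    intro j
    induction j with
    | zero =>
      intro _
      exact ⟨∅, by simp, by simp, by simp, by simp⟩
    | succ j ih =>
      intro hj
      obtain ⟨T, hT1, hT2, hT3, hT4⟩ := ih (by omega)
      set A := Subgroup.closure (φ '' (T : Set ι)) with hA
      have hAH : A ≤ H := by
        rw [hA, Subgroup.closure_le]
        rintro _ ⟨v, hv, rfl⟩
        exact hT3 v hv
      have hne : A ≠ H := by
        intro h
        rw [h, hH] at hT4
        have := Nat.pow_right_injective hℓ.two_le hT4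
        omega
      obtain ⟨σ, hσH, hσA⟩ := SetLike.exists_of_lt (lt_of_le_of_ne hAH hne)
      have hσ1 : σ ≠ 1 := fun h => hσA (h ▸ A.one_mem)
      obtain ⟨v, hv, hσv⟩ := hcheb (S0 ∪ T) σ hσ1
      have hvS : v ∉ S0 := fun h => hv (Finset.mem_union_left _ h)
      have hvT : v ∉ T := fun h => hv (Finset.mem_union_right _ h)
      have hφH : φ v ∈ H :=
        (Subgroup.zpowers_le.2 hσH) (p7a_mem_zpowers_symm hℓ (hexp _) hσv hσ1)
      have hφA : φ v ∉ A := fun h => hσA ((Subgroup.zpowers_le.2 h) hσv)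
      refine ⟨insert v T, ?_, ?_, ?_, ?_⟩
      · rw [Finset.disjoint_insert_right]
        exact ⟨hvS, hT1⟩
      · rw [Finset.card_insert_of_notMem hvT, hT2]
      · intro v' hv'
        rcases Finset.mem_insert.1 hv' with rfl | h
        · exact hφH
        · exact hT3 v' h
      · have e : Subgroup.closure (φ '' ((insert v T : Finset ι) : Set ι))
            = Subgroup.zpowers (φ v) ⊔ A := by
          rw [Finset.coe_insert, Set.image_insert_eq, Set.insert_eq, Subgroup.closure_union,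
            ← Subgroup.zpowers_eq_closure]
        rw [e, p7a_card_sup_zpowers hℓ A hφA (by rw [hexp]; exact A.one_mem), hT4, pow_succ, mul_comm]
  obtain ⟨T, hT1, hT2, hT3, hT4⟩ := key d le_rfl
  refine ⟨T, hT1, hT2, hT3, ?_⟩
  refine Subgroup.eq_of_le_of_card_ge ?_ (by rw [hT4, hH])
  rw [Subgroup.closure_le]
  rintro _ ⟨v, hv, rfl⟩
  exact hT3 v hv

theorem p7a_card_sup_zpowers' {G : Type*} [Group G] (hcomm : ∀ x y : G, x * y = y * x) (hℓ : ℓ.Prime)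
    (A : Subgroup G) {σ : G} (hσ : σ ∉ A) (hσℓ : σ ^ ℓ ∈ A) :
    Nat.card (Subgroup.zpowers σ ⊔ A : Subgroup G) = ℓ * Nat.card A := by
  let _ : CommGroup G := { ‹Group G› with mul_comm := hcomm }
  exact p7a_card_sup_zpowers hℓ A hσ hσℓ

/-- CHOICE OF `T`. -/
theorem exists_T (hℓ : ℓ.Prime) (h2 : ℓ ≠ 2) (hμ : HasMu ℓ K) (S : Finset (Pl K))
    (hSℓ : ∀ v : Pl K, ord v (ℓ : K) ≠ 0 → v ∈ S) (a : Kˣ) (haS : a ∈ (S : Set (Pl K)).unit K)
    (ha : a ∉ Pw ℓ K) :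
    ∃ T : Finset (Pl K), Disjoint S T ∧ T.card + 1 = S.card + InfinitePlace.nrComplexPlaces K ∧
      (∀ v ∈ T, a ∈ PowLoc ℓ v) ∧
      ∀ b ∈ (S : Set (Pl K)).unit K, (∀ v ∈ T, b ∈ PowLoc ℓ v) → b ∈ Subgroup.zpowers a ⊔ Pw ℓ K := by
  classical
  have hTC : IsTotallyComplex K := hμ.isTotallyComplex hℓ h2
  have hμ' : ∃ ζ : K, IsPrimitiveRoot ζ ℓ := hμ
  have : NeZero ℓ := ⟨hℓ.pos.ne'⟩
  have : Fact ℓ.Prime := ⟨hℓ⟩
  set Δ := (S : Set (Pl K)).unit K with hΔ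
  obtain ⟨M, _, _, _, hM⟩ := exists_isKummer ℓ hℓ.pos K Δ (sunit_fg S)
  have hAb : IsAbelianGalois K M := hM.isAbelianGalois hℓ.pos hμ'
  have hcomm : ∀ x y : Gal(M/K), x * y = y * x := fun x y => hAb.is_comm.comm x y
  have hexp : ∀ σ : Gal(M/K), σ ^ ℓ = 1 := hM.pow_eq_one hℓ.pos hμ'
  have hcardG : Nat.card Gal(M/K) = ℓ ^ (S.card + InfinitePlace.nrComplexPlaces K) := by
    rw [IsGalois.card_aut_eq_finrank, hM.finrank_eq hℓ.pos hμ']
    exact card_unit_quot K ℓ hμ' hℓ.pos S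
  have hvℓ : ∀ v ∉ S, ord v (ℓ : K) = 0 := by
    intro v hv
    by_contra h
    exact hv (hSℓ v h)
  have hΔv : ∀ v ∉ S, ∀ b ∈ Δ, ord v ((b : Kˣ) : K) = 0 := by
    intro v hv b hb
    exact (mem_unit_iff _ b).1 hb v (by simpa using hv)
  -- the pairing
  set κ := hM.pairHom hℓ.pos hμ' with hκ
  have hκfrob : ∀ v ∉ S, ∀ b : Δ, κ (frob K M v) b = 1 ↔ (b : Kˣ) ∈ PowLoc ℓ v := by
    intro v hv b
    obtain ⟨β, hβ⟩ := hM.exists_root b b.2
    rw [← hM.frob_fix_iff hℓ.pos hμ' v (hvℓ v hv) (hΔv v hv) (frob K M v) (frob_spec K M v) b b.2 β hβ]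
    constructor
    · intro h1
      have h3 := hM.pair_spec hℓ.pos hμ' (frob K M v) b β hβ
      rw [← IsKummer.pairHom_apply, h1] at h3
      simpa using h3
    · intro h1
      exact hM.pair_unique hℓ.pos hμ' (frob K M v) b 1 β hβ (by simpa using h1)
  let aΔ : Δ := ⟨a, haS⟩
  set H : Subgroup Gal(M/K) := (κ.flip aΔ).ker with hH
  have hmemH : ∀ σ, σ ∈ H ↔ κ σ aΔ = 1 := fun σ => Iff.rfl
  obtain ⟨σ0, hσ0⟩ : ∃ σ0, κ σ0 aΔ ≠ 1 := by
    by_contra hcon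
    have hcon' : ∀ σ, κ σ aΔ = 1 := by
      intro σ
      by_contra h
      exact hcon ⟨σ, h⟩
    exact ha (Subgroup.mem_subgroupOf.1 ((hM.mem_pw_iff hℓ.pos hμ' aΔ).2 hcon'))
  set ζ : Kˣ := κ σ0 aΔ with hζ
  have hpairpow : ∀ σ (b : Δ), (κ σ b) ^ ℓ = 1 := fun σ b => hM.pair_pow hℓ.pos hμ' σ b
  have hζp : IsPrimitiveRoot ζ ℓ := by
    have h1 : orderOf ζ = ℓ := orderOf_eq_prime (hpairpow σ0 aΔ) hσ0
    rw [← h1]
    exact IsPrimitiveRoot.orderOf ζ
  have hpow : ∀ z : Kˣ, z ^ ℓ = 1 → ∃ i : ℕ, ζ ^ i = z := by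
    intro z hz
    have h1 : IsPrimitiveRoot (ζ : K) ℓ := IsPrimitiveRoot.coe_units_iff.2 hζp
    have h3 : (z : K) ^ ℓ = 1 := by rw [← Units.val_pow_eq_pow_val, hz]; simp
    obtain ⟨i, -, hi⟩ := h1.eq_pow_of_pow_eq_one h3
    exact ⟨i, Units.ext (by simpa using hi)⟩
  have hsup : Subgroup.zpowers σ0 ⊔ H = ⊤ := by
    rw [eq_top_iff]
    intro τ _
    obtain ⟨i, hi⟩ := hpow (κ τ aΔ) (hpairpow τ aΔ)
    have h1 : (σ0 ^ i)⁻¹ * τ ∈ H := by
      rw [hmemH, map_mul, map_inv, map_pow, MonoidHom.mul_apply, MonoidHom.inv_apply,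
        MonoidHom.pow_apply, ← hζ, hi, inv_mul_cancel]
    have h3 : τ = σ0 ^ i * ((σ0 ^ i)⁻¹ * τ) := by group
    rw [h3]
    exact Subgroup.mul_mem_sup (Subgroup.pow_mem _ (Subgroup.mem_zpowers σ0) i) h1
  have hσ0H : σ0 ∉ H := hσ0
  have hcardH := p7a_card_sup_zpowers' hcomm hℓ H hσ0H (by rw [hexp]; exact H.one_mem)
  rw [hsup, Subgroup.card_top, hcardG] at hcardH
  obtain ⟨d, hd⟩ : ∃ d, S.card + InfinitePlace.nrComplexPlaces K = d + 1 := by
    rcases Nat.eq_zero_or_pos (S.card + InfinitePlace.nrComplexPlaces K) with h | h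
    · rw [h, pow_zero] at hcardH
      have := Nat.eq_one_of_mul_eq_one_right hcardH.symm
      exact absurd this hℓ.one_lt.ne'
    · exact ⟨_, (Nat.succ_pred_eq_of_pos h).symm⟩
  rw [hd, pow_succ, mul_comm] at hcardH
  have hcardH' : Nat.card H = ℓ ^ d := (Nat.eq_of_mul_eq_mul_left hℓ.pos hcardH).symm
  have hcheb : ∀ (S' : Finset (Pl K)) (σ : Gal(M/K)), σ ≠ 1 →
      ∃ v ∉ S', σ ∈ Subgroup.zpowers (frob K M v) := by
    intro S' σ hσ
    have h1 : orderOf σ = ℓ := orderOf_eq_prime (hexp σ) hσ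
    obtain ⟨v, hv, -, hv2⟩ := exists_frob_zpowers K M S' σ (h1 ▸ hℓ)
    exact ⟨v, hv, hv2⟩
  obtain ⟨T, hT1, hT2, hT3, hT4⟩ := p7a_exists_basis hcomm hℓ hexp (frob K M) S hcheb H d hcardH'
  have hTS : ∀ v ∈ T, v ∉ S := fun v hv hvS => (Finset.disjoint_left.1 hT1 hvS) hv
  refine ⟨T, hT1, by rw [hT2, hd], ?_, ?_⟩
  · intro v hv
    exact (hκfrob v (hTS v hv) aΔ).1 (hT3 v hv)
  · intro b hb hbT
    let bΔ : Δ := ⟨b, hb⟩
    have hHb : H ≤ (κ.flip bΔ).ker := by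
      rw [← hT4, Subgroup.closure_le]
      rintro _ ⟨v, hv, rfl⟩
      exact (hκfrob v (hTS v hv) bΔ).2 (hbT v hv)
    obtain ⟨j, hj⟩ := hpow (κ σ0 bΔ) (hpairpow σ0 bΔ)
    set c : Δ := bΔ * (aΔ ^ j)⁻¹ with hc
    have hκc : ∀ σ, κ σ c = κ σ bΔ * ((κ σ aΔ) ^ j)⁻¹ := by
      intro σ
      rw [hc, map_mul, map_inv, map_pow]
    have hker : (κ.flip c).ker = ⊤ := by
      rw [eq_top_iff, ← hsup]
      refine sup_le ?_ ?_
      · rw [Subgroup.zpowers_le]
        show κ σ0 c = 1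
        rw [hκc, ← hζ, hj, mul_inv_cancel]
      · intro σ hσ
        show κ σ c = 1
        have h1 : κ σ bΔ = 1 := hHb hσ
        have h3 : κ σ aΔ = 1 := hσ
        rw [hκc, h1, h3]
        simp
    have hcPw : (c : Kˣ) ∈ Pw ℓ K := by
      refine Subgroup.mem_subgroupOf.1 ((hM.mem_pw_iff hℓ.pos hμ' c).2 fun σ => ?_)
      have : σ ∈ (κ.flip c).ker := by rw [hker]; trivial
      exact this
    have hbc : b = a ^ j * (c : Kˣ) := by
      rw [hc]
      simp [bΔ, aΔ]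
    rw [hbc]
    exact Subgroup.mul_mem_sup (Subgroup.pow_mem _ (Subgroup.mem_zpowers a) j) hcPw

end Claimed.Agent.R239.CFT
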