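import Claimed.Agent.R239.CFT.P7a

/-!
# R239 / CFT : package P7b (second inequality in degree `ℓ`)   (proofs by helper152)

Blueprint 7.1 (b), (c).  The owner of the package owns this file and replaces the `sorry`s in place; names and
statements are frozen (ask helper97 for changes).
-/

set_option autoImplicit false

namespace Claimed.Agent.R239.CFT

open IsDedekindDomain NumberField

universe u

variable {ℓ : ℕ}

/-- a cyclic Kummer extension which splits at all primes of `S` and in which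
`Kˣ = K_{S'} · NlocS(S')` (`S ⊆ S'`) is trivial; abstract form of the argument "first inequality ⟹ `F = K`".
`F/K` cyclic, unramified outside `S'`, `ClS S'`, `K_{S'} ⊔ NlocS K F S' = ⊤`  ⟹  `[F:K] = 1`.
[`first_ineq`, `hidx_le_index`, `Subgroup.index_top`] -/
theorem finrank_eq_one_of_sup_eq_top (K : Type*) [Field K] [NumberField K] (F : Type*) [Field F] [NumberField F]
    [Algebra K F] [IsGalois K F] [IsCyclic Gal(F/K)] [IsTotallyComplex K] (S' : Finset (Pl K))
    (hur : ∀ v ∉ S', Unram K F v) (hcl : ClS (S' : Set (Pl K)))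
    (htop : (S' : Set (Pl K)).unit K ⊔ NlocS K F (S' : Set (Pl K)) = ⊤) : Module.finrank K F = 1 := by
  have h1 := first_ineq K F
  have h2 := hidx_le_index K F S' hur hcl
  rw [htop, Subgroup.index_top] at h2
  have h3 : 0 < Module.finrank K F := Module.finrank_pos
  omega

/-- STEP (b), the KEY LEMMA.  [Suppose `b ∉ Kˣ^ℓ`; `F := K(b^{1/ℓ})` (`exists_isKummer`, `finrank_zpowers`) is cyclic of degree `ℓ`,
split at `S` (`IsKummer.split`), unramified outside `S ∪ T` (`IsKummer.unram`).  `K_{S∪T} ⊔ NlocS K F (S ∪ T) = ⊤`: given `c`, `ClS S`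
gives `a' ∈ K_{S ∪ T}` with `ord v a' = ord v c` on `T`; `hU` gives `c / a' = u d`, `u ∈ K_S`, `d ∈ ⋂_T PowLoc ℓ v ≤ ⋂_T Nloc`
(`powLoc_le_nloc`), and `Nloc = ⊤` on `S` (`nloc_of_split`).  Contradiction with `finrank_eq_one_of_sup_eq_top`.] -/
theorem key_pow (hℓ : ℓ.Prime) (h2 : ℓ ≠ 2) {K : Type u} [Field K] [NumberField K] (hμ : HasMu ℓ K)
    (S T : Finset (Pl K)) (hSℓ : ∀ v : Pl K, ord v (ℓ : K) ≠ 0 → v ∈ S) (hcl : ClS (S : Set (Pl K)))
    (hU : ((T : Set (Pl K))ᶜ).unit K ≤ (S : Set (Pl K)).unit K ⊔ ⨅ v ∈ T, PowLoc ℓ v)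
    (b : Kˣ) (hb : b ∈ ((S : Set (Pl K)) ∪ (T : Set (Pl K))).unit K) (hbS : ∀ v ∈ S, b ∈ PowLoc ℓ v) :
    b ∈ Pw ℓ K := by
  classical
  by_contra hbP
  obtain ⟨F, _, _, _, hF⟩ := exists_isKummer ℓ hℓ.pos K (Subgroup.zpowers b)
    ⟨{b}, by simp [Subgroup.zpowers_eq_closure]⟩
  have hdeg : Module.finrank K F = ℓ := by
    rcases hF.finrank_zpowers hℓ hμ with h | h
    · exact absurd h.1 hbP
    · exact h.2
  have := hF.isAbelianGalois hℓ.pos hμ
  have : Fact ℓ.Prime := ⟨hℓ⟩
  have : IsCyclic Gal(F/K) := isCyclic_of_prime_card (p := ℓ) (by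
    rw [IsGalois.card_aut_eq_finrank, hdeg])
  have := hμ.isTotallyComplex hℓ h2
  have hb' := (mem_unit_iff _ b).1 hb
  have hsplit : ∀ v ∈ S, Split K F v := by
    intro v hv
    refine hF.split hℓ.pos hμ v ?_
    rintro _ ⟨k, rfl⟩
    exact (PowLoc ℓ v).zpow_mem (hbS v hv) k
  have hur : ∀ v ∉ S ∪ T, Unram K F v := by
    intro v hv
    have hvS : v ∉ S := fun h => hv (Finset.mem_union_left _ h)
    refine hF.unram hℓ.pos hμ v (by_contra fun h => hvS (hSℓ v h)) ?_
    rintro _ ⟨k, rfl⟩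
    have : ord v (b : K) = 0 := hb' v (by
      simpa using hv)
    simp only [Units.val_zpow_eq_zpow_val]
    rw [ord_zpow, this, mul_zero]
  have hcl' : ClS ((S ∪ T : Finset (Pl K)) : Set (Pl K)) :=
    hcl.mono (by simp)
  have htop : ((S ∪ T : Finset (Pl K)) : Set (Pl K)).unit K ⊔
      NlocS K F ((S ∪ T : Finset (Pl K)) : Set (Pl K)) = ⊤ := by
    rw [eq_top_iff]
    intro c _
    -- `a'`
    obtain ⟨a', ha'⟩ := hcl ((dv (c : K)).filter (fun v => v ∈ T))
    have ha'1 : ∀ v ∈ T, v ∉ S → ord v (a' : K) = ord v (c : K) := by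
      intro v hvT hvS
      have := ha' v (by simpa using hvS)
      rw [Finsupp.filter_apply_pos _ _ hvT, dv_apply] at this
      exact this.symm
    have ha'2 : a' ∈ ((S ∪ T : Finset (Pl K)) : Set (Pl K)).unit K := by
      rw [mem_unit_iff]
      intro v hv
      have hv' : v ∉ S ∧ v ∉ T := by simpa using hv
      have := ha' v (by simpa using hv'.1)
      rw [Finsupp.filter_apply_neg _ _ hv'.2] at this
      exact this.symm
    -- `e`
    obtain ⟨e, he⟩ := weak_approx_units' T (fun v => if v ∈ S then c / a' else 1) (fun _ => 1)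
    have he1 : ∀ v ∈ T, v ∈ S → ord v (e : K) = ord v ((c / a' : Kˣ) : K) := by
      intro v hvT hvS
      have := (he v hvT).ord_eq_zero le_rfl
      rw [if_pos hvS, ord_div v e.ne_zero (Units.ne_zero _)] at this
      omega
    have he2 : ∀ v ∈ T, v ∉ S → One v 1 (e : K) := by
      intro v hvT hvS
      have := he v hvT
      rw [if_neg hvS] at this
      simpa using this
    have hunit : c / (a' * e) ∈ ((T : Set (Pl K))ᶜ).unit K := by
      rw [mem_unit_iff]
      intro v hv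
      have hvT : v ∈ T := by simpa using hv
      push_cast
      rw [ord_div v c.ne_zero (mul_ne_zero a'.ne_zero e.ne_zero), ord_mul v a'.ne_zero e.ne_zero]
      by_cases hvS : v ∈ S
      · rw [he1 v hvT hvS]
        push_cast
        rw [ord_div v c.ne_zero a'.ne_zero]
        ring
      · rw [ha'1 v hvT hvS, (he2 v hvT hvS).ord_eq_zero le_rfl]
        ring
    obtain ⟨u, hu, d, hd, hud⟩ := Subgroup.mem_sup.1 (hU hunit)
    have hc : c = (a' * u) * (e * d) := by
      have : c = (a' * e) * (c / (a' * e)) := by rw [mul_div_cancel]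
      rw [this, ← hud]
      simp only [mul_left_comm, mul_comm]
    rw [hc]
    refine Subgroup.mul_mem_sup (Subgroup.mul_mem _ ha'2 ?_) ?_
    · rw [mem_unit_iff] at hu ⊢
      intro v hv
      exact hu v (fun h => hv (by simp at h ⊢; exact Or.inl h))
    · simp only [NlocS, Subgroup.mem_iInf]
      intro v hv
      by_cases hvS : v ∈ S
      · rw [nloc_of_split K F v (hsplit v hvS)]
        exact Subgroup.mem_top _
      · have hvT : v ∈ T := by
          have : v ∈ S ∨ v ∈ T := by simpa using hv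
          exact this.resolve_left hvS
        have h0 : ord v (ℓ : K) = 0 := by_contra fun h => hvS (hSℓ v h)
        have hle := powLoc_le_nloc K F v
        rw [hdeg] at hle
        apply hle
        refine Subgroup.mul_mem _ (powLoc_of_one ℓ hℓ.pos v e ?_) ?_
        · rw [h0]
          simpa using he2 v hvT hvS
        · simp only [Subgroup.mem_iInf] at hd
          exact hd v hvT
  have := finrank_eq_one_of_sup_eq_top K F (S ∪ T) hur hcl' htop
  rw [hdeg] at this
  exact hℓ.one_lt.ne' this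

/-- the index computation of STEP (c):
`(Kˣ : K_{S∪T} E₀) * (K_{S∪T} : K_{S∪T} ∩ E₀) = (Kˣ : E₀) = ∏_S ℓ² Nv^{ord ℓ} = ℓ^{2 card S + [K:ℚ]} = ℓ^{2s}`, and
`K_{S∪T} ∩ E₀ = K_{S∪T} ∩ Kˣ^ℓ` has index `ℓ^{card S + card T + r₂} = ℓ^{2s-1}`.
[`powLocS_index`, `powLoc_index`, `prod_card_pow_ord`, `IsTotallyComplex.finrank`, `card_unit_quot`,
`Subgroup.relIndex_sup_left`, `Subgroup.relIndex_mul_index`] -/
theorem index_sup_powLocS (hℓ : ℓ.Prime) (h2 : ℓ ≠ 2) {K : Type*} [Field K] [NumberField K] (hμ : HasMu ℓ K)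
    (S T : Finset (Pl K)) (hSℓ : ∀ v : Pl K, ord v (ℓ : K) ≠ 0 → v ∈ S) (hST : Disjoint S T)
    (hcard : T.card + 1 = S.card + InfinitePlace.nrComplexPlaces K)
    (hkey : ∀ b ∈ ((S : Set (Pl K)) ∪ (T : Set (Pl K))).unit K, (∀ v ∈ S, b ∈ PowLoc ℓ v) → b ∈ Pw ℓ K) :
    (((S : Set (Pl K)) ∪ (T : Set (Pl K))).unit K ⊔ ⨅ v ∈ S, PowLoc ℓ v).index = ℓ := by
  classical
  have := hμ.isTotallyComplex hℓ h2
  set U := ((S : Set (Pl K)) ∪ (T : Set (Pl K))).unit K with hU
  set E0 : Subgroup Kˣ := ⨅ v ∈ S, PowLoc ℓ v with hE0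
  set r := InfinitePlace.nrComplexPlaces K with hr
  -- the index of `E0`
  have h1 : E0.index = ℓ ^ (2 * (S.card + r)) := by
    rw [hE0, powLocS_index ℓ hℓ.pos S, Finset.prod_congr rfl (fun v _ => powLoc_index ℓ hℓ.pos hμ v),
      Finset.prod_mul_distrib, prod_card_pow_ord ℓ hℓ.pos S hSℓ, Finset.prod_const,
      IsTotallyComplex.finrank, ← pow_mul, ← pow_add]
    congr 1
    ring
  -- the relative index
  have h3 : E0 ⊓ U = Pw ℓ K ⊓ U := by
    apply le_antisymm
    · rintro b ⟨hb1, hb2⟩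
      refine ⟨hkey b hb2 ?_, hb2⟩
      intro v hv
      have : b ∈ E0 := hb1
      simp only [hE0, Subgroup.mem_iInf] at this
      exact this v hv
    · rintro b ⟨⟨x, rfl⟩, hb2⟩
      refine ⟨?_, hb2⟩
      show _ ∈ E0
      simp only [hE0, Subgroup.mem_iInf]
      intro v _
      exact pow_mem_powLoc ℓ v x
  have h4 : E0.relIndex U = ℓ ^ (2 * (S.card + r) - 1) := by
    rw [← Subgroup.inf_relIndex_right, h3, Subgroup.inf_relIndex_right, hU, ← Finset.coe_union,
      card_unit_quot K ℓ hμ hℓ.pos (S ∪ T), Finset.card_union_of_disjoint hST]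
    congr 1
    omega
  have h5 : E0.relIndex (U ⊔ E0) * (U ⊔ E0).index = E0.index :=
    Subgroup.relIndex_mul_index le_sup_right
  rw [Subgroup.relIndex_sup_right, h4, h1] at h5
  have h6 : ℓ ^ (2 * (S.card + r)) = ℓ ^ (2 * (S.card + r) - 1) * ℓ := by
    rw [← pow_succ]
    congr 1
    omega
  rw [h6] at h5
  exact Nat.eq_of_mul_eq_mul_left (pow_pos hℓ.pos _) h5

/-- Blueprint 7.1: the SECOND INEQUALITY in degree `ℓ`.
[`exists_isKummer_of_prime`: `L = K(a^{1/ℓ})`, `a ∉ Kˣ^ℓ` (`finrank_zpowers`).  `S ⊇ {v ∣ ℓ} ∪ supp a`, `ClS S`.  `exists_T`, `unitsT_le`,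
`key_pow`, `index_sup_powLocS`.  `L/K` is unramified outside `S` (`IsKummer.unram`), split at `T` (`IsKummer.split`), so
`⨅_S PowLoc ℓ v ≤ NlocS K L (S ∪ T)` (`powLoc_le_nloc`, `nloc_of_split`) and `hidx_le_index` for `S ∪ T` +
`Subgroup.index_antitone`-type monotonicity give `hidx K L ≤ ℓ`.] -/
theorem second_ineq_prime (hℓ : ℓ.Prime) (h2 : ℓ ≠ 2) (K : Type*) [Field K] [NumberField K] (L : Type*) [Field L]
    [NumberField L] [Algebra K L] [IsGalois K L] (hμ : HasMu ℓ K) (hdeg : Module.finrank K L = ℓ) :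
    hidx K L ≤ ℓ := by
  classical
  obtain ⟨a, hL⟩ := exists_isKummer_of_prime (L := L) hℓ hμ hdeg
  have ha : a ∉ Pw ℓ K := by
    rcases hL.finrank_zpowers hℓ hμ with h | h
    · rw [hdeg] at h
      exact absurd h.2 hℓ.one_lt.ne'
    · exact h.1
  obtain ⟨S, hsub, hcl⟩ := exists_ClS_superset
    ((finite_ord_ne_zero (ℓ : K)).toFinset ∪ (finite_ord_ne_zero (a : K)).toFinset)
  have hSℓ : ∀ v : Pl K, ord v (ℓ : K) ≠ 0 → v ∈ S := fun v hv => hsub (by simp [hv])
  have haS : a ∈ (S : Set (Pl K)).unit K := by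
    rw [mem_unit_iff]
    intro v hv
    by_contra h
    exact hv (hsub (by simp [h]))
  obtain ⟨T, hST, hcard, haT, hT⟩ := exists_T hℓ h2 hμ S hSℓ a haS ha
  have hU := unitsT_le hℓ h2 hμ S T hSℓ hST hcard a hT
  have hidx' := index_sup_powLocS hℓ h2 hμ S T hSℓ hST hcard
    (fun b hb hbS => key_pow hℓ h2 hμ S T hSℓ hcl hU b hb hbS)
  have hur : ∀ v ∉ S ∪ T, Unram K L v := by
    intro v hv
    have hvS : v ∉ S := fun h => hv (Finset.mem_union_left _ h)
    refine hL.unram hℓ.pos hμ v (by_contra fun h => hvS (hSℓ v h)) ?_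
    rintro _ ⟨k, rfl⟩
    have : ord v (a : K) = 0 := (mem_unit_iff _ a).1 haS v (by simpa using hvS)
    simp only [Units.val_zpow_eq_zpow_val]
    rw [ord_zpow, this, mul_zero]
  have hsplit : ∀ v ∈ T, Split K L v := by
    intro v hv
    refine hL.split hℓ.pos hμ v ?_
    rintro _ ⟨k, rfl⟩
    exact (PowLoc ℓ v).zpow_mem (haT v hv) k
  have hle : (⨅ v ∈ S, PowLoc ℓ v) ≤ NlocS K L ((S ∪ T : Finset (Pl K)) : Set (Pl K)) := by
    intro x hx
    simp only [Subgroup.mem_iInf] at hx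
    simp only [NlocS, Subgroup.mem_iInf]
    intro v hv
    by_cases hvS : v ∈ S
    · have h := powLoc_le_nloc K L v
      rw [hdeg] at h
      exact h (hx v hvS)
    · have hvT : v ∈ T := by
        have : v ∈ S ∨ v ∈ T := by simpa using hv
        exact this.resolve_left hvS
      rw [nloc_of_split K L v (hsplit v hvT)]
      exact Subgroup.mem_top _
  have h1 := hidx_le_index K L (S ∪ T) hur (hcl.mono (by simp))
  refine le_trans h1 ?_
  rw [← hidx']
  have hdvd := Subgroup.index_dvd_of_le (sup_le_sup_left hle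
    (((S ∪ T : Finset (Pl K)) : Set (Pl K)).unit K))
  rw [Finset.coe_union] at hdvd ⊢
  exact Nat.le_of_dvd (by rw [hidx']; exact hℓ.pos) hdvd

end Claimed.Agent.R239.CFT
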