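import Claimed.Agent.R239.CFT.P7b

/-!
# R239 / CFT : package P7c (second inequality for abelian `ℓ`-extensions; HNT and LNI)

Blueprint 7.2-7.4.  Statements by helper97 (frozen), proofs by helper152.
Extra: `second_ineq_aux`, `isCyclic_of_finrank_prime`.
-/

set_option autoImplicit false

namespace Claimed.Agent.R239.CFT

open IsDedekindDomain NumberField

variable {ℓ : ℕ}

theorem HasMu.map {K : Type*} [Field K] (L : Type*) [Field L] [Algebra K L] (h : HasMu ℓ K) : HasMu ℓ L := by
  obtain ⟨ζ, hζ⟩ := h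
  exact ⟨algebraMap K L ζ, hζ.map_of_injective (algebraMap K L).injective⟩

universe v

theorem second_ineq_aux (hℓ : ℓ.Prime) (h2 : ℓ ≠ 2) (K : Type*) [Field K] [NumberField K] (hμ : HasMu ℓ K)
    (k : ℕ) : ∀ (L : Type v) [Field L] [NumberField L] [Algebra K L] [IsAbelianGalois K L],
      Module.finrank K L = ℓ ^ k → hidx K L ≤ Module.finrank K L := by
  induction k with
  | zero =>
    intro L _ _ _ _ hdeg
    rw [pow_zero] at hdeg
    have hcard : Nat.card Gal(L/K) = 1 := by rw [IsGalois.card_aut_eq_finrank, hdeg]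
    have hsub : Subsingleton Gal(L/K) := (Nat.card_eq_one_iff_unique.1 hcard).1
    rw [hidx_eq_one_of_split K L ∅ (fun v _ w _ => Subsingleton.elim _ _), hdeg]
  | succ k ih =>
    intro L _ _ _ _ hdeg
    have : Fact ℓ.Prime := ⟨hℓ⟩
    have hcard : Nat.card Gal(L/K) = ℓ ^ (k + 1) := by rw [IsGalois.card_aut_eq_finrank, hdeg]
    obtain ⟨σ, hσ⟩ := exists_prime_orderOf_dvd_card' (G := Gal(L/K)) ℓ (by
      rw [hcard]; exact dvd_pow_self _ (Nat.succ_ne_zero k))
    let E := IntermediateField.fixedField (Subgroup.zpowers σ)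
    have hEL : Module.finrank E L = ℓ := by
      rw [IntermediateField.finrank_fixedField_eq_card, Nat.card_zpowers, hσ]
    have hKE : Module.finrank K E = ℓ ^ k := by
      have := Module.finrank_mul_finrank K E L
      rw [hEL, hdeg, pow_succ] at this
      exact Nat.eq_of_mul_eq_mul_right hℓ.pos this
    have h1 := hidx_tower K L E
    have h3 := ih E hKE
    have h4 := second_ineq_prime hℓ h2 E L (hμ.map E) hEL
    calc hidx K L ≤ hidx K E * hidx E L := h1
      _ ≤ Module.finrank K E * ℓ := Nat.mul_le_mul h3 h4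
      _ = Module.finrank K L := by rw [hKE, hdeg, pow_succ]


/-- Blueprint 7.2 -/
theorem second_ineq (hℓ : ℓ.Prime) (h2 : ℓ ≠ 2) (K : Type*) [Field K] [NumberField K] (L : Type*) [Field L]
    [NumberField L] [Algebra K L] [IsAbelianGalois K L] (hμ : HasMu ℓ K)
    (hdeg : ∃ k, Module.finrank K L = ℓ ^ k) : hidx K L ≤ Module.finrank K L := by
  obtain ⟨k, hk⟩ := hdeg
  exact second_ineq_aux hℓ h2 K hμ k L hk

/-- Blueprint 7.3 -/
theorem hidx_eq_finrank (hℓ : ℓ.Prime) (h2 : ℓ ≠ 2) (K : Type*) [Field K] [NumberField K] (L : Type*) [Field L]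
    [NumberField L] [Algebra K L] [IsAbelianGalois K L] [IsCyclic Gal(L/K)] (hμ : HasMu ℓ K)
    (hdeg : ∃ k, Module.finrank K L = ℓ ^ k) : hidx K L = Module.finrank K L :=
  haveI := hμ.isTotallyComplex hℓ h2
  le_antisymm (second_ineq hℓ h2 K L hμ hdeg) (first_ineq K L)

/-- Blueprint 7.4: all inequalities in the proof of the first inequality are equalities.  `S` a good set. -/
theorem equalities (hℓ : ℓ.Prime) (h2 : ℓ ≠ 2) (K : Type*) [Field K] [NumberField K] (L : Type*) [Field L]
    [NumberField L] [Algebra K L] [IsAbelianGalois K L] [IsCyclic Gal(L/K)] (hμ : HasMu ℓ K)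
    (hdeg : ∃ k, Module.finrank K L = ℓ ^ k) (S : Finset (Pl K)) (hur : ∀ v ∉ S, Unram K L v)
    (hcl : ClS (S : Set (Pl K))) (hclL : ClS (above K L (S : Set (Pl K)))) :
    (∀ v ∈ S, (Nloc K L v).index = nloc K L v) ∧
      (S : Set (Pl K)).unit K ⊓ NlocS K L (S : Set (Pl K))
        = ((above K L (S : Set (Pl K))).unit L).map (normU K L) := by
  have := hμ.isTotallyComplex hℓ h2
  obtain ⟨h1, h3, h4⟩ := first_ineq_chain K L S hur hcl hclL
  rw [hidx_eq_finrank hℓ h2 K L hμ hdeg] at h1
  set B := (NlocS K L (S : Set (Pl K))).relIndex ((S : Set (Pl K)).unit K) with hB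
  set C := (((above K L (S : Set (Pl K))).unit L).map (normU K L)).relIndex
    ((S : Set (Pl K)).unit K) with hC
  have hn : 0 < Module.finrank K L := Module.finrank_pos
  have hpos : 0 < ∏ v ∈ S, nloc K L v := Finset.prod_pos fun v _ => nloc_pos K L v
  have hC0 : 0 < C := by
    rcases Nat.eq_zero_or_pos C with h | h
    · rw [h, zero_mul] at h3
      omega
    · exact h
  have hBC : B ≤ C := Nat.le_of_dvd hC0 h4
  have hle : ∏ v ∈ S, nloc K L v ≤ ∏ v ∈ S, (Nloc K L v).index :=
    Finset.prod_le_prod' fun v _ => nloc_le_index K L v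
  have hmul : B * Module.finrank K L ≤ C * Module.finrank K L := Nat.mul_le_mul_right _ hBC
  have hprod : ∏ v ∈ S, nloc K L v = ∏ v ∈ S, (Nloc K L v).index := by omega
  have hBC' : B = C := by
    have : B * Module.finrank K L = C * Module.finrank K L := by omega
    exact Nat.eq_of_mul_eq_mul_right hn this
  constructor
  · intro v hv
    by_contra hne
    have hlt : nloc K L v < (Nloc K L v).index :=
      lt_of_le_of_ne (nloc_le_index K L v) (fun h => hne h.symm)
    have := Finset.prod_lt_prod (s := S) (f := fun v => nloc K L v)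
      (g := fun v => (Nloc K L v).index) (fun v _ => nloc_pos K L v)
      (fun v _ => nloc_le_index K L v) ⟨v, hv, hlt⟩
    omega
  · apply le_antisymm
    · have hle1 : ((above K L (S : Set (Pl K))).unit L).map (normU K L) ≤
          (S : Set (Pl K)).unit K ⊓ NlocS K L (S : Set (Pl K)) :=
        le_inf (norm_unit_le K L _) (norm_le_nlocS K L _ _)
      have h5 := Subgroup.relIndex_mul_relIndex _ _ _ hle1
        (inf_le_left : (S : Set (Pl K)).unit K ⊓ NlocS K L (S : Set (Pl K)) ≤ _)
      rw [Subgroup.inf_relIndex_left, ← hB, ← hC, hBC'] at h5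
      have h6 : (((above K L (S : Set (Pl K))).unit L).map (normU K L)).relIndex
          ((S : Set (Pl K)).unit K ⊓ NlocS K L (S : Set (Pl K))) = 1 := by
        have : (((above K L (S : Set (Pl K))).unit L).map (normU K L)).relIndex
          ((S : Set (Pl K)).unit K ⊓ NlocS K L (S : Set (Pl K))) * C = 1 * C := by rw [h5, one_mul]
        exact Nat.eq_of_mul_eq_mul_right hC0 this
      exact Subgroup.relIndex_eq_one.1 h6
    · exact le_inf (norm_unit_le K L _) (norm_le_nlocS K L _ _)

/-- local norm index for cyclic extensions of `ℓ`-power degree -/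
theorem lni_cyclic (hℓ : ℓ.Prime) (h2 : ℓ ≠ 2) (K : Type*) [Field K] [NumberField K] (L : Type*) [Field L]
    [NumberField L] [Algebra K L] [IsAbelianGalois K L] [IsCyclic Gal(L/K)] (hμ : HasMu ℓ K)
    (hdeg : ∃ k, Module.finrank K L = ℓ ^ k) (v : Pl K) : (Nloc K L v).index = nloc K L v := by
  obtain ⟨S, hsub, hur, hcl, hclL⟩ := exists_good_set K L {v}
  exact (equalities hℓ h2 K L hμ hdeg S hur hcl hclL).1 v (hsub (Finset.mem_singleton_self v))

/-- Hasse norm theorem for cyclic extensions of `ℓ`-power degree -/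
theorem hnt_cyclic (hℓ : ℓ.Prime) (h2 : ℓ ≠ 2) (K : Type*) [Field K] [NumberField K] (L : Type*) [Field L]
    [NumberField L] [Algebra K L] [IsAbelianGalois K L] [IsCyclic Gal(L/K)] (hμ : HasMu ℓ K)
    (hdeg : ∃ k, Module.finrank K L = ℓ ^ k) (a : Kˣ) (h : ∀ v : Pl K, a ∈ Nloc K L v) :
    ∃ b : Lˣ, Algebra.norm K (b : L) = (a : K) := by
  obtain ⟨S, hsub, hur, hcl, hclL⟩ := exists_good_set K L (finite_ord_ne_zero (a : K)).toFinset
  have h1 : a ∈ (S : Set (Pl K)).unit K ⊓ NlocS K L (S : Set (Pl K)) := by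
    constructor
    · show a ∈ (S : Set (Pl K)).unit K
      rw [mem_unit_iff]
      intro v hv
      by_contra hne
      exact hv (hsub (by simp [hne]))
    · show a ∈ NlocS K L (S : Set (Pl K))
      simp only [NlocS, Subgroup.mem_iInf]
      exact fun v _ => h v
  rw [(equalities hℓ h2 K L hμ hdeg S hur hcl hclL).2] at h1
  obtain ⟨b, -, hb⟩ := h1
  exact ⟨b, congrArg Units.val hb⟩

theorem isCyclic_of_finrank_prime (hℓ : ℓ.Prime) (K : Type*) [Field K] (L : Type*) [Field L]
    [Algebra K L] [IsGalois K L] (hdeg : Module.finrank K L = ℓ) : IsCyclic Gal(L/K) := by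
  have : Fact ℓ.Prime := ⟨hℓ⟩
  have : FiniteDimensional K L := Module.finite_of_finrank_pos (hdeg ▸ hℓ.pos)
  exact isCyclic_of_prime_card (p := ℓ) (by rw [IsGalois.card_aut_eq_finrank, hdeg])

/-- OUTPUT: Hasse norm theorem in degree `ℓ` -/
theorem hnt (hℓ : ℓ.Prime) (h2 : ℓ ≠ 2) (K : Type*) [Field K] [NumberField K] (L : Type*) [Field L]
    [NumberField L] [Algebra K L] [IsGalois K L] (hμ : HasMu ℓ K) (hdeg : Module.finrank K L = ℓ) (a : Kˣ)
    (h : ∀ v : Pl K, a ∈ Nloc K L v) : ∃ b : Lˣ, Algebra.norm K (b : L) = (a : K) := by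
  have := isCyclic_of_finrank_prime hℓ K L hdeg
  have := IsAbelianGalois.of_isCyclic (K := K) (L := L)
  exact hnt_cyclic hℓ h2 K L hμ ⟨1, by rw [hdeg, pow_one]⟩ a h

/-- OUTPUT: local norm index in degree `ℓ` -/
theorem lni (hℓ : ℓ.Prime) (h2 : ℓ ≠ 2) (K : Type*) [Field K] [NumberField K] (L : Type*) [Field L]
    [NumberField L] [Algebra K L] [IsGalois K L] (hμ : HasMu ℓ K) (hdeg : Module.finrank K L = ℓ) (v : Pl K) :
    (Nloc K L v).index = nloc K L v := by
  have := isCyclic_of_finrank_prime hℓ K L hdeg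
  have := IsAbelianGalois.of_isCyclic (K := K) (L := L)
  exact lni_cyclic hℓ h2 K L hμ ⟨1, by rw [hdeg, pow_one]⟩ v

end Claimed.Agent.R239.CFT
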