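import Mathlib

/-!
# R239 / CFT : package P8b (elementary number theory for Artin's lemma)

Output statements of the package (see `Blueprint.lean`, 8.4).  Owner helper278.  No sorry in this file.
Names and statements of helper97's skeleton are kept verbatim; auxiliary lemmas have the prefix `nt_`.
-/

set_option autoImplicit false

namespace Claimed.Agent.R239.CFT

/-- `ℓ ^ 2` does not divide `1 + x + ... + x ^ (ℓ - 1)`, `x = a ^ ℓ ^ j`, `j ≥ 1` -/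
lemma nt_sq_not_dvd {ℓ : ℕ} (hℓ : ℓ.Prime) (a j : ℕ) (hj : 1 ≤ j) :
    ¬ ℓ ^ 2 ∣ ∑ i ∈ Finset.range ℓ, (a ^ ℓ ^ j) ^ i := by
  intro h
  have : Fact ℓ.Prime := ⟨hℓ⟩
  have h1 : ℓ ∣ ∑ i ∈ Finset.range ℓ, (a ^ ℓ ^ j) ^ i := dvd_trans (dvd_pow_self ℓ two_ne_zero) h
  have h2 : (∑ i ∈ Finset.range ℓ, ((a : ZMod ℓ)) ^ i) = 0 := by
    have := (ZMod.natCast_eq_zero_iff _ _).2 h1
    push_cast at this
    rwa [ZMod.pow_card_pow] at this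
  have h3 : (a : ZMod ℓ) = 1 := by
    have := geom_sum_mul (a : ZMod ℓ) ℓ
    rw [h2, zero_mul, ZMod.pow_card] at this
    exact (sub_eq_zero.1 this.symm)
  have h4 : ((ℓ : ℕ) : ℤ) ∣ (a : ℤ) - 1 := by
    rw [← ZMod.intCast_zmod_eq_zero_iff_dvd]
    push_cast
    rw [h3, sub_self]
  have h5 := dvd_sub_pow_of_dvd_sub h4 j
  rw [one_pow] at h5
  have h6 : ((ℓ ^ 2 : ℕ) : ℤ) ∣ (a : ℤ) ^ ℓ ^ j - 1 := by
    refine dvd_trans ?_ h5
    push_cast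
    exact pow_dvd_pow _ (by omega)
  have h7 : ((a ^ ℓ ^ j : ℕ) : ZMod (ℓ ^ 2)) = 1 := by
    have := (ZMod.intCast_zmod_eq_zero_iff_dvd _ _).2 h6
    push_cast at this
    push_cast
    exact sub_eq_zero.1 this
  have h8 := (ZMod.natCast_eq_zero_iff _ _).2 h
  rw [Nat.cast_sum] at h8
  simp only [Nat.cast_pow (a ^ ℓ ^ j), h7, one_pow, Finset.sum_const, Finset.card_range,
    nsmul_eq_mul, mul_one] at h8
  rw [ZMod.natCast_eq_zero_iff] at h8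
  have h9 := Nat.le_of_dvd hℓ.pos h8
  have := hℓ.two_le
  nlinarith

lemma nt_lt_geom {ℓ : ℕ} (hℓ : ℓ.Prime) (x : ℕ) (hx : 2 ≤ x) :
    ℓ < ∑ i ∈ Finset.range ℓ, x ^ i := by
  have h1 : ∑ i ∈ Finset.range ℓ, 1 < ∑ i ∈ Finset.range ℓ, x ^ i := by
    apply Finset.sum_lt_sum
    · intro i _
      exact Nat.one_le_pow _ _ (by omega)
    · exact ⟨1, Finset.mem_range.2 hℓ.one_lt, by rw [pow_one]; omega⟩
  simpa using h1

/-- a prime whose order is exactly `ℓ ^ (j + 1)` -/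
lemma nt_exists_prime_order {ℓ : ℕ} (hℓ : ℓ.Prime) (a : ℕ) (ha : 2 ≤ a) (j : ℕ) (hj : 1 ≤ j) :
    ∃ p : ℕ, p.Prime ∧ ¬ p ∣ a ∧ orderOf (a : ZMod p) = ℓ ^ (j + 1) := by
  set x := a ^ ℓ ^ j with hx
  set T := ∑ i ∈ Finset.range ℓ, x ^ i with hT
  have hx2 : 2 ≤ x := le_trans ha (Nat.le_self_pow (pow_ne_zero _ hℓ.ne_zero) a)
  have hTl : ℓ < T := nt_lt_geom hℓ x hx2
  have hsq : ¬ ℓ ^ 2 ∣ T := nt_sq_not_dvd hℓ a j hj
  obtain ⟨p, hp, hpT, hpl⟩ : ∃ p : ℕ, p.Prime ∧ p ∣ T ∧ p ≠ ℓ := by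
    by_contra hcon
    push Not at hcon
    have h1 := Nat.eq_prime_pow_of_unique_prime_dvd (n := T) (p := ℓ) (by omega)
      (fun {d} hd hdT => hcon d hd hdT)
    set e := T.primeFactorsList.length
    have he : e ≤ 1 := by
      by_contra h
      exact hsq (by rw [h1]; exact pow_dvd_pow _ (by omega))
    have : T ≤ ℓ := by
      rw [h1]
      calc ℓ ^ e ≤ ℓ ^ 1 := Nat.pow_le_pow_right hℓ.pos he
        _ = ℓ := pow_one _
    omega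
  have : Fact p.Prime := ⟨hp⟩
  have : Fact ℓ.Prime := ⟨hℓ⟩
  have hT0 : ∑ i ∈ Finset.range ℓ, ((a : ZMod p) ^ ℓ ^ j) ^ i = 0 := by
    have := (ZMod.natCast_eq_zero_iff _ _).2 hpT
    rw [hT, hx] at this
    push_cast at this
    exact this
  have h1 : (a : ZMod p) ^ ℓ ^ (j + 1) = 1 := by
    have := geom_sum_mul ((a : ZMod p) ^ ℓ ^ j) ℓ
    rw [hT0, zero_mul, ← pow_mul, ← pow_succ] at this
    exact (sub_eq_zero.1 this.symm)
  have h2 : ¬ (a : ZMod p) ^ ℓ ^ j = 1 := by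
    intro h
    rw [h] at hT0
    simp only [one_pow, Finset.sum_const, Finset.card_range, nsmul_eq_mul, mul_one] at hT0
    rw [ZMod.natCast_eq_zero_iff] at hT0
    exact hpl ((Nat.prime_dvd_prime_iff_eq hp hℓ).1 hT0)
  refine ⟨p, hp, ?_, orderOf_eq_prime_pow h2 h1⟩
  intro hpa
  rw [(ZMod.natCast_eq_zero_iff _ _).2 hpa, zero_pow (pow_ne_zero _ hℓ.ne_zero)] at h1
  exact zero_ne_one h1

/-- for `a ≥ 2` there are primes `p` outside any finite set such that the order of `a` modulo `p` is a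
power `ℓ ^ r'` with `r' ≥ r`  (prime divisors of the cyclotomic value `Φ_{ℓ^r'}(a)`) -/
theorem exists_prime_orderOf_eq_pow {ℓ : ℕ} (hℓ : ℓ.Prime) (a : ℕ) (ha : 2 ≤ a) (r : ℕ) (B : Finset ℕ) :
    ∃ p r' : ℕ, p.Prime ∧ p ∉ B ∧ r ≤ r' ∧ ¬ p ∣ a ∧ orderOf (a : ZMod p) = ℓ ^ r' := by
  choose f hf using fun j : ℕ => nt_exists_prime_order hℓ a ha (r + 1 + j) (by omega)
  have hinj : Function.Injective f := by
    intro i j hij
    have h1 := (hf i).2.2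
    have h2 := (hf j).2.2
    rw [hij, h2] at h1
    have := Nat.pow_right_injective hℓ.two_le h1
    omega
  obtain ⟨p, ⟨j, rfl⟩, hpB⟩ := (Set.infinite_range_of_injective hinj).exists_notMem_finset B
  exact ⟨f j, r + 1 + j + 1, (hf j).1, hpB, by omega, (hf j).2.1, (hf j).2.2⟩

/-- the Chinese remainder theorem for unit groups -/
lemma nt_crt_units {m n : ℕ} (h : m.Coprime n) :
    ∃ E : (ZMod (m * n))ˣ ≃* (ZMod m)ˣ × (ZMod n)ˣ, ∀ (u : (ZMod (m * n))ˣ) (c : ℕ),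
      (u : ZMod (m * n)) = c → ((E u).1 : ZMod m) = c ∧ ((E u).2 : ZMod n) = c := by
  refine ⟨(Units.mapEquiv (ZMod.chineseRemainder h).toMulEquiv).trans MulEquiv.prodUnits,
    fun u c hu => ?_⟩
  have h1 : ZMod.chineseRemainder h (u : ZMod (m * n)) = ((c : ZMod m), (c : ZMod n)) := by
    rw [hu, map_natCast]
    rfl
  exact ⟨congrArg Prod.fst h1, congrArg Prod.snd h1⟩

lemma nt_indep {Z : Type*} [CommGroup Z] (a b : Z) (n : ℕ) (ha : n ∣ orderOf a) (hb : n ∣ orderOf b)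
    (h : Subgroup.zpowers a ⊓ Subgroup.zpowers b = ⊥) (x y : ℤ) (hxy : b ^ x * a ^ y = 1) :
    (n : ℤ) ∣ x ∧ (n : ℤ) ∣ y := by
  have h1 : b ^ x = a ^ (-y) := by
    rw [zpow_neg]
    exact eq_inv_of_mul_eq_one_left hxy
  have h2 : b ^ x ∈ Subgroup.zpowers a ⊓ Subgroup.zpowers b :=
    ⟨h1 ▸ Subgroup.zpow_mem_zpowers a (-y), Subgroup.zpow_mem_zpowers b x⟩
  rw [h, Subgroup.mem_bot] at h2
  have h3 : a ^ y = 1 := by rwa [h2, one_mul] at hxy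
  exact ⟨dvd_trans (Int.natCast_dvd_natCast.2 hb) (orderOf_dvd_iff_zpow_eq_one.2 h2),
    dvd_trans (Int.natCast_dvd_natCast.2 ha) (orderOf_dvd_iff_zpow_eq_one.2 h3)⟩

/-- Blueprint 8.4 -/
theorem artin_nt {ℓ : ℕ} (hℓ : ℓ.Prime) (a : ℕ) (ha : 2 ≤ a) (k : ℕ) (B : Finset ℕ) :
    ∃ (m : ℕ) (a' b : (ZMod m)ˣ), 1 < m ∧ (∀ q ∈ B, q.Prime → ¬ q ∣ m) ∧ ((a' : ZMod m) = (a : ZMod m)) ∧
      ℓ ^ k ∣ orderOf a' ∧ ℓ ^ k ∣ orderOf b ∧ Subgroup.zpowers a' ⊓ Subgroup.zpowers b = ⊥ := by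
  obtain ⟨p, r₁, hp, hpB, hr₁, hpa, ho₁⟩ := exists_prime_orderOf_eq_pow hℓ a ha k B
  obtain ⟨p', r₂, hp', hp'B, hr₂, hp'a, ho₂⟩ := exists_prime_orderOf_eq_pow hℓ a ha r₁ (insert p B)
  have hne : p' ≠ p := fun h => hp'B (h ▸ Finset.mem_insert_self _ _)
  have hp'B' : p' ∉ B := fun h => hp'B (Finset.mem_insert_of_mem h)
  have hcop : p.Coprime p' := (Nat.coprime_primes hp hp').2 hne.symm
  have hc1 : a.Coprime p := ((Nat.Prime.coprime_iff_not_dvd hp).2 hpa).symm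
  have hc2 : a.Coprime p' := ((Nat.Prime.coprime_iff_not_dvd hp').2 hp'a).symm
  obtain ⟨E, hE⟩ := nt_crt_units hcop
  set a₁ : (ZMod p)ˣ := ZMod.unitOfCoprime a hc1 with ha₁
  set a₂ : (ZMod p')ˣ := ZMod.unitOfCoprime a hc2 with ha₂
  have hoa₁ : orderOf a₁ = ℓ ^ r₁ := by
    rw [← orderOf_units, ha₁, ZMod.coe_unitOfCoprime, ho₁]
  have hoa₂ : orderOf a₂ = ℓ ^ r₂ := by
    rw [← orderOf_units, ha₂, ZMod.coe_unitOfCoprime, ho₂]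
  set a' : (ZMod (p * p'))ˣ := ZMod.unitOfCoprime a (Nat.Coprime.mul_right hc1 hc2) with ha'
  have hEa : E a' = (a₁, a₂) := by
    apply Prod.ext
    · apply Units.ext
      rw [(hE a' a (ZMod.coe_unitOfCoprime _ _)).1, ha₁, ZMod.coe_unitOfCoprime]
    · apply Units.ext
      rw [(hE a' a (ZMod.coe_unitOfCoprime _ _)).2, ha₂, ZMod.coe_unitOfCoprime]
  refine ⟨p * p', a', E.symm (a₁, 1), ?_, ?_, ZMod.coe_unitOfCoprime _ _, ?_, ?_, ?_⟩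
  · exact Nat.one_lt_mul_iff.2 ⟨hp.pos, hp'.pos, Or.inl hp.one_lt⟩
  · intro q hq hqp hdvd
    rcases (Nat.Prime.dvd_mul hqp).1 hdvd with h | h
    · exact hpB ((Nat.prime_dvd_prime_iff_eq hqp hp).1 h ▸ hq)
    · exact hp'B' ((Nat.prime_dvd_prime_iff_eq hqp hp').1 h ▸ hq)
  · have h1 := orderOf_map_dvd ((MonoidHom.fst _ _).comp E.toMonoidHom) a'
    have h2 : ((MonoidHom.fst _ _).comp E.toMonoidHom) a' = a₁ := by
      change (E a').1 = a₁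
      rw [hEa]
    rw [h2, hoa₁] at h1
    exact dvd_trans (pow_dvd_pow _ hr₁) h1
  · have h1 := orderOf_map_dvd ((MonoidHom.fst _ _).comp E.toMonoidHom) (E.symm (a₁, 1))
    have h2 : ((MonoidHom.fst _ _).comp E.toMonoidHom) (E.symm (a₁, 1)) = a₁ := by
      change (E (E.symm (a₁, 1))).1 = a₁
      rw [E.apply_symm_apply]
    rw [h2, hoa₁] at h1
    exact dvd_trans (pow_dvd_pow _ hr₁) h1
  · rw [eq_bot_iff]
    rintro z ⟨hz1, hz2⟩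
    obtain ⟨i, rfl⟩ := Subgroup.mem_zpowers_iff.1 hz1
    obtain ⟨j, hj⟩ := Subgroup.mem_zpowers_iff.1 hz2
    rw [Subgroup.mem_bot]
    have h1 := congrArg E hj
    rw [map_zpow, map_zpow, E.apply_symm_apply, hEa] at h1
    simp only [Prod.pow_mk, one_zpow, Prod.mk.injEq] at h1
    have h2 : ((ℓ ^ r₂ : ℕ) : ℤ) ∣ i := by
      rw [← hoa₂]
      exact orderOf_dvd_iff_zpow_eq_one.2 h1.2.symm
    have h3 : a₁ ^ i = 1 := by
      rw [← orderOf_dvd_iff_zpow_eq_one, hoa₁]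
      exact dvd_trans (Int.natCast_dvd_natCast.2 (pow_dvd_pow _ hr₂)) h2
    apply E.injective
    rw [map_zpow, hEa, map_one]
    simp only [Prod.pow_mk, h3, ← h1.2]
    rfl

/-- Blueprint 8.4 for two integers and one modulus.  [`artin_nt` for `a₁` and `B`, then for `a₂` and `B ∪ primeFactors m₁`; `m = m₁ m₂`,
`b = (b₁, b₂)` by `ZMod.chineseRemainder`; a relation `b ^ x * uᵢ ^ y = 1` mod `m` implies the same relation mod `mᵢ`, where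
`⟨a'⟩ ⊓ ⟨b⟩ = ⊥` gives `b ^ x = 1 = a' ^ y`.] -/
theorem artin_nt2 {ℓ : ℕ} (hℓ : ℓ.Prime) (a₁ a₂ : ℕ) (h₁ : 2 ≤ a₁) (h₂ : 2 ≤ a₂) (k : ℕ) (B : Finset ℕ) :
    ∃ (m : ℕ) (u₁ u₂ b : (ZMod m)ˣ), 1 < m ∧ (∀ q ∈ B, q.Prime → ¬ q ∣ m) ∧
      ((u₁ : ZMod m) = (a₁ : ZMod m)) ∧ ((u₂ : ZMod m) = (a₂ : ZMod m)) ∧
      (∀ x y : ℤ, b ^ x * u₁ ^ y = 1 → ((ℓ ^ k : ℕ) : ℤ) ∣ x ∧ ((ℓ ^ k : ℕ) : ℤ) ∣ y) ∧
      (∀ x y : ℤ, b ^ x * u₂ ^ y = 1 → ((ℓ ^ k : ℕ) : ℤ) ∣ x ∧ ((ℓ ^ k : ℕ) : ℤ) ∣ y) := by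
  obtain ⟨m₁, c₁, b₁, hm₁, hB₁, hc₁, hoc₁, hob₁, hi₁⟩ := artin_nt hℓ a₁ h₁ k (B ∪ a₂.primeFactors)
  obtain ⟨m₂, c₂, b₂, hm₂, hB₂, hc₂, hoc₂, hob₂, hi₂⟩ :=
    artin_nt hℓ a₂ h₂ k (B ∪ m₁.primeFactors ∪ a₁.primeFactors)
  have hcop : m₁.Coprime m₂ := by
    apply Nat.coprime_of_dvd
    intro q hq hq1 hq2
    exact hB₂ q (by simp [hq, hq1]; omega) hq hq2
  have h11 : a₁.Coprime m₁ := by
    rw [← ZMod.isUnit_iff_coprime, ← hc₁]
    exact c₁.isUnit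
  have h22 : a₂.Coprime m₂ := by
    rw [← ZMod.isUnit_iff_coprime, ← hc₂]
    exact c₂.isUnit
  have h12 : a₁.Coprime m₂ := by
    apply Nat.coprime_of_dvd
    intro q hq hq1 hq2
    exact hB₂ q (by simp [hq, hq1]; omega) hq hq2
  have h21 : a₂.Coprime m₁ := by
    apply Nat.coprime_of_dvd
    intro q hq hq1 hq2
    exact hB₁ q (by simp [hq, hq1]; omega) hq hq2
  obtain ⟨E, hE⟩ := nt_crt_units hcop
  set u₁ : (ZMod (m₁ * m₂))ˣ := ZMod.unitOfCoprime a₁ (Nat.Coprime.mul_right h11 h12) with hu₁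
  set u₂ : (ZMod (m₁ * m₂))ˣ := ZMod.unitOfCoprime a₂ (Nat.Coprime.mul_right h21 h22) with hu₂
  have hE1 : (E u₁).1 = c₁ := by
    apply Units.ext
    rw [(hE u₁ a₁ (ZMod.coe_unitOfCoprime _ _)).1, hc₁]
  have hE2 : (E u₂).2 = c₂ := by
    apply Units.ext
    rw [(hE u₂ a₂ (ZMod.coe_unitOfCoprime _ _)).2, hc₂]
  refine ⟨m₁ * m₂, u₁, u₂, E.symm (b₁, b₂), ?_, ?_, ZMod.coe_unitOfCoprime _ _,
    ZMod.coe_unitOfCoprime _ _, ?_, ?_⟩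
  · exact Nat.one_lt_mul_iff.2 ⟨by omega, by omega, Or.inl hm₁⟩
  · intro q hq hqp hdvd
    rcases (Nat.Prime.dvd_mul hqp).1 hdvd with h | h
    · exact hB₁ q (by simp [hq]) hqp h
    · exact hB₂ q (by simp [hq]) hqp h
  · intro x y hxy
    have h1 := congrArg (fun z => (E z).1) hxy
    simp only [map_mul, map_zpow, E.apply_symm_apply, map_one, Prod.fst_mul, Prod.pow_fst,
      Prod.fst_one, hE1] at h1
    exact nt_indep c₁ b₁ _ hoc₁ hob₁ hi₁ x y h1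
  · intro x y hxy
    have h1 := congrArg (fun z => (E z).2) hxy
    simp only [map_mul, map_zpow, E.apply_symm_apply, map_one, Prod.snd_mul, Prod.pow_snd,
      Prod.snd_one, hE2] at h1
    exact nt_indep c₂ b₂ _ hoc₂ hob₂ hi₂ x y h1

/-- the group theory of Artin's lemma: `G` of exponent `n`, `Z` abelian, `a b : Z` independent modulo `n`;
`H = ⟨(s, b), (t, a)⟩ ≤ G × Z` meets `G × 1` trivially. -/
theorem artin_group {G Z : Type*} [CommGroup G] [CommGroup Z] (n : ℕ) (s t : G)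
    (hn : ∀ g : G, g ^ n = 1) (a b : Z) (hab : ∀ x y : ℤ, b ^ x * a ^ y = 1 → (n : ℤ) ∣ x ∧ (n : ℤ) ∣ y) :
    ∀ x ∈ Subgroup.closure ({(s, b), (t, a)} : Set (G × Z)), x.2 = 1 → x.1 = 1 := by
  intro x hx h2
  obtain ⟨i, j, rfl⟩ := Subgroup.mem_closure_pair.1 hx
  simp only [Prod.pow_mk, Prod.mk_mul_mk] at h2 ⊢
  obtain ⟨⟨i', rfl⟩, ⟨j', rfl⟩⟩ := hab i j h2
  rw [zpow_mul, zpow_mul, zpow_natCast, zpow_natCast, hn, hn, one_zpow, one_zpow, one_mul]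

end Claimed.Agent.R239.CFT
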