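import Mathlib

/-!
# R239 / CFT : package P8c0 (pure algebra for the reciprocity law)

(1) an index lemma, (2) cyclic quotients, (3) irreducibility of cyclotomic polynomials over a number field whose discriminant is prime to `m`.
The owner of the package owns this file and replaces the `sorry`s in place; names and statements are frozen (ask helper97).
-/

set_option autoImplicit false

namespace Claimed.Agent.R239.CFT

/-- `φ` maps `I` onto the finite group `G`, kills `H ≤ I`, and `(I : H) ≤ card G`  ⟹  `ker φ ∩ I = H`. -/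
theorem mem_of_map_eq_zero {A G : Type*} [AddCommGroup A] [AddCommGroup G] [Finite G] (φ : A →+ G)
    (I H : AddSubgroup A) (hHI : H ≤ I) (hsurj : ∀ g : G, ∃ D ∈ I, φ D = g) (hker : ∀ D ∈ H, φ D = 0)
    (hidx : H.relIndex I ≤ Nat.card G) (h0 : H.relIndex I ≠ 0) {D : A} (hD : D ∈ I) (h : φ D = 0) :
    D ∈ H := by
  have hHK : H ≤ φ.ker ⊓ I := le_inf (fun x hx => AddMonoidHom.mem_ker.mpr (hker x hx)) hHI
  have h1 : H.relIndex (φ.ker ⊓ I) * (φ.ker ⊓ I).relIndex I = H.relIndex I :=
    AddSubgroup.relIndex_mul_relIndex _ _ _ hHK inf_le_right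
  have h2 : (φ.ker ⊓ I).relIndex I = Nat.card G := by
    rw [AddSubgroup.inf_relIndex_right, AddSubgroup.relIndex_ker]
    have : I.map φ = ⊤ := by
      rw [eq_top_iff]
      intro g _
      obtain ⟨D, hD, rfl⟩ := hsurj g
      exact AddSubgroup.mem_map_of_mem _ hD
    rw [this]
    exact Nat.card_congr AddSubgroup.topEquiv.toEquiv
  have hpos : 0 < Nat.card G := Nat.card_pos
  have h3 : H.relIndex (φ.ker ⊓ I) = 1 := by
    rw [h2] at h1
    have h4 : H.relIndex (φ.ker ⊓ I) ≠ 0 := by
      intro h5
      rw [h5, zero_mul] at h1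
      exact h0 h1.symm
    have h5 : H.relIndex (φ.ker ⊓ I) * Nat.card G ≤ 1 * Nat.card G := by
      rw [h1, one_mul]; exact hidx
    have := Nat.le_of_mul_le_mul_right h5 hpos
    omega
  exact (AddSubgroup.relIndex_eq_one.mp h3) ⟨AddMonoidHom.mem_ker.mpr h, hD⟩

/-- an element of a finite abelian group which dies in every cyclic quotient is trivial
[`CommGroup.exists_apply_ne_one_of_hasEnoughRootsOfUnity` with values in `ℂ`; `N = ker`] -/
theorem eq_one_of_forall_cyclic_quotient {G : Type*} [CommGroup G] [Finite G] (g : G)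
    (h : ∀ N : Subgroup G, IsCyclic (G ⧸ N) → g ∈ N) : g = 1 := by
  by_contra hg
  obtain ⟨φ, hφ⟩ := CommGroup.exists_apply_ne_one_of_hasEnoughRootsOfUnity G ℂ hg
  have hc : IsCyclic (G ⧸ φ.ker) := by
    apply isCyclic_of_injective_ringHom ((Units.coeHom ℂ).comp (QuotientGroup.kerLift φ))
    intro a b hab
    exact QuotientGroup.kerLift_injective φ (Units.ext hab)
  exact hφ (MonoidHom.mem_ker.mp (h _ hc))

open IntermediateField NumberField in
/-- `Φ_m` is irreducible over a number field whose discriminant is prime to `m` (idea of helper299).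
[In `Ω := CyclotomicField m L`, over `ℚ`: `K₁ := ℚ⟮ζ⟯` (cyclotomic, Galois, `IsCyclotomicExtension.Rat.natAbs_discr`: only primes dividing `m`),
`K₂ :=` the image of `L` (`NumberField.discr_eq_discr_of_algEquiv`); `NumberField.linearDisjoint_of_isGalois_isCoprime_discr`; so
`[Ω : L] = [K₁ K₂ : K₂] = [K₁ : ℚ] = φ(m)`; `minpoly L ζ ∣ cyclotomic m L`, both monic of degree `φ(m)`.
Compare the proof of `IsCyclotomicExtension.Rat.discr` in Mathlib.] -/
theorem cyclotomic_irreducible_of_coprime_discr (L : Type*) [Field L] [NumberField L] (m : ℕ) [NeZero m]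
    (hm : Nat.Coprime m (NumberField.discr L).natAbs) :
    Irreducible (Polynomial.cyclotomic m L) := by
  let Ω := CyclotomicField m L
  have : IsCyclotomicExtension {m} L Ω := inferInstance
  have : NumberField Ω := IsCyclotomicExtension.numberField {m} L Ω
  have hζ : IsPrimitiveRoot (IsCyclotomicExtension.zeta m L Ω) m :=
    IsCyclotomicExtension.zeta_spec m L Ω
  set ζ : Ω := IsCyclotomicExtension.zeta m L Ω with hζdef
  let K₁ : IntermediateField ℚ Ω := ℚ⟮ζ⟯
  let K₂ : IntermediateField ℚ Ω := (IsScalarTower.toAlgHom ℚ L Ω).fieldRange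
  have hcyc : IsCyclotomicExtension {m} ℚ K₁ := hζ.intermediateField_adjoin_isCyclotomicExtension ℚ
  have : IsGalois ℚ K₁ := IsCyclotomicExtension.isGalois {m} ℚ K₁
  let e : L ≃ₐ[ℚ] K₂ := AlgEquiv.ofInjectiveField (IsScalarTower.toAlgHom ℚ L Ω)
  have hd2 : discr K₂ = discr L := (discr_eq_discr_of_algEquiv L e).symm
  have hcop : IsCoprime (discr K₁) (discr K₂) := by
    rw [Int.isCoprime_iff_nat_coprime, hd2, IsCyclotomicExtension.Rat.natAbs_discr m K₁]
    refine Nat.Coprime.coprime_div_left ?_ (Nat.prod_primeFactors_pow_totient_ediv_dvd (NeZero.pos _))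
    exact Nat.Coprime.pow_left _ hm
  have hdisj : K₁.LinearDisjoint K₂ := linearDisjoint_of_isGalois_isCoprime_discr _ _ _ hcop
  have htop : K₁ ⊔ K₂ = ⊤ := by
    rw [eq_top_iff]
    intro x hxt
    clear hxt
    have hx : x ∈ Algebra.adjoin L {ζ} := by
      rw [IsCyclotomicExtension.adjoin_primitive_root_eq_top hζ]
      trivial
    induction hx using Algebra.adjoin_induction with
    | mem y hy =>
      rw [Set.mem_singleton_iff] at hy
      subst hy
      exact (le_sup_left : K₁ ≤ K₁ ⊔ K₂) (mem_adjoin_simple_self ℚ _)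
    | algebraMap r =>
      exact (le_sup_right : K₂ ≤ K₁ ⊔ K₂) ⟨r, rfl⟩
    | add y z _ _ hy hz => exact add_mem hy hz
    | mul y z _ _ hy hz => exact mul_mem hy hz
  have hfr : Module.finrank L Ω = m.totient := by
    have h1 := hdisj.finrank_sup
    rw [htop, finrank_top', IsCyclotomicExtension.Rat.finrank m K₁, ← e.toLinearEquiv.finrank_eq,
      ← Module.finrank_mul_finrank ℚ L Ω, mul_comm] at h1
    exact Nat.eq_of_mul_eq_mul_right Module.finrank_pos h1
  have hint : IsIntegral L ζ := Algebra.IsIntegral.isIntegral ζ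
  have hdeg : (minpoly L ζ).natDegree = m.totient := by
    rw [← hfr, (hζ.powerBasis L).finrank, IsPrimitiveRoot.powerBasis_dim]
  have hdvd : minpoly L ζ ∣ Polynomial.cyclotomic m L := by
    apply minpoly.dvd
    rw [Polynomial.aeval_def, Polynomial.eval₂_eq_eval_map, Polynomial.map_cyclotomic]
    exact hζ.isRoot_cyclotomic (NeZero.pos m)
  have heq : minpoly L ζ = Polynomial.cyclotomic m L := by
    symm
    apply Polynomial.eq_of_monic_of_dvd_of_natDegree_le (minpoly.monic hint)
      (Polynomial.cyclotomic.monic m L) hdvd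
    rw [hdeg, Polynomial.natDegree_cyclotomic]
  rw [← heq]
  exact minpoly.irreducible hint

end Claimed.Agent.R239.CFT
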