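import Claimed.Agent.R239.CFT.P8a

/-!
# R239 / CFT : package P8c1 (the extension `Ω = L(ζ_m)` of `K`)

`K ⊆ L ⊆ Ω`, `L/K` abelian, `Ω = L(ζ_m)`.
Proved by helper252 (own part free of gaps; uses `unram_cyclotomic`, `frob_zeta` of P8a).  NOTE: `isAbelianGalois_cyclo_top` now takes `m`
explicitly (`isAbelianGalois_cyclo_top m K L Ω`): without `include m` the cyclotomic hypothesis was not part of the statement.
Extra: `isGalois_cyclo_top m K L Ω`.
-/

set_option autoImplicit false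
set_option linter.unusedSectionVars false

namespace Claimed.Agent.R239.CFT

open IsDedekindDomain NumberField

variable (m : ℕ) [NeZero m] (K : Type*) [Field K] [NumberField K] (L : Type*) [Field L] [NumberField L]
  [Algebra K L] (Ω : Type*) [Field Ω] [NumberField Ω] [Algebra K Ω] [Algebra L Ω] [IsScalarTower K L Ω]

/-- `γ ↦ (γ|_L, χ_m(γ))` -/
noncomputable def galCyc [Normal K L] {ζ : Ω} (hζ : IsPrimitiveRoot ζ m) : Gal(Ω/K) →* Gal(L/K) × (ZMod m)ˣ :=
  (AlgEquiv.restrictNormalHom (F := K) (K₁ := Ω) L).prod (hζ.autToPow K)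

variable [IsCyclotomicExtension {m} L Ω]

theorem galCyc_injective [Normal K L] {ζ : Ω} (hζ : IsPrimitiveRoot ζ m) :
    Function.Injective (galCyc m K L Ω hζ) := by
  rw [injective_iff_map_eq_one]
  intro σ hσ
  have h1 : AlgEquiv.restrictNormalHom (F := K) (K₁ := Ω) L σ = 1 := congrArg Prod.fst hσ
  have h2 : hζ.autToPow K σ = 1 := congrArg Prod.snd hσ
  have h3 : ∀ x : L, σ (algebraMap L Ω x) = algebraMap L Ω x := by
    intro x
    have := AlgEquiv.restrictNormal_commutes σ L x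
    rw [← this]
    change algebraMap L Ω (AlgEquiv.restrictNormalHom (F := K) (K₁ := Ω) L σ x) = _
    rw [h1]
    rfl
  have h4 : σ ζ = ζ := by
    have := hζ.autToPow_spec K σ
    rw [h2] at this
    rw [← this]
    rcases Nat.lt_or_ge 1 m with hm | hm
    · have : Fact (1 < m) := ⟨hm⟩
      simp [ZMod.val_one]
    · have hm1 : m = 1 := le_antisymm hm (Nat.pos_of_ne_zero (NeZero.ne m))
      subst hm1
      have : ζ = 1 := by simpa using hζ
      simp [this]
  let τ : Ω →ₐ[L] Ω := { (σ : Ω →+* Ω) with commutes' := h3 }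
  have h5 : τ = AlgHom.id L Ω := by
    apply (hζ.powerBasis L).algHom_ext
    rw [IsPrimitiveRoot.powerBasis_gen]
    exact h4
  ext x
  exact AlgHom.congr_fun h5 x

include m in
theorem isGalois_cyclo_top [IsGalois K L] : IsGalois K Ω := by
  obtain ⟨p, hp, hp'⟩ := IsGalois.is_separable_splitting_field K L
  have h1 : Polynomial.IsSplittingField L Ω
      ((Polynomial.X ^ m - 1 : Polynomial K).map (algebraMap K L)) := by
    have := IsCyclotomicExtension.isSplittingField_X_pow_sub_one m L Ω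
    simpa using this
  have h2 : Polynomial.IsSplittingField K Ω (p * (Polynomial.X ^ m - 1)) :=
    Polynomial.IsSplittingField.mul (K := L) (L := Ω) (f := p) (hf := hp.ne_zero) (hg :=
      (Polynomial.X_pow_sub_C_ne_zero (Nat.pos_of_ne_zero (NeZero.ne m)) (1 : K)))
  have h3 : Normal K Ω := Normal.of_isSplittingField (p * (Polynomial.X ^ m - 1))
  exact ⟨⟩

include m in
/-- `Ω/K` is abelian  [normal: splitting field / compositum; commutative: `galCyc_injective`] -/
theorem isAbelianGalois_cyclo_top [IsAbelianGalois K L] : IsAbelianGalois K Ω := by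
  have h1 : IsGalois K Ω := isGalois_cyclo_top m K L Ω
  obtain ⟨ζ, hζ⟩ := IsCyclotomicExtension.exists_isPrimitiveRoot L Ω (Set.mem_singleton m) (NeZero.ne m)
  refine { h1 with is_comm := ⟨fun σ τ => ?_⟩ }
  apply galCyc_injective m K L Ω hζ
  rw [map_mul, map_mul]
  ext1
  · exact mul_comm' _ _
  · exact mul_comm _ _

/-- [count: `[Ω:K] = [Ω:L][L:K] = φ(m) [L:K]` (`IsCyclotomicExtension.finrank`)] -/
theorem galCyc_surjective [IsGalois K L] {ζ : Ω} (hζ : IsPrimitiveRoot ζ m)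
    (hirr : Irreducible (Polynomial.cyclotomic m L)) : Function.Surjective (galCyc m K L Ω hζ) := by
  have h1 : IsGalois K Ω := isGalois_cyclo_top m K L Ω
  have h2 : Nat.card Gal(Ω/K) = Nat.card (Gal(L/K) × (ZMod m)ˣ) := by
    rw [Nat.card_prod, IsGalois.card_aut_eq_finrank, IsGalois.card_aut_eq_finrank,
      ← Module.finrank_mul_finrank K L Ω, IsCyclotomicExtension.finrank Ω hirr,
      Nat.card_eq_fintype_card, ZMod.card_units_eq_totient]
  exact ((Nat.bijective_iff_injective_and_card _).2 ⟨galCyc_injective m K L Ω hζ, h2⟩).2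

/-- [`unram_cyclotomic` for `Ω/L`, `eidx_tower`, `unram_iff`] -/
theorem unram_cyclo_top [IsGalois K L] [IsGalois K Ω] (v : Pl K) (hv : ord v (m : K) = 0)
    (h : Unram K L v) : Unram K Ω v := by
  have h1 : IsGalois L Ω := IsGalois.tower_top_of_isGalois K L Ω
  rw [unram_iff] at h ⊢
  intro w hw
  have h2 : below K L (below L Ω w) = v := by rw [below_below, hw]
  have h3 : ord (below L Ω w) ((m : ℕ) : L) = 0 := by
    have := ord_algebraMap K L (below L Ω w) (m : K)
    rw [map_natCast, h2, hv, mul_zero] at this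
    exact this
  have h4 := (unram_iff L Ω _).1 (unram_cyclotomic m L Ω (below L Ω w) h3) w rfl
  rw [eidx_tower K L Ω, h4, h _ h2]

/-- [`restrict_frob`, `frob_zeta`, `IsPrimitiveRoot.autToPow_spec`] -/
theorem galCyc_frob [IsAbelianGalois K L] [IsAbelianGalois K Ω] {ζ : Ω} (hζ : IsPrimitiveRoot ζ m) (v : Pl K)
    (hv : ord v (m : K) = 0) (h : Unram K L v) (u : (ZMod m)ˣ)
    (hu : (u : ZMod m) = (Nat.card (𝓞 K ⧸ v.asIdeal) : ZMod m)) :
    galCyc m K L Ω hζ (frob K Ω v) = (frob K L v, u) := by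
  have h1 : Unram K Ω v := unram_cyclo_top m K L Ω v hv h
  ext1
  · exact restrict_frob K L Ω h1
  · change hζ.autToPow K (frob K Ω v) = u
    have h2 := frob_zeta m K Ω v hv (frob K Ω v) (frob_spec K Ω v) ζ hζ.pow_eq_one
    have h3 := hζ.autToPow_spec K (frob K Ω v)
    rw [h2] at h3
    have hm : 0 < m := Nat.pos_of_ne_zero (NeZero.ne m)
    have key : ∀ a b : ℕ, ζ ^ a = ζ ^ b → a ≡ b [MOD m] := by
      intro a b hab
      refine hζ.pow_inj (Nat.mod_lt _ hm) (Nat.mod_lt _ hm) ?_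
      have e : ∀ c : ℕ, ζ ^ (c % m) = ζ ^ c := by
        intro c
        conv_rhs => rw [← Nat.div_add_mod c m, pow_add, pow_mul, hζ.pow_eq_one, one_pow, one_mul]
      rw [e, e, hab]
    have h4 := key _ _ h3
    rw [← ZMod.natCast_eq_natCast_iff, ZMod.natCast_val, ZMod.cast_id', id_eq, ← hu] at h4
    exact Units.ext h4

/-- `N v` is prime to `m` iff `v ∤ m` (one direction) -/
theorem ord_natCast_eq_zero_of_coprime (v : Pl K) (h : (Nat.card (𝓞 K ⧸ v.asIdeal)).Coprime m) :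
    ord v (m : K) = 0 := by
  by_contra h0
  have hm : ((m : 𝓞 K)) ≠ 0 := Nat.cast_ne_zero.2 (NeZero.ne m)
  have h1 : 0 < ord v (((m : 𝓞 K)) : K) :=
    lt_of_le_of_ne (ord_nonneg_of_integer v _) (by simpa using Ne.symm h0)
  rw [ord_pos_iff_mem v hm] at h1
  have h2 : ((m : ℕ) : 𝓞 K ⧸ v.asIdeal) = 0 := by
    rw [← map_natCast (Ideal.Quotient.mk v.asIdeal), Ideal.Quotient.eq_zero_iff_mem]
    exact h1
  have h3 : ((Nat.card (𝓞 K ⧸ v.asIdeal) : ℕ) : 𝓞 K ⧸ v.asIdeal) = 0 := by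
    have := card_nsmul_eq_zero' (x := (1 : 𝓞 K ⧸ v.asIdeal))
    simpa using this
  have h4 : Nontrivial (𝓞 K ⧸ v.asIdeal) := Ideal.Quotient.nontrivial_iff.2 v.isPrime.ne_top
  have h5 : ((Nat.gcd (Nat.card (𝓞 K ⧸ v.asIdeal)) m : ℕ) : 𝓞 K ⧸ v.asIdeal) = 0 := by
    have e := Nat.gcd_eq_gcd_ab (Nat.card (𝓞 K ⧸ v.asIdeal)) m
    have e2 := congrArg (Int.cast : ℤ → 𝓞 K ⧸ v.asIdeal) e
    push_cast at e2
    rw [e2, h2, h3]
    simp
  rw [Nat.Coprime] at h
  rw [h] at h5
  simp at h5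

theorem two_le_card_quot (v : Pl K) : 2 ≤ Nat.card (𝓞 K ⧸ v.asIdeal) := by
  have h1 : Finite (𝓞 K ⧸ v.asIdeal) := Ideal.finiteQuotientOfFreeOfNeBot _ v.ne_bot
  have h2 : Nontrivial (𝓞 K ⧸ v.asIdeal) := Ideal.Quotient.nontrivial_iff.2 v.isPrime.ne_top
  exact Finite.one_lt_card

end Claimed.Agent.R239.CFT
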