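import Claimed.Agent.R239.CFT.P7c
import Claimed.Agent.R239.CFT.P8c0

/-!
# R239 / CFT : package P8c2 (reciprocity for subextensions of cyclotomic extensions; transfer to the ground field)

Statements by helper97 (frozen), proofs by helper134.  No own gap; black boxes: P8a `art_fix_zeta`, P5 `art_surjective`, P7c `second_ineq`.
-/

set_option autoImplicit false

namespace Claimed.Agent.R239.CFT

open IsDedekindDomain NumberField

variable {ℓ : ℕ}

/-- the general principle: if `Hc ≤ ker art` then `ker art ∩ I(c) = Hc`  (abelian `ℓ`-extensions).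
[`mem_of_map_eq_zero` with `φ = art`, `I = IS S_c`, `H = Hc`: `Hc_le_IS`, `art_surjective`, `hidx_eq`, `second_ineq`, `hidx_ne_zero`,
`IsGalois.card_aut_eq_finrank`; `NmS ≤ ker` is `art_Nm`] -/
theorem recip_of_pray_le (hℓ : ℓ.Prime) (h2 : ℓ ≠ 2) (K : Type*) [Field K] [NumberField K] (L : Type*) [Field L]
    [NumberField L] [Algebra K L] [IsAbelianGalois K L] (hμ : HasMu ℓ K) (hdeg : ∃ k, Module.finrank K L = ℓ ^ k)
    (c : Modulus K) (hc : Admissible K L c) (hray : ∀ a ∈ Ray c, art K L (dv ((a : Kˣ) : K)) = 0)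
    (D : Div K) (hD : D ∈ IS (c.support : Set (Pl K))) : art K L D = 0 ↔ D ∈ Hc K L c := by
  open scoped IsMulCommutative in
  have htc : IsTotallyComplex K := hμ.isTotallyComplex hℓ h2
  have hker : ∀ D ∈ Hc K L c, art K L D = 0 := by
    have hle : Hc K L c ≤ (art K L).ker := by
      refine sup_le ?_ ?_
      · refine (AddSubgroup.closure_le _).2 ?_
        rintro _ ⟨a, ha, rfl⟩
        exact AddMonoidHom.mem_ker.2 (hray a ha)
      · rintro _ ⟨C, hC, rfl⟩
        exact AddMonoidHom.mem_ker.2 (art_Nm K L _ hc.1 C hC)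
    exact fun D hD => AddMonoidHom.mem_ker.1 (hle hD)
  refine ⟨fun h => ?_, hker D⟩
  have hcard : Nat.card (Additive Gal(L/K)) = Module.finrank K L :=
    IsGalois.card_aut_eq_finrank K L
  refine mem_of_map_eq_zero (art K L) (IS (c.support : Set (Pl K))) (Hc K L c) (Hc_le_IS K L c)
    (fun g => art_surjective K L c.support g) hker ?_ ?_ hD h
  · rw [hidx_eq K L c hc, hcard]
    exact second_ineq hℓ h2 K L hμ hdeg
  · rw [hidx_eq K L c hc]
    exact hidx_ne_zero K L

/-- LEMMA C.  `F ⊆ L' ⊆ Ω`, `Ω/F` abelian, `ζ ∈ Ω`, `ζ ^ m = 1`, and every `γ ∈ Gal(Ω/F)` fixing `ζ` fixes `L'` ("`L' ⊆ F(ζ)`").  If the admissible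
modulus `c'` contains the primes ramified in `Ω`, and `m ∣ c'`, then reciprocity holds for `L'/F` and `c'`.
[`recip_of_pray_le`; for `a ∈ Ray c'`: `art_fix_zeta F Ω` (with `S = supp c'`), `hfix`, `restrict_art F L' Ω`] -/
theorem recip_of_zeta (hℓ : ℓ.Prime) (h2 : ℓ ≠ 2) (m : ℕ) [NeZero m] (F : Type*) [Field F] [NumberField F]
    (L' : Type*) [Field L'] [NumberField L'] [Algebra F L'] (Ω : Type*) [Field Ω] [NumberField Ω] [Algebra F Ω]
    [Algebra L' Ω] [IsScalarTower F L' Ω] [IsAbelianGalois F L'] [IsAbelianGalois F Ω] (hμ : HasMu ℓ F)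
    (hdeg : ∃ k, Module.finrank F L' = ℓ ^ k) (ζ : Ω) (hζ : ζ ^ m = 1)
    (hfix : ∀ γ : Gal(Ω/F), γ ζ = ζ → ∀ x : L', γ (algebraMap L' Ω x) = algebraMap L' Ω x)
    (c' : Modulus F) (hc' : Admissible F L' c') (hram : ∀ v ∉ c'.support, Unram F Ω v)
    (hm : ∀ v : Pl F, ord v (m : F) ≠ 0 → (ord v (m : F)).toNat ≤ c' v)
    (D : Div F) (hD : D ∈ IS (c'.support : Set (Pl F))) : art F L' D = 0 ↔ D ∈ Hc F L' c' := by
  have htc : IsTotallyComplex F := hμ.isTotallyComplex hℓ h2
  refine recip_of_pray_le hℓ h2 F L' hμ hdeg c' hc' ?_ D hD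
  intro a ha
  have hram' : ∀ v ∉ (c'.support : Set (Pl F)), Unram F Ω v := fun v hv => hram v (by simpa using hv)
  have hmS : ∀ v : Pl F, ord v (m : F) ≠ 0 → v ∈ (c'.support : Set (Pl F)) := by
    intro v hv
    have h0 : 0 ≤ ord v (m : F) := by
      have := ord_nonneg_of_integer v (m : 𝓞 F)
      simpa using this
    have h1 := hm v hv
    rw [Finset.mem_coe, Finsupp.mem_support_iff]
    omega
  have haS : ∀ v ∈ (c'.support : Set (Pl F)), ord v (a : F) = 0 := by
    intro v hv
    have hv' : v ∈ c'.support := by simpa using hv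
    exact (ha v hv').ord_eq_zero (Nat.one_le_iff_ne_zero.2 (Finsupp.mem_support_iff.1 hv'))
  have ha1 : ∀ v : Pl F, ord v (m : F) ≠ 0 → One v (ord v (m : F)).toNat (a : F) := by
    intro v hv
    exact (ha v (by simpa using hmS v hv)).mono (hm v hv)
  have h1 := art_fix_zeta m F Ω ζ hζ (c'.support : Set (Pl F)) hram' hmS a haS ha1
  have h3 := hfix _ h1
  rw [← restrict_art F L' Ω (c'.support : Set (Pl F)) hram' (dv (a : F)) haS]
  have h4 : AlgEquiv.restrictNormalHom (F := F) (K₁ := Ω) L' (art F Ω (dv (a : F))).toMul = 1 := by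
    ext x
    apply (algebraMap L' Ω).injective
    exact (AlgEquiv.restrictNormal_commutes _ L' x).trans (h3 x)
  exact congrArg Additive.ofMul h4

/-- LEMMA T (abstract form).  The square `K ⊆ F ⊆ L'`, `K ⊆ L ⊆ L'`, `L' = L F`.  If reciprocity holds for `L'/F` and a modulus `c'` above `c`, then
`art_{L/K} (Nm D) = 0 ⟹ Nm D ∈ Hc K L c` for `D ∈ I_F(c')`.
[`resBC_art` + `resBC_injective`: `art F L' D = 0`, so `D = dv β + Nm F L' C`.  `Nm K F (dv β) = dv (N β)` (`dv_norm`), `N β ∈ Ray c` (`OneL.norm`, `One.mono`);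
`Nm K F (Nm F L' C) = Nm K L (Nm L L' C)` (`Nm_Nm` twice), `Nm L L' C` is prime to `above K L S_c` (`Nm_mem_IS`, `below_below`).] -/
theorem transfer_abstract (K : Type*) [Field K] [NumberField K] (F : Type*) [Field F] [NumberField F] [Algebra K F]
    (L : Type*) [Field L] [NumberField L] [Algebra K L]
    (L' : Type*) [Field L'] [NumberField L'] [Algebra K L'] [Algebra F L'] [Algebra L L']
    [IsScalarTower K F L'] [IsScalarTower K L L'] [IsGalois K F] [IsAbelianGalois K L] [IsAbelianGalois F L']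
    (hgen : IntermediateField.adjoin F (Set.range (algebraMap L L')) = ⊤)
    (c : Modulus K) (hc : Admissible K L c) (c' : Modulus F)
    (hcc' : ∀ u : Pl F, below K F u ∈ c.support → c (below K F u) * eidx K F u ≤ c' u)
    (hrec : ∀ D ∈ IS (c'.support : Set (Pl F)), art F L' D = 0 → D ∈ Hc F L' c')
    (D : Div F) (hD : D ∈ IS (c'.support : Set (Pl F))) (h : art K L (Nm K F D) = 0) :
    Nm K F D ∈ Hc K L c := by
  have hsub : above K F (c.support : Set (Pl K)) ⊆ (c'.support : Set (Pl F)) := by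
    intro u hu
    have hu' : below K F u ∈ c.support := by simpa [mem_above_iff] using hu
    have h1 := hcc' u hu'
    have h2 : 0 < c (below K F u) := Nat.pos_of_ne_zero (Finsupp.mem_support_iff.1 hu')
    have h3 := Nat.mul_pos h2 (eidx_pos K F u)
    rw [Finset.mem_coe, Finsupp.mem_support_iff]
    omega
  have hur : ∀ v ∉ (c.support : Set (Pl K)), Unram K L v := fun v hv => hc.1 v (by simpa using hv)
  have h1 := resBC_art K F L L' (c.support : Set (Pl K)) hur
    (fun u hu => unram_basechange K F L L' hgen u (hur _ hu)) D (IS_anti hsub hD)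
  rw [h] at h1
  have h2 : art F L' D = 0 := by
    have h3 : resBC K F L L' (art F L' D).toMul = 1 := congrArg Additive.toMul h1
    have h4 := resBC_injective K F L L' hgen (h3.trans (map_one _).symm)
    exact congrArg Additive.ofMul h4
  obtain ⟨P, hP, N, hN, rfl⟩ := AddSubgroup.mem_sup.1 (hrec D hD h2)
  obtain ⟨β, hβ, rfl⟩ := (mem_PRay_iff c' P).1 hP
  obtain ⟨C, hC, rfl⟩ := hN
  rw [map_add]
  refine add_mem (AddSubgroup.mem_sup_left ?_) (AddSubgroup.mem_sup_right ?_)
  · rw [← dv_norm K F β.ne_zero]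
    refine dv_mem_PRay (a := normU K F β) ?_
    intro v hv
    refine OneL.norm (L := F) ?_
    rintro u rfl
    exact (hβ u (hsub hv)).mono (hcc' u hv)
  · rw [Nm_Nm K F L', ← Nm_Nm K L L']
    refine ⟨Nm L L' C, Nm_mem_IS L L' ?_, rfl⟩
    rw [above_above K L L', ← above_above K F L']
    refine IS_anti ?_ hC
    intro w hw
    exact hsub hw

/-- LEMMA T (inside `Ω`).  `K ⊆ L ⊆ Ω`, `K ⊆ F ⊆ Ω`, `Ω/K` abelian, `ζ ∈ Ω`, `ζ ^ m = 1`, every `γ ∈ Gal(Ω/F)` fixing `ζ` fixes `L`.
`S'` a finite set of primes of `K` containing `supp c`, the divisors of `m` and the primes ramified in `Ω`.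
[`L' := IntermediateField.adjoin F (Set.range (algebraMap L Ω)) : IntermediateField F Ω` with the obvious `Algebra L L'`, `IsScalarTower K L L'`.
`resBC K F L L'` is injective, so `[L':F]` divides `[L:K]`: a power of `ℓ`.  `exists_admissible F L'` with support `above K F S'` (`above_finite`,
`unram_basechange`) and `Admissible.mono` give `c'` with `c' u ≥ c (below u) * eidx u` and `≥ ord u m`.  `recip_of_zeta` (`unram_tower_top`), `transfer_abstract`.] -/
theorem transfer (hℓ : ℓ.Prime) (h2 : ℓ ≠ 2) (m : ℕ) [NeZero m] (K : Type*) [Field K] [NumberField K]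
    (L : Type*) [Field L] [NumberField L] [Algebra K L] (F : Type*) [Field F] [NumberField F] [Algebra K F]
    (Ω : Type*) [Field Ω] [NumberField Ω] [Algebra K Ω] [Algebra L Ω] [Algebra F Ω] [IsScalarTower K L Ω]
    [IsScalarTower K F Ω] [IsAbelianGalois K L] [IsAbelianGalois K Ω] [IsGalois K F] [IsAbelianGalois F Ω]
    (hμ : HasMu ℓ K) (hdeg : ∃ k, Module.finrank K L = ℓ ^ k) (ζ : Ω) (hζ : ζ ^ m = 1)
    (hfix : ∀ γ : Gal(Ω/F), γ ζ = ζ → ∀ x : L, γ (algebraMap L Ω x) = algebraMap L Ω x)
    (c : Modulus K) (hc : Admissible K L c) (S' : Finset (Pl K)) (hcS' : c.support ⊆ S')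
    (hmS' : ∀ v : Pl K, ord v (m : K) ≠ 0 → v ∈ S') (hram : ∀ v ∉ S', Unram K Ω v)
    (D : Div F) (hD : D ∈ IS (above K F (S' : Set (Pl K)))) (h : art K L (Nm K F D) = 0) :
    Nm K F D ∈ Hc K L c := by
  classical
  let L' : IntermediateField F Ω := IntermediateField.adjoin F (Set.range (algebraMap L Ω))
  let φ : L →+* L' := (algebraMap L Ω).codRestrict L'.toSubring
    (fun x => IntermediateField.subset_adjoin F _ ⟨x, rfl⟩)
  let _ : Algebra L L' := φ.toAlgebra
  have hφ : ∀ x : L, ((algebraMap L L' x : L') : Ω) = algebraMap L Ω x := fun x => rfl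
  have : IsScalarTower K L L' := IsScalarTower.of_algebraMap_eq (fun x => by
    apply Subtype.ext
    rw [hφ, ← IsScalarTower.algebraMap_apply K L Ω]
    rfl)
  have hgen : IntermediateField.adjoin F (Set.range (algebraMap L L')) = ⊤ := by
    apply IntermediateField.map_injective L'.val
    rw [IntermediateField.adjoin_map, ← AlgHom.fieldRange_eq_map, IntermediateField.fieldRange_val]
    congr 1
    ext y
    constructor
    · rintro ⟨_, ⟨x, rfl⟩, rfl⟩
      exact ⟨x, rfl⟩
    · rintro ⟨x, rfl⟩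
      exact ⟨_, ⟨x, rfl⟩, rfl⟩
  -- degree
  have hdeg' : ∃ k, Module.finrank F L' = ℓ ^ k := by
    obtain ⟨k, hk⟩ := hdeg
    have h1 : Nat.card Gal(L'/F) ∣ Nat.card Gal(L/K) :=
      Subgroup.card_dvd_of_injective _ (resBC_injective K F L L' hgen)
    rw [IsGalois.card_aut_eq_finrank, IsGalois.card_aut_eq_finrank, hk] at h1
    obtain ⟨j, -, hj⟩ := (Nat.dvd_prime_pow hℓ).1 h1
    exact ⟨j, hj⟩
  -- the modulus
  have hfin : (above K F (S' : Set (Pl K))).Finite := above_finite K F S'.finite_toSet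
  have hurL : ∀ v ∉ S', Unram K L v := fun v hv => unram_tower_bot K L Ω (hram v hv)
  obtain ⟨c0, hc0s, hc0⟩ := exists_admissible F L' hfin.toFinset (by
    intro u hu
    refine unram_basechange K F L L' hgen u (hurL _ ?_)
    intro hmem
    exact hu (hfin.mem_toFinset.2 hmem))
  let c1 : Modulus F := Finsupp.onFinset hfin.toFinset
    (fun u => if u ∈ hfin.toFinset then c (below K F u) * eidx K F u + (ord u (m : F)).toNat else 0) (by
      intro u hu
      by_contra hcon
      simp [hcon] at hu)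
  have hc1 : ∀ u ∈ above K F (S' : Set (Pl K)),
      c1 u = c (below K F u) * eidx K F u + (ord u (m : F)).toNat := by
    intro u hu
    have : u ∈ hfin.toFinset := hfin.mem_toFinset.2 hu
    change (if u ∈ hfin.toFinset then _ else _) = _
    rw [if_pos this]
  have hc1' : ∀ u ∉ above K F (S' : Set (Pl K)), c1 u = 0 := by
    intro u hu
    have : u ∉ hfin.toFinset := fun hh => hu (hfin.mem_toFinset.1 hh)
    change (if u ∈ hfin.toFinset then _ else _) = _
    rw [if_neg this]
  let c' : Modulus F := c0 ⊔ c1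
  have hc' : Admissible F L' c' := hc0.mono le_sup_left
  have hc'apply : ∀ u, c' u = max (c0 u) (c1 u) := fun u => rfl
  have hsupp : (c'.support : Set (Pl F)) = above K F (S' : Set (Pl K)) := by
    ext u
    rw [Finset.mem_coe, Finsupp.mem_support_iff, hc'apply]
    constructor
    · intro hne
      by_contra hu
      have h0 : c0 u = 0 := by
        rw [← Finsupp.notMem_support_iff, hc0s]
        exact fun hh => hu (hfin.mem_toFinset.1 hh)
      rw [h0, hc1' u hu] at hne
      exact hne rfl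
    · intro hu
      have h0 : c0 u ≠ 0 := by
        rw [← Finsupp.mem_support_iff, hc0s]
        exact hfin.mem_toFinset.2 hu
      have := le_max_left (c0 u) (c1 u)
      omega
  have hcc' : ∀ u : Pl F, below K F u ∈ c.support → c (below K F u) * eidx K F u ≤ c' u := by
    intro u hu
    have hu' : u ∈ above K F (S' : Set (Pl K)) := hcS' hu
    rw [hc'apply, hc1 u hu']
    exact le_trans (Nat.le_add_right _ _) (le_max_right _ _)
  have hm' : ∀ u : Pl F, ord u (m : F) ≠ 0 → (ord u (m : F)).toNat ≤ c' u := by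
    intro u hu
    have hu' : u ∈ above K F (S' : Set (Pl K)) := by
      refine hmS' _ ?_
      intro h0
      apply hu
      have := ord_algebraMap K F u (m : K)
      rw [h0, mul_zero, map_natCast] at this
      exact this
    rw [hc'apply, hc1 u hu']
    exact le_trans (Nat.le_add_left _ _) (le_max_right _ _)
  have hram' : ∀ u ∉ c'.support, Unram F Ω u := by
    intro u hu
    refine unram_tower_top K F Ω (hram _ ?_)
    intro hmem
    apply hu
    rw [← Finset.mem_coe, hsupp]
    exact hmem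
  have hfix' : ∀ γ : Gal(Ω/F), γ ζ = ζ → ∀ x : L', γ (algebraMap L' Ω x) = algebraMap L' Ω x := by
    intro γ hγ x
    obtain ⟨x, hx⟩ := x
    change γ x = x
    induction hx using IntermediateField.adjoin_induction with
    | mem y hy =>
      obtain ⟨z, rfl⟩ := hy
      exact hfix γ hγ z
    | algebraMap y => exact γ.commutes y
    | add y z _ _ hy hz => rw [map_add, hy, hz]
    | inv y _ hy => rw [map_inv₀, hy]
    | mul y z _ _ hy hz => rw [map_mul, hy, hz]
  refine transfer_abstract K F L L' hgen c hc c' hcc' (fun D hD h => ?_) D (hsupp ▸ hD) h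
  exact (recip_of_zeta hℓ h2 m F L' Ω (hμ.map F) hdeg' ζ hζ hfix' c' hc' hram' hm' D hD).1 h

end Claimed.Agent.R239.CFT
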