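import Claimed.Agent.R239.CFT.P8c2

/-!
# R239 / CFT : package P8c3 (the engine of the reciprocity law, inside a fixed abelian extension `Ω/K`)

Proved by helper252 (statements unchanged; black boxes: `transfer` of P8c2, `art_surjective`, `HasMu.isTotallyComplex`).
-/

set_option autoImplicit false

namespace Claimed.Agent.R239.CFT

open IsDedekindDomain NumberField

variable {ℓ : ℕ}

/-- norms from a bigger intermediate field are norms from a smaller one
[local instance `Algebra E₁ E := (IntermediateField.inclusion h).toRingHom.toAlgebra`, `IsScalarTower K E₁ E`; `D₁ := Nm E₁ E D`; `Nm_Nm`, `Nm_mem_IS`,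
`below_below`] -/
theorem exists_Nm_eq_of_le (K : Type*) [Field K] [NumberField K] (Ω : Type*) [Field Ω] [NumberField Ω] [Algebra K Ω]
    (E₁ E : IntermediateField K Ω) (h : E₁ ≤ E) (S : Set (Pl K)) (D : Div E) (hD : D ∈ IS (above K E S)) :
    ∃ D₁ ∈ IS (above K E₁ S), Nm K E₁ D₁ = Nm K E D := by
  let _ : Algebra E₁ E := (IntermediateField.inclusion h).toRingHom.toAlgebra
  have : IsScalarTower K E₁ E := IsScalarTower.of_algebraMap_eq fun x => rfl
  refine ⟨Nm E₁ E D, ?_, Nm_Nm K E₁ E D⟩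
  apply Nm_mem_IS
  intro w hw
  apply hD
  rw [mem_above_iff] at hw ⊢
  rw [mem_above_iff, below_below] at hw
  exact hw

/-- a prime whose Frobenius in `Ω/K` lies in `H` has a prime divisor of degree one in the fixed field of `H`
[`restrict_frob K (fixedField H) Ω`, `frob_eq_one_iff`, `split_iff`, `exists_above`, `Nm_single`] -/
theorem exists_Nm_eq_single (K : Type*) [Field K] [NumberField K] (Ω : Type*) [Field Ω] [NumberField Ω] [Algebra K Ω]
    [IsAbelianGalois K Ω] (H : Subgroup Gal(Ω/K)) (v : Pl K) (hur : Unram K Ω v) (hv : frob K Ω v ∈ H) :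
    ∃ P : Pl (IntermediateField.fixedField H), below K (IntermediateField.fixedField H) P = v ∧
      Nm K (IntermediateField.fixedField H) (Finsupp.single P 1) = Finsupp.single v 1 := by
  set F := IntermediateField.fixedField H with hF
  have : IsAbelianGalois K F := IsAbelianGalois.tower_bot K F Ω
  have h1 : frob K F v = 1 := by
    rw [← restrict_frob K F Ω hur]
    ext x
    have h2 := AlgEquiv.restrictNormal_commutes (frob K Ω v) F x
    exact h2.trans (x.2 ⟨_, hv⟩)
  have h3 := (split_iff K F v).1 ((frob_eq_one_iff K F (unram_tower_bot K F Ω hur)).1 h1)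
  obtain ⟨P, hP⟩ := exists_above K F v
  refine ⟨P, hP, ?_⟩
  rw [Nm_single, hP, (h3 P hP).2]
  simp

/-- ONE FIELD.  `F := fixedField H`; `v` splits in `F`; `D` is a norm from `F`; "`L F ⊆ F(ζ)`".
[`exists_Nm_eq_single`; `transfer` for `F` and the divisor `single P 1 - d • D₁`; an element of `Gal(Ω/F)` restricted to `K` lies in `H`
(`IntermediateField.fixingSubgroup_fixedField`)] -/
theorem engine_step (hℓ : ℓ.Prime) (h2 : ℓ ≠ 2) (m : ℕ) [NeZero m] (K : Type*) [Field K] [NumberField K]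
    (L : Type*) [Field L] [NumberField L] [Algebra K L] (Ω : Type*) [Field Ω] [NumberField Ω] [Algebra K Ω]
    [Algebra L Ω] [IsScalarTower K L Ω] [IsAbelianGalois K L] [IsAbelianGalois K Ω]
    (hμ : HasMu ℓ K) (hdeg : ∃ k, Module.finrank K L = ℓ ^ k) (ζ : Ω) (hζ : ζ ^ m = 1)
    (c : Modulus K) (hc : Admissible K L c) (S' : Finset (Pl K)) (hcS' : c.support ⊆ S')
    (hmS' : ∀ v : Pl K, ord v (m : K) ≠ 0 → v ∈ S') (hram : ∀ v ∉ S', Unram K Ω v)
    (H : Subgroup Gal(Ω/K))
    (hfix : ∀ γ ∈ H, γ ζ = ζ → ∀ x : L, γ (algebraMap L Ω x) = algebraMap L Ω x)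
    (v : Pl K) (hvS' : v ∉ S') (hv : frob K Ω v ∈ H) (D : Div K)
    (hD : ∃ D₁ ∈ IS (above K (IntermediateField.fixedField H) (S' : Set (Pl K))),
      Nm K (IntermediateField.fixedField H) D₁ = D)
    (d : ℤ) (h : art K L (Finsupp.single v 1 - d • D) = 0) :
    Finsupp.single v 1 - d • D ∈ Hc K L c := by
  classical
  obtain ⟨D₁, hD₁, rfl⟩ := hD
  obtain ⟨P, hP, hNP⟩ := exists_Nm_eq_single K Ω H v (hram v hvS') hv
  have e : Finsupp.single v 1 - d • Nm K (IntermediateField.fixedField H) D₁ =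
      Nm K (IntermediateField.fixedField H) (Finsupp.single P 1 - d • D₁) := by
    rw [map_sub, map_zsmul, hNP]
  rw [e] at h ⊢
  refine transfer hℓ h2 m K L (IntermediateField.fixedField H) Ω hμ hdeg ζ hζ ?_ c hc S' hcS' hmS' hram
    _ ?_ h
  · intro γ hγ x
    refine hfix (γ.restrictScalars K) ?_ hγ x
    have : γ.restrictScalars K ∈ (IntermediateField.fixedField H).fixingSubgroup := by
      rw [IntermediateField.mem_fixingSubgroup_iff]
      intro y hy
      exact γ.commutes ⟨y, hy⟩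
    rwa [IntermediateField.fixingSubgroup_fixedField] at this
  · refine sub_mem ?_ (zsmul_mem hD₁ d)
    intro w hw
    rw [Finsupp.single_apply, if_neg]
    rintro rfl
    rw [mem_above_iff, hP] at hw
    exact hvS' hw

/-- THE ENGINE inside `Ω`.  [`S' := supp c ∪ {v ∣ m} ∪ Ram(Ω/K)` (finite: `finite_ram`, `finite_ord_ne_zero`).  `E := fixedField (⨅ i, H i)`; `γ₀` defines an
element of `Gal(Ω/E)`; `art_surjective E Ω` outside `above K E S'` gives `D_E`; `D := Nm K E D_E`; `resBC_art K E L Ω` gives `art K L D = σ`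
(`unram_tower_top`, `unram_tower_bot`); `exists_Nm_eq_of_le` (`fixedField (H i) ≤ E`) and `engine_step` for every `i`; `art_single`.] -/
theorem engine_core (hℓ : ℓ.Prime) (h2 : ℓ ≠ 2) (m : ℕ) [NeZero m] (K : Type*) [Field K] [NumberField K]
    (L : Type*) [Field L] [NumberField L] [Algebra K L] (Ω : Type*) [Field Ω] [NumberField Ω] [Algebra K Ω]
    [Algebra L Ω] [IsScalarTower K L Ω] [IsAbelianGalois K L] [IsAbelianGalois K Ω]
    (hμ : HasMu ℓ K) (hdeg : ∃ k, Module.finrank K L = ℓ ^ k) (ζ : Ω) (hζ : ζ ^ m = 1)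
    (c : Modulus K) (hc : Admissible K L c) (σ : Gal(L/K)) {ι : Type*} (H : ι → Subgroup Gal(Ω/K))
    (v : ι → Pl K) (hvc : ∀ i, v i ∉ c.support) (hvm : ∀ i, ord (v i) (m : K) = 0)
    (hvur : ∀ i, Unram K Ω (v i)) (hfrob : ∀ i, frob K Ω (v i) ∈ H i)
    (hfix : ∀ i, ∀ γ ∈ H i, γ ζ = ζ → ∀ x : L, γ (algebraMap L Ω x) = algebraMap L Ω x)
    (γ₀ : Gal(Ω/K)) (hγ₀ : ∀ i, γ₀ ∈ H i) (hγ₀σ : AlgEquiv.restrictNormalHom L γ₀ = σ) :
    ∃ D ∈ IS (c.support : Set (Pl K)), art K L D = Additive.ofMul σ ∧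
      ∀ i, ∀ d : ℤ, frob K L (v i) = σ ^ d → Finsupp.single (v i) 1 - d • D ∈ Hc K L c := by
  classical
  set S' : Finset (Pl K) :=
    c.support ∪ (finite_ord_ne_zero ((m : ℕ) : K)).toFinset ∪ (finite_ram K Ω).toFinset with hS'
  have hcS' : c.support ⊆ S' := fun x hx => by
    rw [hS']; exact Finset.mem_union_left _ (Finset.mem_union_left _ hx)
  have hmS' : ∀ v : Pl K, ord v (m : K) ≠ 0 → v ∈ S' := fun x hx => by
    rw [hS']
    exact Finset.mem_union_left _ (Finset.mem_union_right _ ((Set.Finite.mem_toFinset _).2 hx))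
  have hram : ∀ v ∉ S', Unram K Ω v := fun x hx => by
    by_contra hcon
    apply hx
    rw [hS']
    exact Finset.mem_union_right _ ((Set.Finite.mem_toFinset _).2 hcon)
  have hvS' : ∀ i, v i ∉ S' := fun i hi => by
    rw [hS', Finset.mem_union, Finset.mem_union, Set.Finite.mem_toFinset,
      Set.Finite.mem_toFinset] at hi
    rcases hi with (hi | hi) | hi
    · exact hvc i hi
    · exact hi (hvm i)
    · exact hi (hvur i)
  set E := IntermediateField.fixedField (⨅ i, H i) with hE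
  have hγE : γ₀ ∈ E.fixingSubgroup := by
    rw [hE, IntermediateField.fixingSubgroup_fixedField]
    exact Subgroup.mem_iInf.2 hγ₀
  let γE : Gal(Ω/E) := IntermediateField.fixingSubgroupEquiv E ⟨γ₀, hγE⟩
  have htc : IsTotallyComplex E := (hμ.map E).isTotallyComplex hℓ h2
  obtain ⟨DE, hDE, hart⟩ := art_surjective E Ω
    (above_finite K E S'.finite_toSet).toFinset (Additive.ofMul γE)
  rw [Set.Finite.coe_toFinset] at hDE
  have hartD : art K L (Nm K E DE) = Additive.ofMul σ := by
    rw [← resBC_art K E L Ω (S' : Set (Pl K)) (fun x hx => unram_tower_bot K L Ω (hram x hx))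
      (fun u hu => unram_tower_top K E Ω (hram _ hu)) DE hDE, hart, ← hγ₀σ]
    rfl
  refine ⟨Nm K E DE, IS_anti (by exact_mod_cast hcS') (Nm_mem_IS K E hDE), hartD, ?_⟩
  intro i d hd
  refine engine_step hℓ h2 m K L Ω hμ hdeg ζ hζ c hc S' hcS' hmS' hram (H i) (hfix i) (v i) (hvS' i)
    (hfrob i) _ (exists_Nm_eq_of_le K Ω _ E
      (IntermediateField.fixedField_antitone (iInf_le H i)) _ DE hDE) d ?_
  rw [map_sub, map_zsmul, hartD, art_single, hd, one_smul, sub_eq_zero]
  rfl

end Claimed.Agent.R239.CFT
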