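import Claimed.Agent.R239.CFT.P8c3
import Claimed.Agent.R239.CFT.P8c1
import Claimed.Agent.R239.CFT.P8b

/-!
# R239 / CFT : package P8c4 (Artin's lemma, the reciprocity law, CFT-1)

Proved by helper96 (own part free of gaps); names and statements are frozen (ask helper97).  Extra: `engine_aux`.
-/

set_option autoImplicit false

namespace Claimed.Agent.R239.CFT

open IsDedekindDomain NumberField

variable {ℓ : ℕ}

/-- ARTIN'S LEMMA in group form.  `Ω = L(ζ_m)`, `Gal(Ω/K) = Gal(L/K) × (ℤ/m)ˣ`; `H := ⟨(σ, b), (Frob_v(L/K), N v)⟩`.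
[`galCyc_frob`, `artin_group`; `γ ζ = ζ ⟹ autToPow γ = 1`; `restrictNormalHom L γ = 1 ⟹ γ` fixes `L`] -/
theorem artin_lemma (m : ℕ) [NeZero m] (K : Type*) [Field K] [NumberField K] (L : Type*) [Field L] [NumberField L]
    [Algebra K L] (Ω : Type*) [Field Ω] [NumberField Ω] [Algebra K Ω] [Algebra L Ω] [IsScalarTower K L Ω]
    [IsAbelianGalois K L] [IsAbelianGalois K Ω] [IsCyclotomicExtension {m} L Ω] {ζ : Ω} (hζ : IsPrimitiveRoot ζ m)
    (n : ℕ) (hn : ∀ g : Gal(L/K), g ^ n = 1) (σ : Gal(L/K)) (b : (ZMod m)ˣ) (v : Pl K) (hvm : ord v (m : K) = 0)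
    (hvur : Unram K L v) (u : (ZMod m)ˣ) (hu : (u : ZMod m) = (Nat.card (𝓞 K ⧸ v.asIdeal) : ZMod m))
    (hind : ∀ x y : ℤ, b ^ x * u ^ y = 1 → (n : ℤ) ∣ x ∧ (n : ℤ) ∣ y) :
    frob K Ω v ∈ (Subgroup.closure ({(σ, b), (frob K L v, u)} : Set (Gal(L/K) × (ZMod m)ˣ))).comap
        (galCyc m K L Ω hζ) ∧
      ∀ γ ∈ (Subgroup.closure ({(σ, b), (frob K L v, u)} : Set (Gal(L/K) × (ZMod m)ˣ))).comap
        (galCyc m K L Ω hζ), γ ζ = ζ → ∀ x : L, γ (algebraMap L Ω x) = algebraMap L Ω x := by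
  open scoped IsMulCommutative in
  classical
  refine ⟨?_, ?_⟩
  · rw [Subgroup.mem_comap, galCyc_frob m K L Ω hζ v hvm hvur u hu]
    exact Subgroup.subset_closure (by simp)
  · intro γ hγ hγζ x
    rw [Subgroup.mem_comap] at hγ
    have h2 : (galCyc m K L Ω hζ γ).2 = 1 := by
      change hζ.autToPow K γ = 1
      have h3 := hζ.autToPow_spec K γ
      rw [hγζ] at h3
      have h3' : ζ ^ ((hζ.autToPow K γ : (ZMod m)ˣ) : ZMod m).val = ζ ^ 1 := by rw [pow_one, h3]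
      rcases Nat.lt_or_ge 1 m with hm1 | hm1
      · have hval := hζ.pow_inj (ZMod.val_lt _) hm1 h3'
        apply Units.ext
        rw [← ZMod.natCast_zmod_val ((hζ.autToPow K γ : (ZMod m)ˣ) : ZMod m), hval, Nat.cast_one]
        rfl
      · have hm : m = 1 := by
          have := NeZero.pos m
          omega
        subst hm
        exact Subsingleton.elim _ _
    have h1 : (galCyc m K L Ω hζ γ).1 = 1 :=
      artin_group n σ (frob K L v) hn u b hind _ hγ h2
    have h4 : AlgEquiv.restrictNormalHom L γ = 1 := h1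
    have h5 := AlgEquiv.restrictNormal_commutes γ L x
    rw [← h5]
    change algebraMap L Ω ((AlgEquiv.restrictNormalHom L γ) x) = _
    rw [h4]
    rfl

/-- the engine for an abstract model `Ω` of `L(ζ_m)` -/
theorem engine_aux (hℓ : ℓ.Prime) (h2 : ℓ ≠ 2) (K : Type*) [Field K] [NumberField K] (L : Type*) [Field L]
    [NumberField L] [Algebra K L] [IsAbelianGalois K L] (hμ : HasMu ℓ K)
    (k : ℕ) (hk : Module.finrank K L = ℓ ^ k) (c : Modulus K) (hc : Admissible K L c) (σ : Gal(L/K))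
    (v₁ v₂ : Pl K) (h₁ : v₁ ∉ c.support) (h₂ : v₂ ∉ c.support)
    (m : ℕ) [NeZero m] (u₁ u₂ b : (ZMod m)ˣ)
    (hirr : Irreducible (Polynomial.cyclotomic m L))
    (hu₁ : (u₁ : ZMod m) = (Nat.card (𝓞 K ⧸ v₁.asIdeal) : ZMod m))
    (hu₂ : (u₂ : ZMod m) = (Nat.card (𝓞 K ⧸ v₂.asIdeal) : ZMod m))
    (hind₁ : ∀ x y : ℤ, b ^ x * u₁ ^ y = 1 → ((ℓ ^ k : ℕ) : ℤ) ∣ x ∧ ((ℓ ^ k : ℕ) : ℤ) ∣ y)
    (hind₂ : ∀ x y : ℤ, b ^ x * u₂ ^ y = 1 → ((ℓ ^ k : ℕ) : ℤ) ∣ x ∧ ((ℓ ^ k : ℕ) : ℤ) ∣ y)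
    (Ω : Type*) [Field Ω] [NumberField Ω] [Algebra K Ω] [Algebra L Ω] [IsScalarTower K L Ω]
    [IsCyclotomicExtension {m} L Ω] :
    ∃ D ∈ IS (c.support : Set (Pl K)), art K L D = Additive.ofMul σ ∧
      (∀ d : ℤ, frob K L v₁ = σ ^ d → Finsupp.single v₁ 1 - d • D ∈ Hc K L c) ∧
      (∀ d : ℤ, frob K L v₂ = σ ^ d → Finsupp.single v₂ 1 - d • D ∈ Hc K L c) := by
  classical
  have : IsAbelianGalois K Ω := isAbelianGalois_cyclo_top m K L Ω
  have hζ := IsCyclotomicExtension.zeta_spec m L Ω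
  set ζ := IsCyclotomicExtension.zeta m L Ω with hζdef
  obtain ⟨γ₀, hγ₀⟩ := galCyc_surjective m K L Ω hζ hirr (σ, b)
  have hn : ∀ g : Gal(L/K), g ^ (ℓ ^ k) = 1 := by
    intro g
    rw [← hk, ← IsGalois.card_aut_eq_finrank]
    exact pow_card_eq_one'
  have hcop : ∀ (v : Pl K) (u : (ZMod m)ˣ), (u : ZMod m) = (Nat.card (𝓞 K ⧸ v.asIdeal) : ZMod m) →
      ord v (m : K) = 0 := by
    intro v u hu
    refine ord_natCast_eq_zero_of_coprime m K v ?_
    rw [← ZMod.isUnit_iff_coprime, ← hu]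
    exact u.isUnit
  let v : Bool → Pl K := fun i => cond i v₁ v₂
  let u : Bool → (ZMod m)ˣ := fun i => cond i u₁ u₂
  let H : Bool → Subgroup Gal(Ω/K) := fun i =>
    (Subgroup.closure ({(σ, b), (frob K L (v i), u i)} : Set (Gal(L/K) × (ZMod m)ˣ))).comap
      (galCyc m K L Ω hζ)
  have hvc : ∀ i, v i ∉ c.support := by rintro (_ | _) <;> assumption
  have hu : ∀ i, ((u i : (ZMod m)ˣ) : ZMod m) = (Nat.card (𝓞 K ⧸ (v i).asIdeal) : ZMod m) := by
    rintro (_ | _) <;> assumption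
  have hind : ∀ i, ∀ x y : ℤ, b ^ x * (u i) ^ y = 1 →
      ((ℓ ^ k : ℕ) : ℤ) ∣ x ∧ ((ℓ ^ k : ℕ) : ℤ) ∣ y := by
    rintro (_ | _) <;> assumption
  have hvm : ∀ i, ord (v i) (m : K) = 0 := fun i => hcop (v i) (u i) (hu i)
  have hA := fun i => artin_lemma m K L Ω hζ (ℓ ^ k) hn σ b (v i) (hvm i) (hc.1 _ (hvc i)) (u i)
    (hu i) (hind i)
  obtain ⟨D, hD, hart, hall⟩ := engine_core hℓ h2 m K L Ω hμ ⟨k, hk⟩ ζ hζ.pow_eq_one c hc σ H v hvc
    hvm (fun i => unram_cyclo_top m K L Ω (v i) (hvm i) (hc.1 _ (hvc i))) (fun i => (hA i).1)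
    (fun i => (hA i).2) γ₀ (fun i => by
      change galCyc m K L Ω hζ γ₀ ∈
        Subgroup.closure ({(σ, b), (frob K L (v i), u i)} : Set (Gal(L/K) × (ZMod m)ˣ))
      rw [hγ₀]
      exact Subgroup.subset_closure (by simp)) (congrArg Prod.fst hγ₀)
  exact ⟨D, hD, hart, hall true, hall false⟩

/-- THE ENGINE.  [`aᵢ := N vᵢ ≥ 2` (`two_le_card_quot`).  `artin_nt2` with `B := primeFactors |disc L|` gives `m`, `u₁ u₂ b`; `Φ_m` is irreducible over `L`
(`cyclotomic_irreducible_of_coprime_discr`); `vᵢ ∤ m` because `aᵢ` is invertible mod `m` (`ord_natCast_eq_zero_of_coprime`).  `Ω := CyclotomicField m L` with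
`Algebra K Ω := ((algebraMap L Ω).comp (algebraMap K L)).toAlgebra`; `isAbelianGalois_cyclo_top`, `unram_cyclo_top`; `γ₀` := preimage of `(σ, b)`
(`galCyc_surjective`); `artin_lemma` for `v₁`, `v₂`; `engine_core` with `ι = Fin 2` (or `Bool`).] -/
theorem engine (hℓ : ℓ.Prime) (h2 : ℓ ≠ 2) (K : Type*) [Field K] [NumberField K] (L : Type*) [Field L]
    [NumberField L] [Algebra K L] [IsAbelianGalois K L] (hμ : HasMu ℓ K)
    (hdeg : ∃ k, Module.finrank K L = ℓ ^ k) (c : Modulus K) (hc : Admissible K L c) (σ : Gal(L/K))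
    (v₁ v₂ : Pl K) (h₁ : v₁ ∉ c.support) (h₂ : v₂ ∉ c.support) :
    ∃ D ∈ IS (c.support : Set (Pl K)), art K L D = Additive.ofMul σ ∧
      (∀ d : ℤ, frob K L v₁ = σ ^ d → Finsupp.single v₁ 1 - d • D ∈ Hc K L c) ∧
      (∀ d : ℤ, frob K L v₂ = σ ^ d → Finsupp.single v₂ 1 - d • D ∈ Hc K L c) := by
  obtain ⟨k, hk⟩ := hdeg
  obtain ⟨m, u₁, u₂, b, hm1, hB, hu₁, hu₂, hind₁, hind₂⟩ :=
    artin_nt2 hℓ (Nat.card (𝓞 K ⧸ v₁.asIdeal)) (Nat.card (𝓞 K ⧸ v₂.asIdeal))
      (two_le_card_quot K v₁) (two_le_card_quot K v₂) k (NumberField.discr L).natAbs.primeFactors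
  have : NeZero m := ⟨by omega⟩
  have hcop : Nat.Coprime m (NumberField.discr L).natAbs := by
    by_contra hcon
    obtain ⟨p, hp, hpm, hpd⟩ := Nat.Prime.not_coprime_iff_dvd.1 hcon
    refine hB p ?_ hp hpm
    rw [Nat.mem_primeFactors]
    exact ⟨hp, hpd, Int.natAbs_ne_zero.2 (NumberField.discr_ne_zero L)⟩
  have hirr := cyclotomic_irreducible_of_coprime_discr L m hcop
  exact engine_aux hℓ h2 K L hμ k hk c hc σ v₁ v₂ h₁ h₂ m u₁ u₂ b hirr hu₁ hu₂ hind₁ hind₂
    (CyclotomicField m L)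

/-- multiples of the degree are norms  [`Nm_ext`; `ext K L D` is prime to `above K L S` by `ext_apply`] -/
theorem finrank_smul_mem_Hc (K : Type*) [Field K] [NumberField K] (L : Type*) [Field L] [NumberField L]
    [Algebra K L] (c : Modulus K) (D : Div K) (hD : D ∈ IS (c.support : Set (Pl K))) :
    Module.finrank K L • D ∈ Hc K L c := by
  rw [← Nm_ext]
  refine AddSubgroup.mem_sup_right ⟨ext K L D, ?_, rfl⟩
  intro w hw
  rw [ext_apply, hD _ hw, mul_zero]

/-- Blueprint 8.6, the hard inclusion.  [`v₀ ∉ supp c` with `σ := frob v₀` a generator (`exists_frob_generator`).  For `v ∉ supp c`, `frob v = σ ^ d`: `engine` for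
`(v₀, v)` gives `single v₀ 1 - D`, `single v 1 - d • D ∈ Hc`, so `single v 1 - d • single v₀ 1 ∈ Hc`.  By induction on `D' ∈ IS`: `∃ d', D' - d' • single v₀ 1 ∈ Hc` and
`art D' = d' • σ`.  If `art D' = 0` then `[L:K] = orderOf σ ∣ d'` and `finrank_smul_mem_Hc`.] -/
theorem ker_art_le_Hc_cyclic (hℓ : ℓ.Prime) (h2 : ℓ ≠ 2) (K : Type*) [Field K] [NumberField K] (L : Type*) [Field L]
    [NumberField L] [Algebra K L] [IsAbelianGalois K L] [IsCyclic Gal(L/K)] (hμ : HasMu ℓ K)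
    (hdeg : ∃ k, Module.finrank K L = ℓ ^ k) (c : Modulus K) (hc : Admissible K L c) (D : Div K)
    (hD : D ∈ IS (c.support : Set (Pl K))) (h : art K L D = 0) : D ∈ Hc K L c := by
  open scoped IsMulCommutative in
  classical
  have := hμ.isTotallyComplex hℓ h2
  obtain ⟨k, hk⟩ := hdeg
  obtain ⟨v₀, hv₀, -, hgen⟩ := exists_frob_generator K L hℓ hk c.support
  set σ := frob K L v₀ with hσ
  have hall : ∀ v : Pl K, ∃ d : ℤ, frob K L v = σ ^ d := by
    intro v
    have : frob K L v ∈ Subgroup.zpowers σ := by rw [hgen]; trivial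
    obtain ⟨d, hd⟩ := Subgroup.mem_zpowers_iff.1 this
    exact ⟨d, hd.symm⟩
  choose g hg using hall
  have key : ∀ v ∉ c.support, Finsupp.single v (1 : ℤ) - g v • Finsupp.single v₀ (1 : ℤ) ∈ Hc K L c := by
    intro v hv
    obtain ⟨D₀, -, -, h₁, h₂⟩ := engine hℓ h2 K L hμ ⟨k, hk⟩ c hc σ v₀ v hv₀ hv
    have a1 := h₁ 1 (by rw [zpow_one])
    have a2 := h₂ (g v) (hg v)
    have e : Finsupp.single v (1 : ℤ) - g v • Finsupp.single v₀ (1 : ℤ) =
        (Finsupp.single v (1 : ℤ) - g v • D₀) - g v • (Finsupp.single v₀ (1 : ℤ) - (1 : ℤ) • D₀) := by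
      rw [one_smul, smul_sub]
      abel
    rw [e]
    exact (Hc K L c).sub_mem a2 ((Hc K L c).zsmul_mem a1 _)
  set d' : ℤ := ∑ v ∈ D.support, D v * g v with hd'
  have hDsum : D = ∑ v ∈ D.support, Finsupp.single v (D v) := (Finsupp.sum_single D).symm
  have e1 : D - d' • Finsupp.single v₀ (1 : ℤ) =
      ∑ v ∈ D.support, D v • (Finsupp.single v (1 : ℤ) - g v • Finsupp.single v₀ (1 : ℤ)) := by
    simp only [smul_sub, Finset.sum_sub_distrib, smul_smul, ← Finset.sum_smul, ← hd']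
    congr 1
    conv_lhs => rw [hDsum]
    refine Finset.sum_congr rfl fun v _ => ?_
    rw [Finsupp.smul_single, smul_eq_mul, mul_one]
  have m1 : D - d' • Finsupp.single v₀ (1 : ℤ) ∈ Hc K L c := by
    rw [e1]
    refine (Hc K L c).sum_mem fun v hv => (Hc K L c).zsmul_mem (key v ?_) _
    intro hvc
    exact (Finsupp.mem_support_iff.1 hv) (hD v hvc)
  have e2 : art K L D = d' • Additive.ofMul σ := by
    conv_lhs => rw [hDsum]
    rw [map_sum, hd', Finset.sum_smul]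
    refine Finset.sum_congr rfl fun v _ => ?_
    rw [art_single, hg v, ofMul_zpow, smul_smul]
  rw [h] at e2
  have h3 : σ ^ d' = 1 := by
    have : Additive.ofMul (σ ^ d') = 0 := by rw [ofMul_zpow, ← e2]
    exact this
  have hord : orderOf σ = Module.finrank K L := by
    rw [← IsGalois.card_aut_eq_finrank, ← Nat.card_zpowers, hgen, Subgroup.card_top]
  have h4 : (Module.finrank K L : ℤ) ∣ d' := by
    rw [← hord]
    exact orderOf_dvd_iff_zpow_eq_one.2 h3
  obtain ⟨j, hj⟩ := h4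
  have hs : Finsupp.single v₀ (1 : ℤ) ∈ IS (c.support : Set (Pl K)) := by
    intro v hv
    rw [Finsupp.single_apply, if_neg]
    rintro rfl
    exact hv₀ hv
  have m2 : d' • Finsupp.single v₀ (1 : ℤ) ∈ Hc K L c := by
    rw [hj, mul_comm, mul_smul, natCast_zsmul]
    exact (Hc K L c).zsmul_mem (finrank_smul_mem_Hc K L c _ hs) _
  have := (Hc K L c).add_mem m1 m2
  rwa [sub_add_cancel] at this

/-- Blueprint 8.6.  [`ker ∩ IS ≤ Hc ≤ IS`, both of index `[L:K]` in `IS` (`art_surjective`; `hidx_eq`, `hidx_eq_finrank`), `AddSubgroup.relIndex_mul_relIndex`] -/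
theorem reciprocity_cyclic (hℓ : ℓ.Prime) (h2 : ℓ ≠ 2) (K : Type*) [Field K] [NumberField K] (L : Type*) [Field L]
    [NumberField L] [Algebra K L] [IsAbelianGalois K L] [IsCyclic Gal(L/K)] (hμ : HasMu ℓ K)
    (hdeg : ∃ k, Module.finrank K L = ℓ ^ k) (c : Modulus K) (hc : Admissible K L c) (D : Div K)
    (hD : D ∈ IS (c.support : Set (Pl K))) : art K L D = 0 ↔ D ∈ Hc K L c := by
  have := hμ.isTotallyComplex hℓ h2
  refine ⟨ker_art_le_Hc_cyclic hℓ h2 K L hμ hdeg c hc D hD, fun hDH => ?_⟩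
  set I := IS (c.support : Set (Pl K)) with hI
  set Kr := (art K L).ker ⊓ I with hKr
  have h1 : Kr ≤ Hc K L c := fun D' hD' =>
    ker_art_le_Hc_cyclic hℓ h2 K L hμ hdeg c hc D' hD'.2 hD'.1
  have h2' : Hc K L c ≤ I := Hc_le_IS K L c
  have hmap : I.map (art K L) = ⊤ := by
    rw [eq_top_iff]
    intro g _
    obtain ⟨D', hD', rfl⟩ := art_surjective K L c.support g
    exact ⟨D', hD', rfl⟩
  have h3 : Kr.relIndex I = Module.finrank K L := by
    rw [hKr, AddSubgroup.inf_relIndex_right, AddSubgroup.relIndex_ker, hmap, AddSubgroup.card_top,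
      Nat.card_congr Additive.toMul, IsGalois.card_aut_eq_finrank]
  have h4 : (Hc K L c).relIndex I = Module.finrank K L := by
    rw [hI, hidx_eq K L c hc, hidx_eq_finrank hℓ h2 K L hμ hdeg]
  have h5 := AddSubgroup.relIndex_mul_relIndex Kr (Hc K L c) I h1 h2'
  rw [h3, h4] at h5
  have hpos : 0 < Module.finrank K L := Module.finrank_pos
  have h6 : Kr.relIndex (Hc K L c) = 1 := by
    have : Kr.relIndex (Hc K L c) * Module.finrank K L = 1 * Module.finrank K L := by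
      rw [h5, one_mul]
    exact Nat.eq_of_mul_eq_mul_right hpos this
  exact (AddSubgroup.relIndex_eq_one.1 h6 hDH).1

/-- [`unram_tower_bot`; `Nloc K L v ≤ Nloc K E v` by `Algebra.norm_norm`] -/
theorem Admissible.tower_bot (K : Type*) [Field K] [NumberField K] (E : Type*) [Field E] [NumberField E] [Algebra K E]
    (L : Type*) [Field L] [NumberField L] [Algebra K L] [Algebra E L] [IsScalarTower K E L] [IsGalois K L]
    [IsGalois K E] {c : Modulus K} (hc : Admissible K L c) : Admissible K E c := by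
  refine ⟨fun v hv => unram_tower_bot K E L (hc.1 v hv), fun v hv a ha N => ?_⟩
  obtain ⟨b, hb⟩ := hc.2 v hv a ha N
  refine ⟨normU E L b, ?_⟩
  have e : Algebra.norm K ((normU E L b : Eˣ) : E) = Algebra.norm K (b : L) :=
    Algebra.norm_norm
  rw [e]
  exact hb

/-- Blueprint 8.7: RECIPROCITY for abelian extensions of `ℓ`-power degree.
[`recip_of_pray_le`; for `a ∈ Ray c`, `g := art K L (dv a)`: `eq_one_of_forall_cyclic_quotient`; for `N` with cyclic quotient, `E := fixedField N`,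
`Gal(E/K) ≃ G ⧸ N` (`IsGalois.normalAutEquivQuotient`) is cyclic of `ℓ`-power order, `Admissible.tower_bot`, `reciprocity_cyclic` (`dv a ∈ PRay c ≤ Hc K E c`),
`restrict_art`; so `g` fixes `E`, i.e. `g ∈ N`.] -/
theorem reciprocity (hℓ : ℓ.Prime) (h2 : ℓ ≠ 2) (K : Type*) [Field K] [NumberField K] (L : Type*) [Field L]
    [NumberField L] [Algebra K L] [IsAbelianGalois K L] (hμ : HasMu ℓ K)
    (hdeg : ∃ k, Module.finrank K L = ℓ ^ k) (c : Modulus K) (hc : Admissible K L c) (D : Div K)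
    (hD : D ∈ IS (c.support : Set (Pl K))) : art K L D = 0 ↔ D ∈ Hc K L c := by
  open scoped IsMulCommutative in
  classical
  refine recip_of_pray_le hℓ h2 K L hμ hdeg c hc ?_ D hD
  intro a ha
  have hda : dv ((a : Kˣ) : K) ∈ PRay c := dv_mem_PRay ha
  have hdaI : dv ((a : Kˣ) : K) ∈ IS (c.support : Set (Pl K)) := PRay_le_IS c hda
  suffices hg : Additive.toMul (art K L (dv ((a : Kˣ) : K))) = 1 from hg
  apply eq_one_of_forall_cyclic_quotient
  intro N hN
  let E : IntermediateField K L := IntermediateField.fixedField N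
  have hker : (AlgEquiv.restrictNormalHom (F := K) (K₁ := L) E).ker = N := by
    rw [IntermediateField.restrictNormalHom_ker, IntermediateField.fixingSubgroup_fixedField]
  have : IsCyclic Gal(E/K) :=
    isCyclic_of_surjective (IsGalois.normalAutEquivQuotient N).toMonoidHom
      (IsGalois.normalAutEquivQuotient N).surjective
  have hdegE : ∃ k, Module.finrank K E = ℓ ^ k := by
    obtain ⟨k, hk⟩ := hdeg
    have hdvd : Module.finrank K E ∣ ℓ ^ k := by
      rw [← hk]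
      exact ⟨Module.finrank E L, (Module.finrank_mul_finrank K E L).symm⟩
    obtain ⟨j, -, hj⟩ := (Nat.dvd_prime_pow hℓ).1 hdvd
    exact ⟨j, hj⟩
  have hcE : Admissible K E c := Admissible.tower_bot K E L hc
  have h0 : art K E (dv ((a : Kˣ) : K)) = 0 :=
    (reciprocity_cyclic hℓ h2 K E hμ hdegE c hcE _ hdaI).2 (AddSubgroup.mem_sup_left hda)
  have h1 := restrict_art K E L (c.support : Set (Pl K)) (fun v hv => hc.1 v (by simpa using hv))
    _ hdaI
  rw [h0] at h1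
  rw [← hker, MonoidHom.mem_ker]
  exact h1

/-- `v ∣ ℓ` -/
def Over (ℓ : ℕ) {K : Type*} [Field K] [NumberField K] (v : Pl K) : Prop := (ℓ : 𝓞 K) ∈ v.asIdeal

theorem over_iff (ℓ : ℕ) (hℓ : ℓ ≠ 0) {K : Type*} [Field K] [NumberField K] (v : Pl K) :
    Over ℓ v ↔ ord v (ℓ : K) ≠ 0 := by
  have h0 : (ℓ : 𝓞 K) ≠ 0 := Nat.cast_ne_zero.2 hℓ
  have h1 := ord_pos_iff_mem v h0
  have e : (((ℓ : 𝓞 K) : 𝓞 K) : K) = (ℓ : K) := by simp
  rw [e] at h1
  have h2 := ord_natCast_nonneg v ℓ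
  unfold Over
  rw [← h1]
  omega

theorem finite_over (ℓ : ℕ) (hℓ : ℓ ≠ 0) (K : Type*) [Field K] [NumberField K] :
    {v : Pl K | Over ℓ v}.Finite := by
  refine (finite_ord_ne_zero (ℓ : K)).subset ?_
  intro v hv
  exact (over_iff ℓ hℓ v).1 hv

/-- OUTPUT: CFT-1.  [`exists_admissible` with support `{v ∣ ℓ}`, `N := sup c v`; `a ∈ Ray c`; `reciprocity`] -/
theorem cft1 (hℓ : ℓ.Prime) (h2 : ℓ ≠ 2) (K : Type*) [Field K] [NumberField K] (L : Type*) [Field L] [NumberField L]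
    [Algebra K L] [IsAbelianGalois K L] (hμ : HasMu ℓ K) (hdeg : ∃ k, Module.finrank K L = ℓ ^ k)
    (hur : ∀ v : Pl K, ¬ Over ℓ v → Unram K L v) :
    ∃ N : ℕ, ∀ a : Kˣ, (∀ v : Pl K, Over ℓ v → One v N (a : K)) → art K L (dv (a : K)) = 0 := by
  obtain ⟨c, hcs, hc⟩ := exists_admissible K L (finite_over ℓ hℓ.ne_zero K).toFinset (by
    intro v hv
    exact hur v (by simpa using hv))
  refine ⟨c.support.sup c, fun a ha => ?_⟩
  have hray : a ∈ Ray c := by
    intro v hv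
    have hv' : Over ℓ v := by
      rw [hcs] at hv
      simpa using hv
    exact (ha v hv').mono (Finset.le_sup (f := c) hv)
  have h1 : dv (a : K) ∈ PRay c := dv_mem_PRay hray
  exact (reciprocity hℓ h2 K L hμ hdeg c hc _ (PRay_le_IS c h1)).2 (AddSubgroup.mem_sup_left h1)

end Claimed.Agent.R239.CFT
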