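import Claimed.Agent.R239.CFT.P8c4

/-!
# R239 / CFT : package P8c5 (vocabulary of helper299's chain P9, on top of P8c0-P8c4)

`artKer`, its index, the Artin map of a tower, `art` kills the ray.
The owner of the package owns this file and replaces the `sorry`s in place; names and statements are frozen (ask helper97 / helper299).
-/

set_option autoImplicit false

namespace Claimed.Agent.R239.CFT

open IsDedekindDomain NumberField

section

variable (K : Type*) [Field K] [NumberField K] (L : Type*) [Field L] [NumberField L] [Algebra K L]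
  [IsAbelianGalois K L]

/-- the kernel of the Artin map on the divisors prime to `S` -/
noncomputable def artKer (S : Set (Pl K)) : AddSubgroup (Div K) := (art K L).ker ⊓ IS S

variable {K L} in
theorem mem_artKer {S : Set (Pl K)} {D : Div K} : D ∈ artKer K L S ↔ art K L D = 0 ∧ D ∈ IS S :=
  Iff.rfl

/-- from 5.3 (`art_surjective`) -/
theorem artKer_relIndex [IsTotallyComplex K] (S : Finset (Pl K)) :
    (artKer K L (S : Set (Pl K))).relIndex (IS (S : Set (Pl K))) = Module.finrank K L := by
  unfold artKer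
  rw [AddSubgroup.inf_relIndex_right]
  have h1 : (art K L).ker.relIndex (IS (S : Set (Pl K))) =
      (((art K L).comp (IS (S : Set (Pl K))).subtype).ker).index := by
    rw [AddSubgroup.relIndex, AddSubgroup.addSubgroupOf, AddMonoidHom.comap_ker]
  rw [h1, AddSubgroup.index_ker]
  have h2 : ((art K L).comp (IS (S : Set (Pl K))).subtype).range = ⊤ := by
    rw [eq_top_iff]
    intro g _
    obtain ⟨D, hD, rfl⟩ := art_surjective K L S g
    exact ⟨⟨D, hD⟩, rfl⟩
  rw [h2, ← IsGalois.card_aut_eq_finrank K L]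
  simp

end

/-- `art_{Ω/K} (Nm_{E/K} X) = art_{Ω/E} X` (8.2 (b), `resBC_art` with `L = L' = Ω`) -/
theorem art_Nm_tower (K : Type*) [Field K] [NumberField K] (E : Type*) [Field E] [NumberField E] [Algebra K E]
    (Ω : Type*) [Field Ω] [NumberField Ω] [Algebra K Ω] [Algebra E Ω] [IsScalarTower K E Ω]
    [IsAbelianGalois K Ω] [IsAbelianGalois E Ω] (S : Set (Pl K))
    (hS : ∀ v ∉ S, Unram K Ω v) (X : Div E) (hX : X ∈ IS (above K E S)) :
    art K Ω (Nm K E X) =
      (AlgEquiv.restrictScalarsHom K : Gal(Ω/E) →* Gal(Ω/K)).toAdditive (art E Ω X) := by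
  have h1 := resBC_art K E Ω Ω S hS (fun u hu => unram_tower_top K E Ω (hS _ hu)) X hX
  rw [← h1]
  have h2 : resBC K E Ω Ω = (AlgEquiv.restrictScalarsHom K : Gal(Ω/E) →* Gal(Ω/K)) := by
    ext σ x
    exact resBC_apply K E Ω Ω σ x
  rw [h2]

/-- the Artin map kills the ray of an admissible modulus -/
theorem art_ray_eq_zero {ℓ : ℕ} (hℓ : ℓ.Prime) (h2 : ℓ ≠ 2) (K : Type*) [Field K] [NumberField K] (L : Type*)
    [Field L] [NumberField L] [Algebra K L] [IsAbelianGalois K L] (hμ : HasMu ℓ K)
    (hdeg : ∃ k, Module.finrank K L = ℓ ^ k) (c : Modulus K) (hc : Admissible K L c) (a : Kˣ) (ha : a ∈ Ray c) :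
    art K L (dv (a : K)) = 0 :=
  (reciprocity hℓ h2 K L hμ hdeg c hc _ (PRay_le_IS c (dv_mem_PRay ha))).2
    (AddSubgroup.mem_sup_left (dv_mem_PRay ha))

end Claimed.Agent.R239.CFT
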