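import Claimed.Agent.R239.CFT.P6
import Claimed.Agent.R239.CFT.P8c5

/-!
# R239 / CFT : package P9 (existence theorem), file a: preparations

Chain P9 (owner helper299), Blueprint 9.1-9.4.  PLAN (`n = ℓ^k`):
* P9a  approximation of local `n`-th powers by one global `n`-th power; Kummer extensions for `Δ` with `Δ/Δ ∩ Kˣⁿ` finite;
       `K_S ∩ ⋂_{v ∈ S} PowLoc n v ⊆ Kˣⁿ` (first inequality); index of the image of a subgroup under `a ↦ dvS S a`.
* P9b  `μ_n ⊆ K`, `L = K(K_S^{1/n})`:  `artKer K L S = powDiv n S := { dvS S a | a ∈ PowLoc n v for all v ∈ S }`  (9.1).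
* P9c  factorisation of `ψ` through the Artin map; CFT-2 if `μ_n ⊆ K`  (9.2).
* P9d  `K ⊆ K' ⊆ L'`, `L'/K` Galois, `L'/K'` abelian: `art_{L'/K'} (τ D) = τ art_{L'/K'} (D) τ⁻¹`  (8.2 (d)).
* P9e  `L' = K'(K'_{S'}^{1/n})` is Galois over `K` (`S'` = primes above `S`); the fixed field of a subgroup `A₀ ≤ Gal(L'/K')` containing all
       commutators `τ σ τ⁻¹ σ⁻¹` is abelian over `K` if `K'/K` is cyclic; `K(ζ_{ℓ^k})/K` is cyclic of `ℓ`-power degree.
* P9f  descent and CFT-2  (9.3, 9.4).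
-/

set_option autoImplicit false

namespace Claimed.Agent.R239.CFT

open IsDedekindDomain NumberField

universe u

section

variable {K : Type*} [Field K] [NumberField K]

/-- an element which is a local `n`-th power at all `v ∈ S` is close to one global `n`-th power at all `v ∈ S` -/
theorem powLocS_approx (n : ℕ) (S : Finset (Pl K)) (a : Kˣ) (ha : ∀ v ∈ S, a ∈ PowLoc n v) (N : ℕ) :
    ∃ b : Kˣ, ∀ v ∈ S, One v N ((a : K) / (b : K) ^ n) := by
  classical
  have h1 : ∀ v : Pl K, ∃ b : Kˣ, v ∈ S → One v (N + 1) ((a : K) / (b : K) ^ n) := by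
    intro v
    by_cases hv : v ∈ S
    · obtain ⟨b, hb⟩ := ha v hv (N + 1)
      exact ⟨b, fun _ => hb⟩
    · exact ⟨1, fun h => absurd h hv⟩
  choose x hx using h1
  obtain ⟨b, hb⟩ := weak_approx_units S x (N + 1)
  refine ⟨b, fun v hv => One.mono (Nat.le_succ N) ?_⟩
  have h2 := (hx v hv).mul (((hb v hv).pow n).inv (by omega))
  convert h2 using 1
  have := (x v).ne_zero
  have := b.ne_zero
  rw [div_pow]
  field_simp

/-- the index of the image of `P` under `a ↦ dvS S a` -/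
theorem relIndex_map_dvSHom (S : Set (Pl K)) (hcl : ClS S) (P : Subgroup Kˣ) :
    ((Subgroup.toAddSubgroup P).map (dvSHom S)).relIndex (IS S) = (S.unit K ⊔ P).index := by
  have hrange : (⊤ : AddSubgroup (Additive Kˣ)).map (dvSHom S) = IS S := by
    apply le_antisymm
    · rintro _ ⟨a, _, rfl⟩
      exact dvS_mem_IS S _
    · intro D hD
      obtain ⟨a, ha⟩ := hcl.exists_dvS hD
      exact ⟨Additive.ofMul a, trivial, ha⟩
  have hker : (dvSHom S).ker = Subgroup.toAddSubgroup (S.unit K) := by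
    ext a
    exact dvS_eq_zero_iff S (Additive.toMul a)
  rw [← hrange, AddSubgroup.relIndex_map_map, top_sup_eq, AddSubgroup.relIndex_top_right, hker,
    ← map_sup, Subgroup.index_toAddSubgroup, sup_comm]

end

/-- Blueprint 6.0 for subgroups which are finite modulo `n`-th powers -/
theorem exists_isKummer_of_relIndex (n : ℕ) (hn : 0 < n) (K : Type u) [Field K] [NumberField K]
    (Δ : Subgroup Kˣ) (hΔ : (Pw n K).relIndex Δ ≠ 0) :
    ∃ (L : Type u) (_ : Field L) (_ : NumberField L) (_ : Algebra K L), IsKummer n Δ L := by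
  classical
  have hfi : ((Pw n K).subgroupOf Δ).FiniteIndex := ⟨hΔ⟩
  have hfin : Finite (Δ ⧸ (Pw n K).subgroupOf Δ) := Subgroup.finite_quotient_of_finiteIndex
  have := Fintype.ofFinite (Δ ⧸ (Pw n K).subgroupOf Δ)
  let T : Finset Kˣ := Finset.univ.image fun q : Δ ⧸ (Pw n K).subgroupOf Δ => ((Quotient.out q : Δ) : Kˣ)
  let Δ₀ : Subgroup Kˣ := Subgroup.closure (T : Set Kˣ)
  have hle : Δ₀ ≤ Δ := by
    rw [Subgroup.closure_le]
    intro t ht
    obtain ⟨q, -, rfl⟩ := Finset.mem_image.1 ht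
    exact (Quotient.out q : Δ).2
  obtain ⟨L, _, _, _, hL⟩ := exists_isKummer n hn K Δ₀ ⟨T, rfl⟩
  refine ⟨L, inferInstance, inferInstance, inferInstance, ?_, ?_⟩
  · intro a ha
    set q : Δ ⧸ (Pw n K).subgroupOf Δ := QuotientGroup.mk ⟨a, ha⟩ with hq
    have h1 : ((Quotient.out q : Δ) : Kˣ) ∈ Δ₀ :=
      Subgroup.subset_closure (Finset.mem_coe.2 (Finset.mem_image.2 ⟨q, Finset.mem_univ _, rfl⟩))
    have h2 : (QuotientGroup.mk (Quotient.out q) : Δ ⧸ (Pw n K).subgroupOf Δ) = QuotientGroup.mk ⟨a, ha⟩ :=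
      Quotient.out_eq q
    rw [QuotientGroup.eq, Subgroup.mem_subgroupOf] at h2
    obtain ⟨b, hb⟩ := h2
    obtain ⟨x, hx⟩ := hL.exists_root _ h1
    refine ⟨x * algebraMap K L (b : K), ?_⟩
    rw [mul_pow, hx, ← map_pow, ← map_mul]
    congr 1
    have h3 : (b : Kˣ) ^ n = ((Quotient.out q : Δ) : Kˣ)⁻¹ * a := by simpa using hb
    have h4 : ((b ^ n : Kˣ) : K) = ((((Quotient.out q : Δ) : Kˣ)⁻¹ * a : Kˣ) : K) := by rw [h3]
    rw [Units.val_pow_eq_pow_val] at h4
    rw [h4]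
    simp
  · rw [eq_top_iff, ← hL.adjoin_eq_top]
    refine IntermediateField.adjoin.mono K _ _ ?_
    rintro x ⟨a, ha, hx⟩
    exact ⟨a, hle ha, hx⟩

/-- `K(a^{1/n})/K` is cyclic -/
theorem IsKummer.isCyclic_zpowers {n : ℕ} (hn : 0 < n) {K : Type*} [Field K] {L : Type*} [Field L]
    [Algebra K L] (hμ : ∃ ζ : K, IsPrimitiveRoot ζ n) {a : Kˣ}
    (h : IsKummer n (Subgroup.zpowers a) L) : IsCyclic Gal(L/K) := by
  have : NeZero n := ⟨hn.ne'⟩
  let a' : Subgroup.zpowers a := ⟨a, Subgroup.mem_zpowers a⟩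
  let f : Gal(L/K) →* Kˣ := (MonoidHom.eval a').comp (h.pairHom hn hμ)
  have hf : Function.Injective f := by
    intro σ τ hστ
    apply h.pairHom_injective hn hμ
    refine MonoidHom.ext ?_
    rintro ⟨b, hb⟩
    obtain ⟨k, rfl⟩ := Subgroup.mem_zpowers_iff.1 hb
    have h1 : (⟨a ^ k, hb⟩ : Subgroup.zpowers a) = a' ^ k := rfl
    rw [h1, map_zpow, map_zpow]
    congr 1
  have hfin : Finite Gal(L/K) := by
    let g : Gal(L/K) → rootsOfUnity n K := fun σ => ⟨f σ, by
      rw [mem_rootsOfUnity]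
      exact h.pair_pow hn hμ σ a'⟩
    refine Finite.of_injective g ?_
    intro σ τ hστ
    exact hf (congrArg Subtype.val hστ)
  exact isCyclic_of_injective_ringHom ((Units.coeHom K).comp f) (Units.val_injective.comp hf)

/-- an `S`-unit which is a local `n`-th power at all primes of `S` is an `n`-th power
(`F = K(u^{1/n})` splits at `S`, is unramified outside `S`: `hidx K F = 1` by `hidx_le_index`; first inequality) -/
theorem unit_powLocS_mem_pw {K : Type*} [Field K] [NumberField K] [IsTotallyComplex K] (n : ℕ) (hn : 0 < n)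
    (hμ : ∃ ζ : K, IsPrimitiveRoot ζ n) (S : Finset (Pl K)) (hS : ∀ v : Pl K, ord v (n : K) ≠ 0 → v ∈ S)
    (hcl : ClS (S : Set (Pl K))) (u : Kˣ) (hu : u ∈ (S : Set (Pl K)).unit K)
    (hloc : ∀ v ∈ S, u ∈ PowLoc n v) : u ∈ Pw n K := by
  obtain ⟨F, _, _, _, hF⟩ := exists_isKummer n hn K (Subgroup.zpowers u)
    ⟨{u}, by rw [Finset.coe_singleton, Subgroup.zpowers_eq_closure]⟩
  have hgal : IsGalois K F := hF.isGalois hn hμ
  have hcyc : IsCyclic Gal(F/K) := IsKummer.isCyclic_zpowers hn hμ hF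
  have hur : ∀ v ∉ S, Unram K F v := by
    intro v hv
    refine hF.unram hn hμ v (by_contra fun h => hv (hS v h)) ?_
    intro a ha
    have h1 : Subgroup.zpowers u ≤ (S : Set (Pl K)).unit K := by
      rw [Subgroup.zpowers_le]; exact hu
    exact (mem_unit_iff _ a).1 (h1 ha) v hv
  have hsplit : ∀ v ∈ S, Split K F v := by
    intro v hv
    refine hF.split hn hμ v ?_
    intro a ha
    have h1 : Subgroup.zpowers u ≤ PowLoc n v := by
      rw [Subgroup.zpowers_le]; exact hloc v hv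
    exact h1 ha
  have htop : NlocS K F (S : Set (Pl K)) = ⊤ := by
    unfold NlocS
    rw [eq_top_iff]
    refine le_iInf₂ fun v hv => ?_
    rw [nloc_of_split K F v (hsplit v hv)]
  have h1 := finrank_eq_one_of_sup_eq_top K F S hur hcl (by rw [htop, sup_top_eq])
  rw [hF.finrank_eq hn hμ, Subgroup.relIndex_eq_one] at h1
  exact h1 (Subgroup.mem_zpowers u)

end Claimed.Agent.R239.CFT
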