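import Claimed.Agent.R239.CFT.P9a

/-!
# R239 / CFT : package P9, file b: the Kummer extension `L = K(K_S^{1/n})` (Blueprint 9.1)

See the plan in `P9a.lean`.  Owner of the chain: helper299.
-/

set_option autoImplicit false

namespace Claimed.Agent.R239.CFT

open IsDedekindDomain NumberField

/-- `{ dvS S a | a ∈ PowLoc n v for all v ∈ S }` -/
noncomputable def powDiv {K : Type*} [Field K] [NumberField K] (n : ℕ) (S : Finset (Pl K)) :
    AddSubgroup (Div K) :=
  (Subgroup.toAddSubgroup (⨅ v ∈ S, PowLoc n v)).map (dvSHom (S : Set (Pl K)))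

theorem mem_powDiv {K : Type*} [Field K] [NumberField K] {n : ℕ} {S : Finset (Pl K)} {D : Div K} :
    D ∈ powDiv n S ↔ ∃ a : Kˣ, (∀ v ∈ S, a ∈ PowLoc n v) ∧ dvS (S : Set (Pl K)) (a : K) = D := by
  unfold powDiv
  rw [AddSubgroup.mem_map]
  constructor
  · rintro ⟨x, hx, rfl⟩
    refine ⟨Additive.toMul x, ?_, rfl⟩
    have hx' : Additive.toMul x ∈ (⨅ v ∈ S, PowLoc n v : Subgroup Kˣ) := hx
    simpa only [Subgroup.mem_iInf] using hx'
  · rintro ⟨a, ha, rfl⟩
    refine ⟨Additive.ofMul a, ?_, rfl⟩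
    show a ∈ (⨅ v ∈ S, PowLoc n v : Subgroup Kˣ)
    simpa only [Subgroup.mem_iInf] using ha

variable {K : Type*} [Field K] [NumberField K] {n : ℕ} (hn : 0 < n)
  (hμ : ∃ ζ : K, IsPrimitiveRoot ζ n) (S : Finset (Pl K))
  (hS : ∀ v : Pl K, ord v (n : K) ≠ 0 → v ∈ S) (hcl : ClS (S : Set (Pl K)))

include hn hμ hS hcl in
/-- `(IS S : powDiv n S) = n ^ (|S| + r₂)`:
`= (Kˣ : K_S P_S) = (Kˣ : P_S) / (K_S : K_S ∩ P_S)`, `(Kˣ : P_S) = ∏ n² N v ^ ord_v n = n ^ (2 |S| + [K:ℚ])`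
(`powLocS_index`, `powLoc_index`, `prod_card_pow_ord`), `K_S ∩ P_S = K_S ∩ Kˣⁿ` (`unit_powLocS_mem_pw`, `pow_mem_powLoc`),
`(K_S : K_S ∩ Kˣⁿ) = n ^ (|S| + r₂)` (`card_unit_quot`), `[K:ℚ] = 2 r₂`. -/
theorem powDiv_relIndex [IsTotallyComplex K] :
    (powDiv n S).relIndex (IS (S : Set (Pl K))) = n ^ (S.card + InfinitePlace.nrComplexPlaces K) := by
  classical
  unfold powDiv
  rw [relIndex_map_dvSHom (S : Set (Pl K)) hcl]
  set U := (S : Set (Pl K)).unit K with hU
  set E0 : Subgroup Kˣ := ⨅ v ∈ S, PowLoc n v with hE0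
  set r := InfinitePlace.nrComplexPlaces K with hr
  have h1 : E0.index = n ^ (S.card + r) * n ^ (S.card + r) := by
    rw [hE0, powLocS_index n hn S, Finset.prod_congr rfl (fun v _ => powLoc_index n hn hμ v),
      Finset.prod_mul_distrib, prod_card_pow_ord n hn S hS, Finset.prod_const,
      IsTotallyComplex.finrank, ← pow_mul, ← pow_add, ← pow_add]
    congr 1
    ring
  have h3 : E0 ⊓ U = Pw n K ⊓ U := by
    apply le_antisymm
    · rintro b ⟨hb1, hb2⟩
      refine ⟨unit_powLocS_mem_pw n hn hμ S hS hcl b hb2 ?_, hb2⟩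
      intro v hv
      have : b ∈ E0 := hb1
      simp only [hE0, Subgroup.mem_iInf] at this
      exact this v hv
    · rintro b ⟨⟨x, rfl⟩, hb2⟩
      refine ⟨?_, hb2⟩
      show _ ∈ E0
      simp only [hE0, Subgroup.mem_iInf]
      intro v _
      exact pow_mem_powLoc n v x
  have h4 : E0.relIndex U = n ^ (S.card + r) := by
    rw [← Subgroup.inf_relIndex_right, h3, Subgroup.inf_relIndex_right, hU,
      card_unit_quot K n hμ hn S]
  have h5 : E0.relIndex (U ⊔ E0) * (U ⊔ E0).index = E0.index :=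
    Subgroup.relIndex_mul_index le_sup_right
  rw [Subgroup.relIndex_sup_right, h4, h1] at h5
  exact Nat.eq_of_mul_eq_mul_left (pow_pos hn _) h5

variable {L : Type*} [Field L] [NumberField L] [Algebra K L]
  (h : IsKummer n ((S : Set (Pl K)).unit K) L)

include hn hμ h in
theorem kumS_finrank [IsTotallyComplex K] :
    Module.finrank K L = n ^ (S.card + InfinitePlace.nrComplexPlaces K) := by
  rw [h.finrank_eq hn hμ, card_unit_quot K n hμ hn S]

include hn hμ hS h in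
theorem kumS_unram [IsGalois K L] (v : Pl K) (hv : v ∉ S) : Unram K L v := by
  refine h.unram hn hμ v ?_ ?_
  · by_contra hne
    exact hv (hS v hne)
  · intro a ha
    exact (mem_unit_iff _ a).1 ha v (by simpa using hv)

include hn hμ hS h in
/-- `powDiv n S ≤ ker art`: `a / bⁿ ∈ Ray c` (`powLocS_approx`), `art_ray_eq_zero`, and `Gal(L/K)` has exponent `n` -/
theorem powDiv_le_artKer {ℓ : ℕ} (hℓ : ℓ.Prime) (h2 : ℓ ≠ 2) (hnℓ : ∃ k, n = ℓ ^ k) (hμℓ : HasMu ℓ K)
    [IsAbelianGalois K L] : powDiv n S ≤ artKer K L (S : Set (Pl K)) := by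
  classical
  intro D hD
  obtain ⟨a, ha, rfl⟩ := mem_powDiv.1 hD
  refine mem_artKer.2 ⟨?_, dvS_mem_IS _ _⟩
  have := hμℓ.isTotallyComplex hℓ h2
  obtain ⟨c, hcS, hc⟩ := exists_admissible K L S (fun v hv => kumS_unram hn hμ S hS h v hv)
  -- a uniform level
  obtain ⟨b, hb⟩ := powLocS_approx n S a ha (S.sup c + 1)
  set a' : Kˣ := a / b ^ n with ha'
  have ha'v : (a' : K) = (a : K) / (b : K) ^ n := by
    simp [ha']
  have hray : a' ∈ Ray c := by
    intro v hv
    rw [hcS] at hv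
    rw [ha'v]
    exact (hb v hv).mono ((Finset.le_sup hv).trans (Nat.le_succ _))
  have hdeg : ∃ k, Module.finrank K L = ℓ ^ k := by
    obtain ⟨k, rfl⟩ := hnℓ
    exact ⟨k * (S.card + InfinitePlace.nrComplexPlaces K), by
      rw [kumS_finrank hn hμ S h, pow_mul]⟩
  have h0 := art_ray_eq_zero hℓ h2 K L hμℓ hdeg c hc a' hray
  have h1 : dv (a' : K) = dvS (S : Set (Pl K)) (a' : K) := by
    refine (dvS_eq_dv_of_forall _ _ fun v hv => ?_).symm
    rw [ha'v]
    exact (hb v hv).ord_eq_zero (Nat.succ_le_succ (Nat.zero_le _))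
  have h3 : dvS (S : Set (Pl K)) (a : K) =
      dvS (S : Set (Pl K)) (a' : K) + n • dvS (S : Set (Pl K)) (b : K) := by
    have e : Additive.ofMul a = Additive.ofMul a' + n • Additive.ofMul b := by
      rw [← ofMul_pow, ← ofMul_mul, ha']
      simp
    have := congrArg (dvSHom (S : Set (Pl K))) e
    rwa [map_add, map_nsmul, dvSHom_apply, dvSHom_apply, dvSHom_apply] at this
  have h4 : ∀ x : Additive Gal(L/K), n • x = 0 := by
    intro x
    have := h.pow_eq_one hn hμ (Additive.toMul x)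
    exact congrArg Additive.ofMul this
  rw [h3, map_add, map_nsmul, h4, add_zero, ← h1, h0]

include hn hμ hS hcl h in
/-- Blueprint 9.1 -/
theorem artKer_eq_powDiv {ℓ : ℕ} (hℓ : ℓ.Prime) (h2 : ℓ ≠ 2) (hnℓ : ∃ k, n = ℓ ^ k) (hμℓ : HasMu ℓ K)
    [IsAbelianGalois K L] : artKer K L (S : Set (Pl K)) = powDiv n S := by
  have := hμℓ.isTotallyComplex hℓ h2
  have hle := powDiv_le_artKer hn hμ S hS h hℓ h2 hnℓ hμℓ
  refine le_antisymm ?_ hle
  have h1 := AddSubgroup.relIndex_mul_relIndex (powDiv n S) (artKer K L (S : Set (Pl K)))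
    (IS (S : Set (Pl K))) hle inf_le_right
  rw [artKer_relIndex K L S, powDiv_relIndex hn hμ S hS hcl, kumS_finrank hn hμ S h] at h1
  have h2' : (powDiv n S).relIndex (artKer K L (S : Set (Pl K))) = 1 :=
    Nat.eq_of_mul_eq_mul_right (pow_pos hn _) (by rw [h1, one_mul])
  exact AddSubgroup.relIndex_eq_one.1 h2'

end Claimed.Agent.R239.CFT
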