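import Claimed.Agent.R239.CFT.P9b

/-!
# R239 / CFT : package P9, file c: CFT-2 when `μ_n ⊆ K` (Blueprint 9.2)

See the plan in `P9a.lean`.  Owner of the chain: helper299.
-/

set_option autoImplicit false

namespace Claimed.Agent.R239.CFT

open IsDedekindDomain NumberField

/-- a homomorphism killing the kernel of the Artin map factors through the Galois group (5.3) -/
theorem exists_char_of_artKer_le (K : Type*) [Field K] [NumberField K] (L : Type*) [Field L] [NumberField L]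
    [Algebra K L] [IsAbelianGalois K L] [IsTotallyComplex K] (S : Finset (Pl K)) {A : Type*}
    [AddCommGroup A] (ψ : Div K →+ A) (h : ∀ D ∈ artKer K L (S : Set (Pl K)), ψ D = 0) :
    ∃ x : Additive Gal(L/K) →+ A, ∀ D ∈ IS (S : Set (Pl K)), x (art K L D) = ψ D := by
  let φ : IS (S : Set (Pl K)) →+ Additive Gal(L/K) := (art K L).comp (IS (S : Set (Pl K))).subtype
  have hφ : Function.Surjective φ := by
    intro g
    obtain ⟨D, hD, rfl⟩ := art_surjective K L S g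
    exact ⟨⟨D, hD⟩, rfl⟩
  have hker : φ.ker ≤ (ψ.comp (IS (S : Set (Pl K))).subtype).ker := by
    intro D hD
    exact h D.1 ⟨hD, D.2⟩
  refine ⟨φ.liftOfSurjective hφ ⟨_, hker⟩, fun D hD => ?_⟩
  exact φ.liftOfRightInverse_comp_apply _ _ ⟨_, hker⟩ ⟨D, hD⟩

/-- a congruence character with values in `ℤ/n` kills `powDiv n S` -/
theorem psi_powDiv_eq_zero {K : Type*} [Field K] [NumberField K] (n : ℕ) (S : Finset (Pl K)) (N : ℕ)
    (ψ : Div K →+ ZMod n) (hψ : ∀ a : Kˣ, (∀ v ∈ S, One v N (a : K)) → ψ (dv (a : K)) = 0)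
    (D : Div K) (hD : D ∈ powDiv n S) : ψ D = 0 := by
  obtain ⟨a, ha, rfl⟩ := mem_powDiv.1 hD
  obtain ⟨b, hb⟩ := powLocS_approx n S a ha (N + 1)
  have h1 : (a : K) = ((a / b ^ n : Kˣ) : K) * ((b ^ n : Kˣ) : K) := by
    rw [← Units.val_mul, div_mul_cancel]
  have hb' : ∀ v ∈ S, One v (N + 1) ((a / b ^ n : Kˣ) : K) := by
    intro v hv
    simpa using hb v hv
  rw [h1, dvS_mul _ (Units.ne_zero _) (Units.ne_zero _), map_add,
    dvS_eq_dv_of_forall _ _ (fun v hv => (hb' v hv).ord_eq_zero (by omega)),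
    hψ _ (fun v hv => (hb' v hv).mono (Nat.le_succ N)), zero_add]
  have h2 : dvS (S : Set (Pl K)) ((b ^ n : Kˣ) : K) = n • dvS (S : Set (Pl K)) (b : K) := by
    have := map_nsmul (dvSHom (S : Set (Pl K))) n (Additive.ofMul b)
    exact this
  rw [h2, map_nsmul]
  simp

/-- Blueprint 9.2 -/
theorem cft2_mu {ℓ : ℕ} (hℓ : ℓ.Prime) (h2 : ℓ ≠ 2) {K : Type*} [Field K] [NumberField K] (hμℓ : HasMu ℓ K)
    (k : ℕ) (hμ : ∃ ζ : K, IsPrimitiveRoot ζ (ℓ ^ k)) (S : Finset (Pl K))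
    (hS : ∀ v : Pl K, (ℓ : 𝓞 K) ∈ v.asIdeal → v ∈ S) (hcl : ClS (S : Set (Pl K)))
    {L : Type*} [Field L] [NumberField L] [Algebra K L] [IsAbelianGalois K L]
    (h : IsKummer (ℓ ^ k) ((S : Set (Pl K)).unit K) L) (N : ℕ) (ψ : Div K →+ ZMod (ℓ ^ k))
    (hψ : ∀ a : Kˣ, (∀ v ∈ S, One v N (a : K)) → ψ (dv (a : K)) = 0) :
    ∃ x : Additive Gal(L/K) →+ ZMod (ℓ ^ k), ∀ D ∈ IS (S : Set (Pl K)), x (art K L D) = ψ D := by
  have := hμℓ.isTotallyComplex hℓ h2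
  have hS' : ∀ v : Pl K, ord v ((ℓ ^ k : ℕ) : K) ≠ 0 → v ∈ S := by
    intro v hv
    apply hS v
    apply (over_iff ℓ hℓ.ne_zero v).2
    intro h0
    apply hv
    rw [Nat.cast_pow, ord_pow, h0, mul_zero]
  refine exists_char_of_artKer_le K L S ψ fun D hD => ?_
  rw [artKer_eq_powDiv (pow_pos hℓ.pos k) hμ S hS' hcl h hℓ h2 ⟨k, rfl⟩ hμℓ] at hD
  exact psi_powDiv_eq_zero _ S N ψ hψ D hD

end Claimed.Agent.R239.CFT
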