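import Claimed.Agent.R239.CFT.P8a
import Claimed.Agent.R239.CFT.P8c5

/-!
# R239 / CFT : package P9, file d: conjugation equivariance of the Artin map (Blueprint 8.2 (d))

See the plan in `P9a.lean`.  Owner of the chain: helper299.  Proofs: helper108 (prefix `p9d_` for the auxiliary lemmas).
Setting: `K ⊆ K' ⊆ L'`, `K'/K` and `L'/K` Galois.
-/

set_option autoImplicit false
set_option linter.unusedSectionVars false

namespace Claimed.Agent.R239.CFT

open IsDedekindDomain NumberField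

section divisors

variable (K : Type*) [Field K] [NumberField K] (K' : Type*) [Field K'] [NumberField K'] [Algebra K K']
  [IsGalois K K']

/-- the action of `Gal(K'/K)` on the divisors of `K'` -/
noncomputable def smulDiv (g : Gal(K'/K)) : Div K' →+ Div K' :=
  Finsupp.mapDomain.addMonoidHom (fun w : Pl K' => g • w)

theorem smulDiv_single (g : Gal(K'/K)) (w : Pl K') (n : ℤ) :
    smulDiv K K' g (Finsupp.single w n) = Finsupp.single (g • w) n :=
  Finsupp.mapDomain_single

theorem Nm_smulDiv (g : Gal(K'/K)) (D : Div K') : Nm K K' (smulDiv K K' g D) = Nm K K' D := by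
  induction D using Finsupp.induction_linear with
  | zero => simp
  | add f g hf hg => rw [map_add, map_add, map_add, hf, hg]
  | single w n => rw [smulDiv_single, Nm_single, Nm_single, below_smul, fdeg_smul]

theorem p9d_smulDiv_apply (g : Gal(K'/K)) (D : Div K') (w : Pl K') :
    smulDiv K K' g D (g • w) = D w :=
  Finsupp.mapDomain_apply (MulAction.injective g) D w

theorem smulDiv_mem_IS (g : Gal(K'/K)) (S : Set (Pl K)) (D : Div K') (hD : D ∈ IS (above K K' S)) :
    smulDiv K K' g D ∈ IS (above K K' S) := by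
  intro w hw
  have h1 : g⁻¹ • w ∈ above K K' S := by
    rw [mem_above_iff, below_smul]
    exact hw
  have h2 := p9d_smulDiv_apply K K' g D (g⁻¹ • w)
  rw [smul_inv_smul] at h2
  rw [h2]
  exact hD _ h1

/-- the units outside the primes above `S` are stable under the Galois group -/
theorem unit_above_stable (g : Gal(K'/K)) (S : Set (Pl K)) (a : K'ˣ) (ha : a ∈ (above K K' S).unit K') :
    Units.map ((g : K' →+* K') : K' →* K') a ∈ (above K K' S).unit K' := by
  rw [mem_unit_iff] at ha ⊢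
  intro v hv
  have h1 : g⁻¹ • v ∉ above K K' S := by
    rw [mem_above_iff, below_smul]
    exact hv
  have h2 := ord_smul K K' g (g⁻¹ • v) (a : K')
  rw [smul_inv_smul] at h2
  show ord v (g (a : K')) = 0
  rw [h2]
  exact ha _ h1

end divisors

section conj

variable {K : Type*} [Field K] [NumberField K] {K' : Type*} [Field K'] [NumberField K'] [Algebra K K']
  {L' : Type*} [Field L'] [NumberField L'] [Algebra K L'] [Algebra K' L'] [IsScalarTower K K' L']
  [IsGalois K K']

/-- `σ ↦ τ σ τ⁻¹`, `τ ∈ Gal(L'/K)`, `σ ∈ Gal(L'/K')` -/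
theorem exists_conjAut (τ : Gal(L'/K)) (σ : Gal(L'/K')) :
    ∃ ρ : Gal(L'/K'), ∀ x : L', ρ x = τ (σ (τ⁻¹ x)) := by
  refine ⟨AlgEquiv.ofRingEquiv
    (f := ((τ⁻¹ : Gal(L'/K)).toRingEquiv.trans σ.toRingEquiv).trans τ.toRingEquiv) ?_, fun x => rfl⟩
  intro a
  show τ (σ (τ⁻¹ (algebraMap K' L' a))) = algebraMap K' L' a
  have h1 : τ⁻¹ (algebraMap K' L' a) = algebraMap K' L' (AlgEquiv.restrictNormal τ⁻¹ K' a) :=
    (AlgEquiv.restrictNormal_commutes τ⁻¹ K' a).symm
  rw [h1, AlgEquiv.commutes, ← h1]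
  exact AlgEquiv.apply_symm_apply τ _

/-- `τ σ τ⁻¹` as an element of `Gal(L'/K')` -/
noncomputable def conjAut (τ : Gal(L'/K)) (σ : Gal(L'/K')) : Gal(L'/K') := (exists_conjAut τ σ).choose

theorem conjAut_apply (τ : Gal(L'/K)) (σ : Gal(L'/K')) (x : L') : conjAut τ σ x = τ (σ (τ⁻¹ x)) :=
  (exists_conjAut τ σ).choose_spec x

theorem conjAut_mul (τ : Gal(L'/K)) (σ σ' : Gal(L'/K')) :
    conjAut τ (σ * σ') = conjAut τ σ * conjAut τ σ' := by
  ext x
  rw [AlgEquiv.mul_apply, conjAut_apply, conjAut_apply, conjAut_apply, AlgEquiv.mul_apply]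
  congr 2
  exact (AlgEquiv.symm_apply_apply τ _).symm

/-- `conjAut τ` as a homomorphism. -/
noncomputable def p9d_conjHom (τ : Gal(L'/K)) : Gal(L'/K') →* Gal(L'/K') :=
  MonoidHom.mk' (conjAut τ) (conjAut_mul τ)

theorem conjAut_zpow (τ : Gal(L'/K)) (σ : Gal(L'/K')) (n : ℤ) :
    conjAut τ (σ ^ n) = conjAut τ σ ^ n :=
  map_zpow (p9d_conjHom τ) σ n

variable [IsGalois K L'] [IsGalois K' L']

open Pointwise in
theorem p9d_below_smul (τ : Gal(L'/K)) (W : Pl L') :
    below K' L' (τ • W) = AlgEquiv.restrictNormalHom K' τ • below K' L' W := by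
  apply HeightOneSpectrum.ext
  ext x
  show algebraMap (𝓞 K') (𝓞 L') x ∈ τ • W.asIdeal ↔
    x ∈ AlgEquiv.restrictNormalHom K' τ • (W.asIdeal.under (𝓞 K'))
  rw [Ideal.mem_pointwise_smul_iff_inv_smul_mem, Ideal.mem_pointwise_smul_iff_inv_smul_mem,
    ← map_inv, Ideal.mem_under, algebraMap_restrict_smul K K' L']

theorem p9d_eidx_smul (τ : Gal(L'/K)) (W : Pl L') : eidx K' L' (τ • W) = eidx K' L' W := by
  have h1 := eidx_tower K K' L' (τ • W)
  have h2 := eidx_tower K K' L' W
  rw [eidx_smul, p9d_below_smul, eidx_smul, h2] at h1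
  exact (Nat.eq_of_mul_eq_mul_left (eidx_pos K K' _) h1).symm

theorem unram_smul (τ : Gal(L'/K)) (w : Pl K') (h : Unram K' L' w) :
    Unram K' L' (AlgEquiv.restrictNormalHom K' τ • w) := by
  rw [unram_iff] at h ⊢
  intro W hW
  have h1 : below K' L' (τ⁻¹ • W) = w := by
    rw [p9d_below_smul, hW, map_inv, inv_smul_smul]
  have h2 := p9d_eidx_smul (K := K) (K' := K') τ (τ⁻¹ • W)
  rw [smul_inv_smul τ W] at h2
  rw [h2]
  exact h _ h1

open Pointwise in
theorem p9d_card_quot_smul (g : Gal(K'/K)) (w : Pl K') :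
    Nat.card (𝓞 K' ⧸ (g • w).asIdeal) = Nat.card (𝓞 K' ⧸ w.asIdeal) := by
  refine (Nat.card_congr (Ideal.quotientEquiv w.asIdeal (g • w).asIdeal
    (MulSemiringAction.toRingEquiv Gal(K'/K) (𝓞 K') g) ?_).toEquiv).symm
  rfl

open Pointwise in
theorem isFrob_conjAut (τ : Gal(L'/K)) (σ : Gal(L'/K')) (w : Pl K') (h : IsFrob K' L' σ w) :
    IsFrob K' L' (conjAut τ σ) (AlgEquiv.restrictNormalHom K' τ • w) := by
  intro W hW
  have h1 : below K' L' (τ⁻¹ • W) = w := by
    rw [p9d_below_smul, hW, map_inv, inv_smul_smul]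
  have h2 := h _ h1
  intro x
  have h3 := h2 (τ⁻¹ • x)
  have e1 : (τ⁻¹ • W).asIdeal.under (𝓞 K') = w.asIdeal := congrArg HeightOneSpectrum.asIdeal h1
  have e2 : W.asIdeal.under (𝓞 K') = (AlgEquiv.restrictNormalHom K' τ • w).asIdeal :=
    congrArg HeightOneSpectrum.asIdeal hW
  rw [e1] at h3
  rw [e2, p9d_card_quot_smul]
  have h4 : τ • ((MulSemiringAction.toAlgHom (𝓞 K') (𝓞 L') σ) (τ⁻¹ • x)
      - (τ⁻¹ • x) ^ Nat.card (𝓞 K' ⧸ w.asIdeal)) ∈ τ • (τ⁻¹ • W).asIdeal :=
    Ideal.smul_mem_pointwise_smul _ _ _ h3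
  have e3 : τ • (τ⁻¹ • W).asIdeal = W.asIdeal := by
    rw [smul_asIdeal, smul_inv_smul]
  rw [e3, smul_sub, smul_pow', smul_inv_smul] at h4
  convert h4 using 2
  apply RingOfIntegers.ext
  exact conjAut_apply τ σ (x : L')

end conj

/-- Blueprint 8.2 (d) -/
theorem art_smulDiv {K : Type*} [Field K] [NumberField K] {K' : Type*} [Field K'] [NumberField K']
    [Algebra K K'] {L' : Type*} [Field L'] [NumberField L'] [Algebra K L'] [Algebra K' L']
    [IsScalarTower K K' L'] [IsGalois K K'] [IsGalois K L'] [IsAbelianGalois K' L'] (τ : Gal(L'/K))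
    (S' : Set (Pl K')) (hS' : ∀ w ∉ S', Unram K' L' w) (D : Div K') (hD : D ∈ IS S') :
    art K' L' (smulDiv K K' (AlgEquiv.restrictNormalHom K' τ) D) =
      Additive.ofMul (conjAut τ (Additive.toMul (art K' L' D))) := by
  open scoped IsMulCommutative in
  classical
  have hhom : ∀ a : Additive Gal(L'/K'), Additive.ofMul (conjAut τ (Additive.toMul a))
      = (MonoidHom.toAdditive (p9d_conjHom τ)) a := fun a => rfl
  rw [hhom, ← Finsupp.sum_single D, Finsupp.sum, map_sum, map_sum, map_sum, map_sum]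
  refine Finset.sum_congr rfl fun w hw => ?_
  have hw' : w ∉ S' := fun h => (Finsupp.mem_support_iff.1 hw) (hD w h)
  rw [smulDiv_single, art_single, art_single, map_zsmul]
  congr 1
  have h1 : frob K' L' (AlgEquiv.restrictNormalHom K' τ • w) = conjAut τ (frob K' L' w) :=
    isFrob_unique K' L' (unram_smul τ w (hS' w hw')) (frob_spec K' L' _)
      (isFrob_conjAut τ _ w (frob_spec K' L' w))
  rw [h1]
  rfl

end Claimed.Agent.R239.CFT
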