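import Claimed.Agent.R239.CFT.P6
import Claimed.Agent.R239.CFT.P9d

/-!
# R239 / CFT : package P9, file e: field theory of the descent (Blueprint 9.3)

See the plan in `P9a.lean`.  Owner of the chain: helper299.  Pure field / group theory (only `IsKummer`, `conjAut`, `HasMu` from the chain).
Proved by helper225 (helper lemmas: prefix `p9e`).
-/

set_option autoImplicit false

namespace Claimed.Agent.R239.CFT

open IsDedekindDomain NumberField

/-- the norm polynomial `∏_g (X^n - g a)` has coefficients in the base field -/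
theorem p9e_exists_normPoly (n : ℕ) (K : Type*) [Field K] {K' : Type*} [Field K'] [Algebra K K']
    [IsGalois K K'] [FiniteDimensional K K'] [Fintype Gal(K'/K)] (a : K') :
    ∃ P₀ : Polynomial K, P₀.map (algebraMap K K') =
      ∏ g : Gal(K'/K), (Polynomial.X ^ n - Polynomial.C (g a)) := by
  have hl : (∏ g : Gal(K'/K), (Polynomial.X ^ n - Polynomial.C (g a)) : Polynomial K') ∈
      Polynomial.lifts (algebraMap K K') := by
    rw [Polynomial.lifts_iff_coeff_lifts]
    intro m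
    rw [IsGalois.mem_range_algebraMap_iff_fixed]
    intro f
    have h1 : (∏ g : Gal(K'/K), (Polynomial.X ^ n - Polynomial.C (g a)) : Polynomial K').map
        (f : K' →+* K') = ∏ g : Gal(K'/K), (Polynomial.X ^ n - Polynomial.C (g a)) := by
      rw [Polynomial.map_prod]
      refine Fintype.prod_equiv (Equiv.mulLeft f) _ _ ?_
      intro g
      simp
    have h2 := congrArg (fun Q => Polynomial.coeff Q m) h1
    simpa [Polynomial.coeff_map] using h2
  exact hl

/-- a Kummer extension `L' = K'(Δ^{1/n})` of `K'` is Galois over `K` if `K'/K` is Galois and `Δ` is stable under `Gal(K'/K)` -/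
theorem IsKummer.isGalois_tower {n : ℕ} (hn : 0 < n) (K : Type*) [Field K] [CharZero K] {K' : Type*} [Field K']
    [Algebra K K'] {L' : Type*} [Field L'] [Algebra K L'] [Algebra K' L'] [IsScalarTower K K' L']
    [IsGalois K K'] [FiniteDimensional K L'] (hμ : ∃ ζ : K', IsPrimitiveRoot ζ n) {Δ : Subgroup K'ˣ}
    (h : IsKummer n Δ L')
    (hstab : ∀ (g : Gal(K'/K)), ∀ a ∈ Δ, Units.map ((g : K' →+* K') : K' →* K') a ∈ Δ) :
    IsGalois K L' := by
  classical
  have hfd' : FiniteDimensional K K' := FiniteDimensional.left K K' L'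
  have hsep : Algebra.IsSeparable K L' := inferInstance
  obtain ⟨ζ, hζ⟩ := hμ
  have hζ' : IsPrimitiveRoot (algebraMap K' L' ζ) n := hζ.map_of_injective (algebraMap K' L').injective
  let S : Set L' := Set.range (algebraMap K' L') ∪
    {x : L' | ∃ a ∈ Δ, x ^ n = algebraMap K' L' ((a : K'ˣ) : K')}
  have hS : ∀ x : L', x ∈ IntermediateField.adjoin K S := by
    intro x
    have hx : x ∈ IntermediateField.adjoin K'
        {x : L' | ∃ a ∈ Δ, x ^ n = algebraMap K' L' ((a : K'ˣ) : K')} :=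
      h.adjoin_eq_top ▸ IntermediateField.mem_top
    induction hx using IntermediateField.adjoin_induction with
    | mem x hx => exact IntermediateField.subset_adjoin K S (Or.inr hx)
    | algebraMap x => exact IntermediateField.subset_adjoin K S (Or.inl ⟨x, rfl⟩)
    | add x y _ _ hx hy => exact add_mem hx hy
    | inv x _ hx => exact inv_mem hx
    | mul x y _ _ hx hy => exact mul_mem hx hy
  have hsplit : ∀ x ∈ S, IsIntegral K x ∧ ((minpoly K x).map (algebraMap K L')).Splits := by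
    intro x hx
    refine ⟨Algebra.IsIntegral.isIntegral x, ?_⟩
    rcases hx with ⟨y, rfl⟩ | ⟨a, ha, hxa⟩
    · rw [minpoly.algebraMap_eq (algebraMap K' L').injective, IsScalarTower.algebraMap_eq K K' L',
        ← Polynomial.map_map]
      exact (Normal.splits inferInstance y).map _
    · cases nonempty_fintype Gal(K'/K)
      obtain ⟨P₀, hP₀⟩ := p9e_exists_normPoly n K ((a : K'ˣ) : K')
      have hmap : P₀.map (algebraMap K L') =
          ∏ g : Gal(K'/K), (Polynomial.X ^ n - Polynomial.C (algebraMap K' L' (g ((a : K'ˣ) : K')))) := by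
        rw [IsScalarTower.algebraMap_eq K K' L', ← Polynomial.map_map, hP₀, Polynomial.map_prod]
        refine Finset.prod_congr rfl fun g _ => ?_
        simp
      have hne : P₀.map (algebraMap K L') ≠ 0 := by
        rw [hmap]
        exact Finset.prod_ne_zero_iff.2 fun g _ => Polynomial.X_pow_sub_C_ne_zero hn _
      have hroot : Polynomial.aeval x P₀ = 0 := by
        rw [Polynomial.aeval_def, ← Polynomial.eval_map, hmap, Polynomial.eval_prod]
        refine Finset.prod_eq_zero (Finset.mem_univ (1 : Gal(K'/K))) ?_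
        simp [hxa]
      have hs : (P₀.map (algebraMap K L')).Splits := by
        rw [hmap]
        refine Polynomial.Splits.prod fun g _ => ?_
        obtain ⟨z, hz⟩ := h.exists_root _ (hstab g a ha)
        exact X_pow_sub_C_splits_of_isPrimitiveRoot hζ' hz
      exact hs.of_dvd hne (Polynomial.map_dvd _ (minpoly.dvd K x hroot))
  have hnorm : Normal K L' := normal_iff.2 fun x =>
    ⟨Algebra.IsIntegral.isIntegral x, IntermediateField.splits_of_mem_adjoin K L' hsplit (hS x)⟩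
  exact ⟨⟩

/-- group theory: a central extension of a cyclic group is abelian -/
theorem commute_mod_of_cyclic_quotient {Γ C : Type*} [Group Γ] [Group C] [IsCyclic C] (f : Γ →* C)
    (A₀ : Subgroup Γ) (h : ∀ τ : Γ, ∀ a ∈ f.ker, τ * a * τ⁻¹ * a⁻¹ ∈ A₀) (hA₀ : A₀ ≤ f.ker) (x y : Γ) :
    x * y * x⁻¹ * y⁻¹ ∈ A₀ := by
  have hN : A₀.Normal := by
    refine ⟨fun a ha τ => ?_⟩
    have h1 := A₀.mul_mem (h τ a (hA₀ ha)) ha
    simpa using h1
  let fb : Γ ⧸ A₀ →* C := QuotientGroup.lift A₀ f (fun a ha => hA₀ ha)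
  have hker : fb.ker ≤ Subgroup.center (Γ ⧸ A₀) := by
    intro q hq
    obtain ⟨a, rfl⟩ := QuotientGroup.mk_surjective q
    have ha : a ∈ f.ker := hq
    rw [Subgroup.mem_center_iff]
    intro r
    obtain ⟨τ, rfl⟩ := QuotientGroup.mk_surjective r
    have h1 := h τ a ha
    rw [← QuotientGroup.eq_one_iff] at h1
    have h2 : (τ : Γ ⧸ A₀) * (a : Γ ⧸ A₀) * (τ : Γ ⧸ A₀)⁻¹ * (a : Γ ⧸ A₀)⁻¹ = 1 := by
      simpa using h1
    calc (τ : Γ ⧸ A₀) * (a : Γ ⧸ A₀)
        = ((τ : Γ ⧸ A₀) * (a : Γ ⧸ A₀) * (τ : Γ ⧸ A₀)⁻¹ * (a : Γ ⧸ A₀)⁻¹) * ((a : Γ ⧸ A₀) * τ) := by group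
      _ = (a : Γ ⧸ A₀) * τ := by rw [h2, one_mul]
  have hc := (MonoidHom.isMulCommutative_of_isCyclic_of_ker_le_center fb hker).is_comm.comm
    (x : Γ ⧸ A₀) (y : Γ ⧸ A₀)
  rw [← QuotientGroup.eq_one_iff]
  have : ((x * y * x⁻¹ * y⁻¹ : Γ) : Γ ⧸ A₀) = (x : Γ ⧸ A₀) * y * (x : Γ ⧸ A₀)⁻¹ * (y : Γ ⧸ A₀)⁻¹ := by
    simp
  rw [this, hc]
  group

/-- `Gal(L'/K') → Gal(L'/K)` -/
noncomputable def p9eIota (K : Type*) [Field K] (K' : Type*) [Field K'] [Algebra K K'] (L' : Type*) [Field L']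
    [Algebra K L'] [Algebra K' L'] [IsScalarTower K K' L'] : Gal(L'/K') →* Gal(L'/K) where
  toFun σ := σ.restrictScalars K
  map_one' := rfl
  map_mul' _ _ := rfl

theorem p9eIota_apply (K : Type*) [Field K] (K' : Type*) [Field K'] [Algebra K K'] (L' : Type*) [Field L']
    [Algebra K L'] [Algebra K' L'] [IsScalarTower K K' L'] (σ : Gal(L'/K')) (x : L') :
    p9eIota K K' L' σ x = σ x := rfl

theorem p9e_ker_eq_range (K : Type*) [Field K] (K' : Type*) [Field K'] [Algebra K K'] (L' : Type*) [Field L']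
    [Algebra K L'] [Algebra K' L'] [IsScalarTower K K' L'] [Normal K K'] :
    (AlgEquiv.restrictNormalHom K' : Gal(L'/K) →* Gal(K'/K)).ker = (p9eIota K K' L').range := by
  ext τ
  rw [MonoidHom.mem_ker, MonoidHom.mem_range]
  constructor
  · intro hτ
    have hfix : ∀ y : K', τ (algebraMap K' L' y) = algebraMap K' L' y := by
      intro y
      rw [← AlgEquiv.restrictNormal_commutes τ K' y]
      have : τ.restrictNormal K' = 1 := hτ
      rw [this]
      rfl
    exact ⟨AlgEquiv.ofRingEquiv (f := τ.toRingEquiv) hfix, by ext x; rfl⟩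
  · rintro ⟨σ, rfl⟩
    ext y
    apply (algebraMap K' L').injective
    change algebraMap K' L' ((p9eIota K K' L' σ).restrictNormal K' y) = _
    rw [AlgEquiv.restrictNormal_commutes, p9eIota_apply, σ.commutes]
    rfl

/-- the fixed field of `A₀ ≤ Gal(L'/K')` is abelian over `K` if `K'/K` is cyclic and `A₀` contains all `τ σ τ⁻¹ σ⁻¹` -/
theorem descent_abelian (K : Type*) [Field K] [NumberField K] (K' : Type*) [Field K'] [NumberField K']
    [Algebra K K'] (L' : Type*) [Field L'] [NumberField L'] [Algebra K L'] [Algebra K' L']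
    [IsScalarTower K K' L'] [IsGalois K K'] [IsCyclic Gal(K'/K)] [IsGalois K L'] [IsAbelianGalois K' L']
    (A₀ : Subgroup Gal(L'/K')) (h : ∀ (τ : Gal(L'/K)) (σ : Gal(L'/K')), conjAut τ σ * σ⁻¹ ∈ A₀) :
    IsAbelianGalois K (IntermediateField.fixedField A₀) := by
  have hfd : FiniteDimensional K L' := Module.Finite.of_restrictScalars_finite ℚ K L'
  let ι := p9eIota K K' L'
  let f : Gal(L'/K) →* Gal(K'/K) := AlgEquiv.restrictNormalHom K'
  let B : Subgroup Gal(L'/K) := A₀.map ι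
  have hker : f.ker = ι.range := p9e_ker_eq_range K K' L'
  have hB : B ≤ f.ker := by
    rw [hker]
    rintro _ ⟨σ, -, rfl⟩
    exact ⟨σ, rfl⟩
  have hcomm : ∀ τ : Gal(L'/K), ∀ a ∈ f.ker, τ * a * τ⁻¹ * a⁻¹ ∈ B := by
    intro τ a ha
    rw [hker] at ha
    obtain ⟨σ, rfl⟩ := ha
    refine ⟨conjAut τ σ * σ⁻¹, h τ σ, ?_⟩
    rw [map_mul, map_inv]
    congr 1
    ext x
    rw [p9eIota_apply, conjAut_apply]
    rfl
  have hall := commute_mod_of_cyclic_quotient f B hcomm hB
  have hN : B.Normal := by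
    refine ⟨fun a ha τ => ?_⟩
    have h1 := B.mul_mem (hcomm τ a (hB ha)) ha
    simpa using h1
  have hG : IsGalois K (IntermediateField.fixedField B) := IsGalois.of_fixedField_normal_subgroup B
  have hC : IsMulCommutative Gal(IntermediateField.fixedField B/K) := by
    refine ⟨⟨fun p q => ?_⟩⟩
    obtain ⟨p, rfl⟩ := (IsGalois.normalAutEquivQuotient B).surjective p
    obtain ⟨q, rfl⟩ := (IsGalois.normalAutEquivQuotient B).surjective q
    rw [← map_mul, ← map_mul]
    congr 1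
    obtain ⟨x, rfl⟩ := QuotientGroup.mk_surjective p
    obtain ⟨y, rfl⟩ := QuotientGroup.mk_surjective q
    have h1 := hall x y
    rw [← QuotientGroup.eq_one_iff] at h1
    have h2 : (x : Gal(L'/K) ⧸ B) * (y : Gal(L'/K) ⧸ B) * (x : Gal(L'/K) ⧸ B)⁻¹ * (y : Gal(L'/K) ⧸ B)⁻¹ = 1 := by
      simpa using h1
    calc (x : Gal(L'/K) ⧸ B) * (y : Gal(L'/K) ⧸ B)
        = ((x : Gal(L'/K) ⧸ B) * (y : Gal(L'/K) ⧸ B) * (x : Gal(L'/K) ⧸ B)⁻¹ * (y : Gal(L'/K) ⧸ B)⁻¹) *
            ((y : Gal(L'/K) ⧸ B) * x) := by group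
      _ = (y : Gal(L'/K) ⧸ B) * x := by rw [h2, one_mul]
  have hmem : ∀ x : L', x ∈ IntermediateField.fixedField B ↔ x ∈ IntermediateField.fixedField A₀ := by
    intro x
    rw [IntermediateField.mem_fixedField_iff, IntermediateField.mem_fixedField_iff]
    constructor
    · intro hx σ hσ
      exact hx (ι σ) ⟨σ, hσ, rfl⟩
    · rintro hx _ ⟨σ, hσ, rfl⟩
      exact hx σ hσ
  let e : IntermediateField.fixedField B ≃ₐ[K] IntermediateField.fixedField A₀ :=
    { toFun := fun x => ⟨x.1, (hmem x.1).1 x.2⟩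
      invFun := fun x => ⟨x.1, (hmem x.1).2 x.2⟩
      left_inv := fun _ => rfl
      right_inv := fun _ => rfl
      map_mul' := fun _ _ => rfl
      map_add' := fun _ _ => rfl
      commutes' := fun _ => rfl }
  have hG' : IsGalois K (IntermediateField.fixedField A₀) := IsGalois.of_algEquiv e
  have hC' : IsMulCommutative Gal(IntermediateField.fixedField A₀/K) := by
    refine ⟨⟨fun p q => ?_⟩⟩
    apply (AlgEquiv.autCongr e).symm.injective
    rw [map_mul, map_mul]
    exact hC.is_comm.comm _ _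
  exact ⟨⟩

/-- `K(ζ_{ℓ^k})/K` is cyclic of `ℓ`-power degree if `μ_ℓ ⊆ K`, `ℓ` odd -/
theorem cyclotomic_ellpow {ℓ : ℕ} (hℓ : ℓ.Prime) (h2 : ℓ ≠ 2) (K : Type*) [Field K] [CharZero K] (hμ : HasMu ℓ K)
    (k : ℕ) (K' : Type*) [Field K'] [Algebra K K'] [IsCyclotomicExtension {ℓ ^ k} K K'] :
    IsGalois K K' ∧ IsCyclic Gal(K'/K) ∧ ∃ j, Module.finrank K K' = ℓ ^ j := by
  have : Fact ℓ.Prime := ⟨hℓ⟩
  have hne : NeZero (ℓ ^ k) := ⟨pow_ne_zero _ hℓ.ne_zero⟩
  have hG : IsGalois K K' := IsCyclotomicExtension.isGalois {ℓ ^ k} K K'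
  have hfd : FiniteDimensional K K' := IsCyclotomicExtension.finiteDimensional {ℓ ^ k} K K'
  have hζ := IsCyclotomicExtension.zeta_spec (ℓ ^ k) K K'
  set ζ := IsCyclotomicExtension.zeta (ℓ ^ k) K K' with hζdef
  have hinj := IsPrimitiveRoot.autToPow_injective K hζ
  have hcyc : IsCyclic (ZMod (ℓ ^ k))ˣ := ZMod.isCyclic_units_of_prime_pow ℓ hℓ h2 k
  refine ⟨hG, isCyclic_of_injective _ hinj, ?_⟩
  rw [← IsGalois.card_aut_eq_finrank K K']
  rw [← IsPGroup.iff_card]
  intro σ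
  refine ⟨k, hinj ?_⟩
  rw [map_pow, map_one]
  set u := IsPrimitiveRoot.autToPow K hζ σ with hu
  have hspec : ζ ^ (u : ZMod (ℓ ^ k)).val = σ ζ := IsPrimitiveRoot.autToPow_spec K hζ σ
  have h0 : ((ℓ : ZMod (ℓ ^ k))) ^ k = 0 := by
    rw [← Nat.cast_pow]
    exact ZMod.natCast_self _
  have hdvd : (ℓ : ZMod (ℓ ^ k)) ∣ (u : ZMod (ℓ ^ k)) - 1 := by
    rcases Nat.eq_zero_or_pos k with hk | hk
    · have h1 : (1 : ZMod (ℓ ^ k)) = 0 := by
        rw [← h0]
        exact (pow_zero _).symm.trans (congrArg (fun j => (ℓ : ZMod (ℓ ^ k)) ^ j) hk.symm)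
      have h3 : (u : ZMod (ℓ ^ k)) - 1 = 0 := by
        rw [← mul_one ((u : ZMod (ℓ ^ k)) - 1), h1, mul_zero]
      rw [h3]
      exact dvd_zero _
    · obtain ⟨ω, hω⟩ := hμ
      have hω' : IsPrimitiveRoot (algebraMap K K' ω) ℓ :=
        hω.map_of_injective (algebraMap K K').injective
      have hη : IsPrimitiveRoot (ζ ^ (ℓ ^ (k - 1))) ℓ := by
        refine hζ.pow (pow_pos hℓ.pos _) ?_
        rw [← pow_succ]
        congr 1
        omega
      have : NeZero ℓ := ⟨hℓ.ne_zero⟩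
      obtain ⟨i, -, hi⟩ := hω'.eq_pow_of_pow_eq_one hη.pow_eq_one
      have hfix : σ (ζ ^ (ℓ ^ (k - 1))) = ζ ^ (ℓ ^ (k - 1)) := by
        rw [← hi, ← map_pow, σ.commutes]
      have h4 : (ζ ^ (ℓ ^ (k - 1))) ^ (u : ZMod (ℓ ^ k)).val = ζ ^ (ℓ ^ (k - 1)) := by
        rw [← pow_mul, mul_comm, pow_mul, hspec, ← map_pow, hfix]
      have h5 : (ℓ : ℤ) ∣ (((u : ZMod (ℓ ^ k)).val : ℕ) : ℤ) - 1 := by
        rw [← hη.zpow_eq_one_iff_dvd, zpow_sub₀ (hη.ne_zero hℓ.ne_zero), zpow_natCast, zpow_one, h4]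
        exact div_self (hη.ne_zero hℓ.ne_zero)
      have h6 := map_dvd (Int.castRingHom (ZMod (ℓ ^ k))) h5
      simpa using h6
  have h7 := dvd_sub_pow_of_dvd_sub hdvd k
  rw [pow_succ, h0, zero_mul, zero_dvd_iff, one_pow, sub_eq_zero] at h7
  ext
  simpa using h7

end Claimed.Agent.R239.CFT
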