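import Claimed.Agent.R239.CFT.P9c
import Claimed.Agent.R239.CFT.P9e

/-!
# R239 / CFT : package P9, file f: descent and CFT-2 (Blueprint 9.3, 9.4)

See the plan in `P9a.lean`.  Owner of the chain: helper299.

DESCENT.  `K' = K(ζ_n)`, `n = ℓ^k`; `S ⊇ {v ∣ ℓ}` with `ClS (above S)`; `L' = K'(K'_{S'}^{1/n})`, `S' = above S`; `ψ' = ψ ∘ Nm_{K'/K}`;
`x'` from `cft2_mu` over `K'`: `x' (art_{L'/K'} D') = ψ (Nm D')`.  `A₀ = ker x'`, `E` = fixed field of `A₀`.
(1) `x' (τ σ τ⁻¹) = x' σ`: `σ = art D'` (5.3), `τ σ τ⁻¹ = art (τ D')` (`art_smulDiv`), `Nm (τ D') = Nm D'`.  So `E/K` is abelian (`descent_abelian`), of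
    `ℓ`-power degree.
(2) `c` admissible for `E/K`, support `S₁ ⊇ S`, `c v ≥ N`.  `Y ∈ artKer K E S₁` ==> `Y ∈ Hc K E c` (`reciprocity_P8`).  `ψ` kills `PRay c` (hypothesis) and
    `ψ (Nm_{E/K} 𝔄) = ψ (Nm_{K'/K} Nm_{E/K'} 𝔄) = x' (art_{L'/K'} (Nm_{E/K'} 𝔄)) = x' (art_{L'/E} 𝔄) = 0` (`art_Nm_tower`; `Gal(L'/E) = A₀`).
(3) `exists_char_of_artKer_le`.
-/

set_option autoImplicit false

namespace Claimed.Agent.R239.CFT

open IsDedekindDomain NumberField

universe u

/-- a finite set of primes of `K` containing a given one, whose primes above generate the class group of `K'` -/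
theorem exists_finset_ClS_above (K : Type*) [Field K] [NumberField K] (K' : Type*) [Field K'] [NumberField K']
    [Algebra K K'] (T : Finset (Pl K)) :
    ∃ S : Finset (Pl K), T ⊆ S ∧ ClS (above K K' (S : Set (Pl K))) := by
  classical
  obtain ⟨S', hS'⟩ := exists_ClS (K := K')
  refine ⟨T ∪ S'.image (below K K'), Finset.subset_union_left, hS'.mono ?_⟩
  intro w hw
  have hw' : w ∈ S' := hw
  rw [mem_above_iff]
  simp only [Finset.coe_union, Finset.coe_image, Set.mem_union, Set.mem_image]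
  exact Or.inr ⟨w, hw, rfl⟩

/- `finite_over` (the primes above `ℓ` form a finite set) is in `P8c4.lean` (`Over ℓ v` unfolds to `(ℓ : 𝓞 K) ∈ v.asIdeal`). -/

/-- a congruence character of `K` composed with the norm is a congruence character of `K'` -/
theorem psi_comp_Nm_congr (K : Type*) [Field K] [NumberField K] (K' : Type*) [Field K'] [NumberField K']
    [Algebra K K'] [IsGalois K K'] (S : Set (Pl K)) (N : ℕ) {A : Type*} [AddCommGroup A] (ψ : Div K →+ A)
    (hψ : ∀ a : Kˣ, (∀ v ∈ S, One v N (a : K)) → ψ (dv (a : K)) = 0) (a' : K'ˣ)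
    (ha' : ∀ w ∈ above K K' S, One w (N * Module.finrank K K') (a' : K')) :
    ψ (Nm K K' (dv (a' : K'))) = 0 := by
  rw [← dv_norm K K' a'.ne_zero]
  refine hψ (normU K K' a') fun v hv => ?_
  refine OneL.norm (L := K') fun w hw => ?_
  refine (ha' w (by rw [mem_above_iff, hw]; exact hv)).mono ?_
  exact Nat.mul_le_mul_left _ (eidx_le_finrank K K' w)

section descent

variable {ℓ : ℕ} (hℓ : ℓ.Prime) (h2 : ℓ ≠ 2)
  (K : Type*) [Field K] [NumberField K] (K' : Type*) [Field K'] [NumberField K'] [Algebra K K']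
  (L' : Type*) [Field L'] [NumberField L'] [Algebra K L'] [Algebra K' L'] [IsScalarTower K K' L']
  [IsGalois K K'] [IsGalois K L'] [IsAbelianGalois K' L']

/-- step (1) of the descent -/
theorem char_conj_invariant [IsTotallyComplex K'] (S : Finset (Pl K))
    (hur : ∀ w : Pl K', below K K' w ∉ S → Unram K' L' w) {A : Type*} [AddCommGroup A] (ψ : Div K →+ A)
    (x' : Additive Gal(L'/K') →+ A)
    (hx' : ∀ D' ∈ IS (above K K' (S : Set (Pl K))), x' (art K' L' D') = ψ (Nm K K' D'))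
    (τ : Gal(L'/K)) (σ : Gal(L'/K')) :
    x' (Additive.ofMul (conjAut τ σ)) = x' (Additive.ofMul σ) := by
  have hfin : (above K K' (S : Set (Pl K))).Finite := above_finite K K' S.finite_toSet
  obtain ⟨D, hD, hDσ⟩ := art_surjective K' L' hfin.toFinset (Additive.ofMul σ)
  rw [Set.Finite.coe_toFinset] at hD
  have h1 := art_smulDiv τ (above K K' (S : Set (Pl K))) (fun w hw => hur w hw) D hD
  rw [hDσ, toMul_ofMul] at h1
  rw [← h1, hx' _ (smulDiv_mem_IS K K' _ _ D hD), Nm_smulDiv, ← hx' D hD, hDσ]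

/-- step (2) of the descent: `ψ` kills the norms from the fixed field `E` of `ker x'` -/
theorem psi_Nm_fixedField_eq_zero (S : Finset (Pl K))
    (hur : ∀ w : Pl K', below K K' w ∉ S → Unram K' L' w) {A : Type*} [AddCommGroup A] (ψ : Div K →+ A)
    (x' : Additive Gal(L'/K') →+ A)
    (hx' : ∀ D' ∈ IS (above K K' (S : Set (Pl K))), x' (art K' L' D') = ψ (Nm K K' D'))
    (A₀ : Subgroup Gal(L'/K')) (hA₀ : ∀ σ ∈ A₀, x' (Additive.ofMul σ) = 0)
    (𝔄 : Div (IntermediateField.fixedField A₀))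
    (h𝔄 : 𝔄 ∈ IS (above K (IntermediateField.fixedField A₀) (S : Set (Pl K)))) :
    ψ (Nm K (IntermediateField.fixedField A₀) 𝔄) = 0 := by
  have h𝔄' : 𝔄 ∈ IS (above K' (IntermediateField.fixedField A₀) (above K K' (S : Set (Pl K)))) := by
    rw [above_above]
    exact h𝔄
  rw [← Nm_Nm K K' (IntermediateField.fixedField A₀), ← hx' _ (Nm_mem_IS K' _ h𝔄'),
    art_Nm_tower K' (IntermediateField.fixedField A₀) L' (above K K' (S : Set (Pl K)))
      (fun w hw => hur w hw) 𝔄 h𝔄']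
  refine hA₀ _ ?_
  generalize art (IntermediateField.fixedField A₀) L' 𝔄 = σ
  have h3 : (AlgEquiv.restrictScalarsHom K') (Additive.toMul σ) ∈
      (IntermediateField.fixedField A₀).fixingSubgroup := by
    rw [IntermediateField.mem_fixingSubgroup_iff]
    intro y hy
    exact (Additive.toMul σ).commutes ⟨y, hy⟩
  rwa [IntermediateField.fixingSubgroup_fixedField A₀] at h3

include hℓ h2 in
/-- Blueprint 9.3 -/
theorem cft2_descent [IsCyclic Gal(K'/K)] (hμ : HasMu ℓ K) (hdeg : ∃ j, Module.finrank K L' = ℓ ^ j)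
    (S : Finset (Pl K)) (hur : ∀ w : Pl K', below K K' w ∉ S → Unram K' L' w) {A : Type*}
    [AddCommGroup A] (N : ℕ) (ψ : Div K →+ A)
    (hψ : ∀ a : Kˣ, (∀ v ∈ S, One v N (a : K)) → ψ (dv (a : K)) = 0)
    (x' : Additive Gal(L'/K') →+ A)
    (hx' : ∀ D' ∈ IS (above K K' (S : Set (Pl K))), x' (art K' L' D') = ψ (Nm K K' D')) :
    ∃ (E : IntermediateField K' L') (_ : IsAbelianGalois K E) (x : Additive Gal(E/K) →+ A)
      (S₁ : Finset (Pl K)), (∀ v ∉ S₁, Unram K E v) ∧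
        ∀ v ∉ S₁, x (Additive.ofMul (frob K E v)) = ψ (Finsupp.single v 1) := by
  classical
  have hK : IsTotallyComplex K := hμ.isTotallyComplex hℓ h2
  have hK' : IsTotallyComplex K' := isTotallyComplex_of_algebra K K'
  let A₀ : Subgroup Gal(L'/K') := AddSubgroup.toSubgroup' x'.ker
  have hA₀ : ∀ σ : Gal(L'/K'), σ ∈ A₀ ↔ x' (Additive.ofMul σ) = 0 := fun σ => Iff.rfl
  have hab : IsAbelianGalois K (IntermediateField.fixedField A₀) := by
    refine descent_abelian K K' L' A₀ fun τ σ => ?_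
    rw [hA₀, ofMul_mul, map_add, char_conj_invariant K K' L' S hur ψ x' hx' τ σ, ofMul_inv, map_neg,
      add_neg_cancel]
  refine ⟨IntermediateField.fixedField A₀, hab, ?_⟩
  have hdegE : ∃ k, Module.finrank K (IntermediateField.fixedField A₀) = ℓ ^ k := by
    obtain ⟨j, hj⟩ := hdeg
    have : IsScalarTower K (IntermediateField.fixedField A₀) L' :=
      IsScalarTower.of_algebraMap_eq fun _ => rfl
    have h1 : Module.finrank K (IntermediateField.fixedField A₀) ∣ ℓ ^ j := by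
      rw [← hj, ← Module.finrank_mul_finrank K (IntermediateField.fixedField A₀) L']
      exact dvd_mul_right _ _
    obtain ⟨k, -, hk⟩ := (Nat.dvd_prime_pow hℓ).1 h1
    exact ⟨k, hk⟩
  set S₁ : Finset (Pl K) := S ∪ (finite_ram K (IntermediateField.fixedField A₀)).toFinset with hS₁
  have hur₁ : ∀ v ∉ S₁, Unram K (IntermediateField.fixedField A₀) v := by
    intro v hv
    by_contra hcon
    apply hv
    rw [hS₁, Finset.mem_union]
    right
    rw [Set.Finite.mem_toFinset]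
    exact hcon
  obtain ⟨c₀, hc₀s, hc₀⟩ := exists_admissible K (IntermediateField.fixedField A₀) S₁ hur₁
  set c : Modulus K := (N + 1) • c₀ with hc
  have hle : c₀ ≤ c := by
    intro v
    rw [hc, Finsupp.smul_apply, smul_eq_mul]
    exact Nat.le_mul_of_pos_left _ (Nat.succ_pos N)
  have hcs : c.support = S₁ := by
    rw [hc, Finsupp.support_smul_eq (Nat.succ_ne_zero N), hc₀s]
  have hcN : ∀ v ∈ S₁, N ≤ c v := by
    intro v hv
    rw [← hc₀s, Finsupp.mem_support_iff] at hv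
    rw [hc, Finsupp.smul_apply, smul_eq_mul]
    calc N ≤ (N + 1) * 1 := by omega
      _ ≤ (N + 1) * c₀ v := Nat.mul_le_mul_left _ (Nat.one_le_iff_ne_zero.2 hv)
  have hadm : Admissible K (IntermediateField.fixedField A₀) c := hc₀.mono hle
  have hker : ∀ D ∈ artKer K (IntermediateField.fixedField A₀) (S₁ : Set (Pl K)), ψ D = 0 := by
    intro D hD
    obtain ⟨h0, hIS⟩ := mem_artKer.1 hD
    have h1 : D ∈ Hc K (IntermediateField.fixedField A₀) c :=
      (reciprocity hℓ h2 K (IntermediateField.fixedField A₀) hμ hdegE c hadm D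
        (by rw [hcs]; exact hIS)).1 h0
    obtain ⟨y, hy, z, hz, rfl⟩ := AddSubgroup.mem_sup.1 h1
    obtain ⟨a, ha, rfl⟩ := (mem_PRay_iff c y).1 hy
    obtain ⟨𝔄, h𝔄, rfl⟩ := hz
    rw [map_add, hψ a fun v hv => ?_, zero_add]
    · refine psi_Nm_fixedField_eq_zero K K' L' S hur ψ x' hx' A₀ (fun σ hσ => (hA₀ σ).1 hσ) 𝔄 ?_
      intro w hw
      refine h𝔄 w ?_
      rw [mem_above_iff] at hw ⊢
      rw [hcs, hS₁]
      exact Finset.mem_coe.2 (Finset.mem_union_left _ hw)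
    · have hv₁ : v ∈ S₁ := Finset.mem_union_left _ hv
      exact (ha v (by rw [hcs]; exact hv₁)).mono (hcN v hv₁)
  obtain ⟨x, hx⟩ := exists_char_of_artKer_le K (IntermediateField.fixedField A₀) S₁ ψ hker
  refine ⟨x, S₁, hur₁, fun v hv => ?_⟩
  have h1 : Finsupp.single v (1 : ℤ) ∈ IS (S₁ : Set (Pl K)) := by
    intro u hu
    rw [Finsupp.single_apply, if_neg]
    rintro rfl
    exact hv hu
  rw [← hx _ h1, art_single, one_smul]

end descent

/-- Blueprint 9.4 (= `Out.cft2` with `Over` unfolded) -/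
theorem cft2_P9 {ℓ : ℕ} (hℓ : ℓ.Prime) (h2 : ℓ ≠ 2) (K : Type u) [Field K] [NumberField K] (hμ : HasMu ℓ K)
    (k N : ℕ) (ψ : Div K →+ ZMod (ℓ ^ k))
    (hψ : ∀ a : Kˣ, (∀ v : Pl K, (ℓ : 𝓞 K) ∈ v.asIdeal → One v N (a : K)) → ψ (dv (a : K)) = 0) :
    ∃ (L : Type u) (_ : Field L) (_ : NumberField L) (_ : Algebra K L) (_ : IsAbelianGalois K L)
      (x : Additive Gal(L/K) →+ ZMod (ℓ ^ k)) (S : Finset (Pl K)),
      (∀ v ∉ S, Unram K L v) ∧
      ∀ v ∉ S, x (Additive.ofMul (frob K L v)) = ψ (Finsupp.single v 1) := by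
  classical
  have hn : 0 < ℓ ^ k := pow_pos hℓ.pos k
  have : NeZero (ℓ ^ k) := ⟨hn.ne'⟩
  let K' := CyclotomicField (ℓ ^ k) K
  have : NumberField K' := IsCyclotomicExtension.numberField {ℓ ^ k} K K'
  obtain ⟨hgal, hcyc, j₁, hj₁⟩ := cyclotomic_ellpow hℓ h2 K hμ k K'
  obtain ⟨S, hTS, hcl⟩ := exists_finset_ClS_above K K' (finite_over ℓ hℓ.ne_zero K).toFinset
  have hfin : (above K K' (S : Set (Pl K))).Finite := above_finite K K' S.finite_toSet
  obtain ⟨S', hS'c⟩ : ∃ S' : Finset (Pl K'), (S' : Set (Pl K')) = above K K' (S : Set (Pl K)) :=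
    ⟨hfin.toFinset, hfin.coe_toFinset⟩
  have hμ' : ∃ ζ : K', IsPrimitiveRoot ζ (ℓ ^ k) :=
    ⟨_, IsCyclotomicExtension.zeta_spec (ℓ ^ k) K K'⟩
  have hμℓ' : HasMu ℓ K' := hμ.map K'
  have : IsTotallyComplex K' := hμℓ'.isTotallyComplex hℓ h2
  obtain ⟨L', _, _, _, hkum⟩ :=
    exists_isKummer (ℓ ^ k) hn K' ((S' : Set (Pl K')).unit K') (sunit_fg S')
  let _ : Algebra K L' := ((algebraMap K' L').comp (algebraMap K K')).toAlgebra
  have : IsScalarTower K K' L' := IsScalarTower.of_algebraMap_eq fun _ => rfl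
  have : IsAbelianGalois K' L' := hkum.isAbelianGalois hn hμ'
  have : FiniteDimensional K L' := Module.Finite.trans K' L'
  have : IsGalois K L' := hkum.isGalois_tower hn K hμ' (fun g a ha => by
    rw [hS'c] at ha ⊢
    exact unit_above_stable K K' g _ a ha)
  have hmemS' : ∀ w : Pl K', w ∈ S' ↔ below K K' w ∈ S := by
    intro w
    rw [← Finset.mem_coe, hS'c, mem_above_iff, Finset.mem_coe]
  have hS' : ∀ w : Pl K', (ℓ : 𝓞 K') ∈ w.asIdeal → w ∈ S' := by
    intro w hw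
    rw [hmemS']
    refine hTS ?_
    rw [Set.Finite.mem_toFinset]
    show (ℓ : 𝓞 K) ∈ (below K K' w).asIdeal
    show (ℓ : 𝓞 K) ∈ w.asIdeal.under (𝓞 K)
    rw [Ideal.under_def, Ideal.mem_comap, map_natCast]
    exact hw
  have hS'ord : ∀ w : Pl K', ord w ((ℓ ^ k : ℕ) : K') ≠ 0 → w ∈ S' := by
    intro w hw
    refine hS' w ((over_iff ℓ hℓ.ne_zero w).2 ?_)
    intro h0
    apply hw
    rw [Nat.cast_pow, ord_pow, h0, mul_zero]
  have hψS : ∀ a : Kˣ, (∀ v ∈ S, One v N (a : K)) → ψ (dv (a : K)) = 0 := by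
    intro a ha
    refine hψ a fun v hv => ha v (hTS ?_)
    rw [Set.Finite.mem_toFinset]
    exact hv
  obtain ⟨x', hx'⟩ := cft2_mu hℓ h2 hμℓ' k hμ' S' hS' (by rw [hS'c]; exact hcl) hkum
    (N * Module.finrank K K') (ψ.comp (Nm K K')) (by
      intro a' ha'
      refine psi_comp_Nm_congr K K' (S : Set (Pl K)) N ψ hψS a' ?_
      intro w hw
      exact ha' w ((hmemS' w).2 hw))
  rw [hS'c] at hx'
  have hdeg : ∃ j, Module.finrank K L' = ℓ ^ j := by
    refine ⟨j₁ + k * (S'.card + InfinitePlace.nrComplexPlaces K'), ?_⟩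
    rw [← Module.finrank_mul_finrank K K' L', hj₁, kumS_finrank hn hμ' S' hkum, ← pow_mul, ← pow_add]
  have hur : ∀ w : Pl K', below K K' w ∉ S → Unram K' L' w := by
    intro w hw
    exact kumS_unram hn hμ' S' hS'ord hkum w (fun h => hw ((hmemS' w).1 h))
  obtain ⟨E, hab, x, S₁, h₁, h₂⟩ := cft2_descent hℓ h2 K K' L' hμ hdeg S hur N ψ hψS x' hx'
  exact ⟨E, inferInstance, inferInstance, inferInstance, hab, x, S₁, h₁, h₂⟩

end Claimed.Agent.R239.CFT
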